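import Mathlib
import Vale.Agent.P249.Reduce
import Vale.Agent.P249.Glue

/-! Shared vocabulary for the sublinear-dimension theorem. -/

namespace Vale.Agent.P249.Full

open Finset

variable {ι : Type*} [Fintype ι] {n : ℕ}

/-- The `ℓ_p` norm of a finite vector. -/
noncomputable def lpN (p : ℝ) (v : ι → ℝ) : ℝ := (∑ k, |v k| ^ p) ^ (1 / p)

/-- The `ℓ_p` distance between two members of a family. -/
noncomputable def lpD (p : ℝ) (X : Fin n → ι → ℝ) (i j : Fin n) : ℝ :=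
  lpN p (fun k => X i k - X j k)

/-- Weight vectors: probability vectors on `Fin n`. -/
structure IsW (w : Fin n → ℝ) : Prop where
  nonneg : ∀ z, 0 ≤ w z
  sum_one : ∑ z, w z = 1

/-- Twice the total variation distance. -/
noncomputable def tv (w w' : Fin n → ℝ) : ℝ := ∑ z, |w z - w' z|

/-- `log n + 1`. -/
noncomputable def logL (n : ℕ) : ℝ := Real.log n + 1

/-- Capped growth of balls around scale `2 ^ i`. -/
noncomputable def nuG (t : Fin n → Fin n → ℝ) (β : ℝ) (K : ℕ) (i : ℤ) (y : Fin n) : ℝ :=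
  1 + min β (logBall t y ((2:ℝ) ^ (i + K)) - logBall t y ((2:ℝ) ^ (i - K)))

lemma one_le_logL (n : ℕ) : 1 ≤ logL n := by
  have := Real.log_natCast_nonneg n
  unfold logL; linarith

lemma logL_pos (n : ℕ) : 0 < logL n := lt_of_lt_of_le one_pos (one_le_logL n)

lemma lpN_nonneg (p : ℝ) (v : ι → ℝ) : 0 ≤ lpN p v :=
  Real.rpow_nonneg (Finset.sum_nonneg fun _ _ => Real.rpow_nonneg (abs_nonneg _) _) _

lemma lpN_rpow {p : ℝ} (hp : 0 < p) (v : ι → ℝ) : lpN p v ^ p = ∑ k, |v k| ^ p := by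
  rw [lpN, ← Real.rpow_mul (Finset.sum_nonneg fun _ _ => Real.rpow_nonneg (abs_nonneg _) _),
    one_div_mul_cancel hp.ne', Real.rpow_one]

lemma lpN_le_iff {p : ℝ} (hp : 0 < p) (v : ι → ℝ) {c : ℝ} (hc : 0 ≤ c) :
    lpN p v ≤ c ↔ ∑ k, |v k| ^ p ≤ c ^ p := by
  rw [← lpN_rpow hp v, Real.rpow_le_rpow_iff (lpN_nonneg p v) hc hp]

lemma lpN_add_le {p : ℝ} (hp : 1 ≤ p) (u v : ι → ℝ) :
    lpN p (fun k => u k + v k) ≤ lpN p u + lpN p v :=
  Real.Lp_add_le _ u v hp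

lemma lpN_mul {p : ℝ} (hp : 0 < p) (c : ℝ) (v : ι → ℝ) :
    lpN p (fun k => c * v k) = |c| * lpN p v := by
  have h0 : 0 ≤ ∑ k, |v k| ^ p := Finset.sum_nonneg fun _ _ => Real.rpow_nonneg (abs_nonneg _) _
  simp only [lpN, abs_mul, Real.mul_rpow (abs_nonneg c) (abs_nonneg _), ← Finset.mul_sum]
  rw [Real.mul_rpow (Real.rpow_nonneg (abs_nonneg c) _) h0, ← Real.rpow_mul (abs_nonneg c),
    mul_one_div_cancel hp.ne', Real.rpow_one]

lemma lpN_zero {p : ℝ} (hp : 0 < p) : lpN p (fun _ : ι => (0:ℝ)) = 0 := by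
  simp [lpN, Real.zero_rpow hp.ne', hp.ne']

lemma lpN_sum_le {p : ℝ} (hp : 1 ≤ p) {α : Type*} (s : Finset α) (v : α → ι → ℝ) :
    lpN p (fun k => ∑ a ∈ s, v a k) ≤ ∑ a ∈ s, lpN p (v a) := by
  classical
  induction s using Finset.induction with
  | empty => simp [lpN_zero (lt_of_lt_of_le one_pos hp)]
  | @insert a s ha ih =>
    simp only [Finset.sum_insert ha]
    exact (lpN_add_le hp _ _).trans (add_le_add le_rfl ih)

lemma lpN_sum_mul_le {p : ℝ} (hp : 1 ≤ p) {α : Type*} (s : Finset α) (c : α → ℝ)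
    (v : α → ι → ℝ) :
    lpN p (fun k => ∑ a ∈ s, c a * v a k) ≤ ∑ a ∈ s, |c a| * lpN p (v a) := by
  refine (lpN_sum_le hp s fun a k => c a * v a k).trans (le_of_eq ?_)
  exact Finset.sum_congr rfl fun a _ => lpN_mul (lt_of_lt_of_le one_pos hp) _ _

lemma lpD_nonneg (p : ℝ) (X : Fin n → ι → ℝ) (i j : Fin n) : 0 ≤ lpD p X i j := lpN_nonneg _ _

lemma lpD_eq (p : ℝ) (X : Fin n → ι → ℝ) (i j : Fin n) :
    lpD p X i j = powDist p (X i) (X j) ^ (1 / p) := rfl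

lemma lpD_rpow {p : ℝ} (hp : 0 < p) (X : Fin n → ι → ℝ) (i j : Fin n) :
    lpD p X i j ^ p = powDist p (X i) (X j) := lpN_rpow hp _

lemma lpD_tri {p : ℝ} (hp : 1 ≤ p) (X : Fin n → ι → ℝ) (i j l : Fin n) :
    lpD p X i l ≤ lpD p X i j + lpD p X j l := by
  have := lpN_add_le hp (fun k => X i k - X j k) (fun k => X j k - X l k)
  simpa [lpD] using this

lemma fmetric_lpD {p : ℝ} (hp : 1 ≤ p) {X : Fin n → ι → ℝ} (hX : Function.Injective X) :
    FMetric (lpD p X) where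
  self x := by
    have := lpN_zero (ι := ι) (p := p) (by linarith)
    simpa [lpD] using this
  symm x y := by simp [lpD, lpN, abs_sub_comm]
  tri x y z := lpD_tri hp X x y z
  pos x y h := by
    rw [lpD_eq]
    exact Real.rpow_pos_of_pos (powDist_pos (hX.ne h)) _

lemma tv_nonneg (w w' : Fin n → ℝ) : 0 ≤ tv w w' := Finset.sum_nonneg fun _ _ => abs_nonneg _

lemma tv_comm (w w' : Fin n → ℝ) : tv w w' = tv w' w := by simp [tv, abs_sub_comm]

lemma tv_tri (u v w : Fin n → ℝ) : tv u w ≤ tv u v + tv v w := by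
  rw [tv, tv, tv, ← Finset.sum_add_distrib]
  exact Finset.sum_le_sum fun z _ => abs_sub_le _ _ _

lemma tv_le_two {w w' : Fin n → ℝ} (h : IsW w) (h' : IsW w') : tv w w' ≤ 2 := by
  calc tv w w' ≤ ∑ z, (w z + w' z) := Finset.sum_le_sum fun z _ => abs_le.2
          ⟨by linarith [h.nonneg z, h'.nonneg z], by linarith [h.nonneg z, h'.nonneg z]⟩
    _ = 2 := by rw [Finset.sum_add_distrib, h.sum_one, h'.sum_one]; norm_num

lemma abs_sum_sub_le_tv {w w' : Fin n → ℝ} {g : Fin n → ℝ} {c : ℝ} (hg : ∀ z, |g z| ≤ c) :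
    |∑ z, w z * g z - ∑ z, w' z * g z| ≤ tv w w' * c := by
  rw [← Finset.sum_sub_distrib, tv, Finset.sum_mul]
  refine (Finset.abs_sum_le_sum_abs _ _).trans (Finset.sum_le_sum fun z _ => ?_)
  rw [← sub_mul, abs_mul]
  exact mul_le_mul_of_nonneg_left (hg z) (abs_nonneg _)

lemma IsW.comb {w w' : Fin n → ℝ} (h : IsW w) (h' : IsW w') {lam : ℝ} (h0 : 0 ≤ lam)
    (h1 : lam ≤ 1) : IsW (fun z => lam * w z + (1 - lam) * w' z) where
  nonneg z := by nlinarith [mul_nonneg h0 (h.nonneg z), mul_nonneg (sub_nonneg.2 h1) (h'.nonneg z)]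
  sum_one := by
    rw [Finset.sum_add_distrib, ← Finset.mul_sum, ← Finset.mul_sum, h.sum_one, h'.sum_one]; ring

lemma one_le_nuG (t : Fin n → Fin n → ℝ) {β : ℝ} (hβ : 0 ≤ β) (K : ℕ) (i : ℤ) (y : Fin n) :
    1 ≤ nuG t β K i y := by
  have h2 : (2:ℝ) ^ (i - K) ≤ (2:ℝ) ^ (i + K) :=
    zpow_le_zpow_right₀ (by norm_num) (by omega)
  have := logBall_mono t y h2
  unfold nuG
  linarith [le_min hβ (sub_nonneg.2 this)]

lemma nuG_le (t : Fin n → Fin n → ℝ) (β : ℝ) (K : ℕ) (i : ℤ) (y : Fin n) :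
    nuG t β K i y ≤ 1 + β := by
  unfold nuG
  linarith [min_le_left β (logBall t y ((2:ℝ) ^ (i + K)) - logBall t y ((2:ℝ) ^ (i - K)))]

lemma nuG_mono (t : Fin n → Fin n → ℝ) (β : ℝ) {K K' : ℕ} {i i' : ℤ} (y : Fin n)
    (h1 : i' - K' ≤ i - K) (h2 : i + K ≤ i' + K') : nuG t β K i y ≤ nuG t β K' i' y := by
  have e1 := logBall_mono t y (zpow_le_zpow_right₀ (by norm_num : (1:ℝ) ≤ 2) h1)
  have e2 := logBall_mono t y (zpow_le_zpow_right₀ (by norm_num : (1:ℝ) ≤ 2) h2)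
  unfold nuG
  exact add_le_add le_rfl (min_le_min le_rfl (by linarith))

/-- A `p`-th power error gives a norm bound. -/
lemma le_two_mul_of_rpow {p : ℝ} (hp : 1 ≤ p) {a b s ε : ℝ} (ha : 0 ≤ a) (hb : 0 ≤ b) (hs : 0 ≤ s)
    (hε : ε ≤ 1) (h : |a ^ p - b ^ p| ≤ ε * (s ^ p + b ^ p)) : a ≤ 2 * (b + s) := by
  have hp0 : 0 < p := by linarith
  have h1 : b ^ p + s ^ p ≤ (b + s) ^ p := Real.add_rpow_le_rpow_add hb hs hp
  have h2 : a ^ p ≤ 2 * (b + s) ^ p := by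
    have := (abs_le.1 h).2
    nlinarith [Real.rpow_nonneg hb p, Real.rpow_nonneg hs p]
  have h3 : (2:ℝ) ≤ 2 ^ p := Real.self_le_rpow_of_one_le (by norm_num) hp
  have h4 : a ^ p ≤ (2 * (b + s)) ^ p := by
    rw [Real.mul_rpow (by norm_num) (by linarith)]
    exact h2.trans (mul_le_mul_of_nonneg_right h3 (Real.rpow_nonneg (by linarith) _))
  exact (Real.rpow_le_rpow_iff ha (by linarith) hp0).1 h4

/-- Padding with zero coordinates. -/
lemma exists_pad {p : ℝ} (hp : 0 < p) {d d' : ℕ} (h : d ≤ d') (Φ : Fin n → Fin d → ℝ) :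
    ∃ Ψ : Fin n → Fin d' → ℝ, (∀ i, Φ i = 0 → Ψ i = 0) ∧
      (∀ i j, powDist p (Ψ i) (Ψ j) = powDist p (Φ i) (Φ j)) ∧
      ∀ i, powDist p (Ψ i) 0 = powDist p (Φ i) 0 := by
  obtain ⟨e, rfl⟩ := Nat.exists_eq_add_of_le h
  refine ⟨fun i => Fin.append (Φ i) (fun _ => 0), fun i hi => ?_, fun i j => ?_, fun i => ?_⟩
  · funext k
    refine Fin.addCases (fun a => ?_) (fun a => ?_) k <;> simp [hi]
  · simp [powDist, Fin.sum_univ_add, Real.zero_rpow hp.ne']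
  · simp [powDist, Fin.sum_univ_add, Real.zero_rpow hp.ne']

end Vale.Agent.P249.Full
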