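import Mathlib
import Vale.Agent.P249.Full.Basic

/-! Definitions for the split: majority means and stopped chains. -/

namespace Vale.Agent.P249.Full

open Finset

variable {n : ℕ}

/-- The indicator of `θ < x`. -/
noncomputable def gtInd (θ x : ℝ) : ℝ := if θ < x then 1 else 0

/-- Weight of the points whose value is farther than `θ` from that of `z`. -/
noncomputable def phiAt (θ : ℝ) (u w : Fin n → ℝ) (z : Fin n) : ℝ :=
  ∑ z', w z' * gtInd θ |u z - u z'|

/-- The probability that two samples have values farther apart than `θ`. -/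
noncomputable def crossStat (θ : ℝ) (u w w' : Fin n → ℝ) : ℝ :=
  ∑ z, ∑ z', w z * w' z' * gtInd θ |u z - u z'|

/-- Clamp to `[0,1]`. -/
noncomputable def ramp01 (x : ℝ) : ℝ := max 0 (min 1 x)

/-- Soft indicator of the majority cluster. -/
noncomputable def chiAt (θ : ℝ) (u w : Fin n → ℝ) (z : Fin n) : ℝ :=
  ramp01 (8 * (3 / 8 - phiAt θ u w z))

/-- Total weight of the majority cluster. -/
noncomputable def majMass (θ : ℝ) (u w : Fin n → ℝ) : ℝ := ∑ z, w z * chiAt θ u w z

/-- Weights of the majority mean. -/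
noncomputable def majC (θ : ℝ) (u w : Fin n → ℝ) (z : Fin n) : ℝ :=
  w z * (chiAt θ u w z / max (majMass θ u w) (1 / 2) + max 0 (1 - 2 * majMass θ u w))

/-- The majority mean. -/
noncomputable def majMean (θ : ℝ) (u w : Fin n → ℝ) : ℝ := ∑ z, majC θ u w z * u z

/-- The threshold of the split statistics. -/
noncomputable def eta0 : ℝ := 1 / 64

/-- Stopping probability. -/
noncomputable def psiOf (q : ℕ) (φ : ℝ) : ℝ := ramp01 ((φ - eta0 / 2) * (2 / eta0)) ^ q

/-- Probability of not stopping from `i` up to `T`. -/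
noncomputable def piW (q : ℕ) (φ : ℕ → ℝ) (i T : ℕ) : ℝ := ∏ j ∈ Ico i T, (1 - psiOf q (φ j))

/-- Clip to `[-c, c]`. -/
noncomputable def clipTo (c v : ℝ) : ℝ := max (-c) (min c v)

/-- The stopped chain from the top `T` down to `i0`. -/
noncomputable def chainVal (q : ℕ) (θ φ M : ℕ → ℝ) (i0 T : ℕ) : ℝ :=
  M T + ∑ i ∈ Ico i0 T, piW q φ i T * clipTo (16 * θ i) (M i - M (i + 1))

/-- Windowed average. -/
noncomputable def winAvg (L : ℕ) (a : ℕ → ℝ) (l : ℕ) : ℝ := (∑ l' ∈ Ico l (l + L), a l') / L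

end Vale.Agent.P249.Full
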