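import Mathlib
import Vale.Agent.P249.Full.SplitDefs

/-! The statements of the parts of the split. -/

namespace Vale.Agent.P249.Full

open Finset

/-- Properties of majority means. -/
def MajorityStmt : Prop :=
  ∀ (n : ℕ) (u w w' : Fin n → ℝ), IsW w → IsW w' → ∀ θ θ' : ℝ, 0 ≤ θ → 0 ≤ θ' →
    (IsW (majC θ u w) ∧ ∀ z, majC θ u w z ≤ 3 * w z) ∧
    (∀ v, |majMean θ u w - v| ≤ 3 * ∑ z, w z * |u z - v|) ∧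
    (crossStat θ u w' w' ≤ eta0 → tv w w' ≤ 1 / 64 →
      |majMean θ u w - majMean θ u w'| ≤ 200 * tv w w' * θ) ∧
    (crossStat θ u w w ≤ 3 * eta0 → crossStat θ' u w' w' ≤ 3 * eta0 →
      crossStat θ' u w w' ≤ 3 * eta0 → |majMean θ u w - majMean θ' u w'| ≤ 2 * θ + 3 * θ') ∧
    ((∀ z z', w z ≠ 0 → w z' ≠ 0 → |u z - u z'| ≤ θ) →
      majMean θ u w = ∑ z, w z * u z) ∧
    ((∀ z z', w z ≠ 0 → w' z' ≠ 0 → |u z - u z'| ≤ θ) → crossStat θ u w w' = 0) ∧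
    (0 ≤ crossStat θ u w w' ∧
      ∀ a b : Fin n → ℝ, IsW a → IsW b →
        |crossStat θ u w w' - crossStat θ u a b| ≤ tv w a + tv w' b) ∧
    ∀ p : ℝ, 1 ≤ p → ∀ J : ℕ,
      ∑ l ∈ range J, (θ * 2 ^ l) ^ p * crossStat (θ * 2 ^ l) u w w'
        ≤ 2 * ∑ z, ∑ z', w z * w' z' * |u z - u z'| ^ p

/-- Comparison of two stopped chains. -/
def ChainStmt : Prop :=
  ∀ q : ℕ, 2 ≤ q → ∃ C : ℝ, 0 < C ∧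
    ∀ (T i0 is : ℕ) (θ ν e φ φ' M M' : ℕ → ℝ) (Z E : ℝ), i0 ≤ is → is ≤ T → 0 ≤ Z → 0 ≤ E →
    (∀ i, 0 ≤ θ i) → (∀ i, θ (i + 1) = 2 * θ i) → (∀ i, 0 ≤ ν i) → (∀ i, 0 ≤ e i) →
    (∀ i ∈ Ico i0 T, φ i < eta0 → |M i - M (i + 1)| ≤ 16 * θ i) →
    (∀ i ∈ Ico i0 T, φ' i < eta0 → |M' i - M' (i + 1)| ≤ 16 * θ i) →
    (∀ i ∈ Ico is T, φ' i < eta0 → |M i - M (i + 1)| ≤ 16 * θ i) →
    (∀ i ∈ Ico is T, (i + 1 = T ∨ φ' (i + 1) < eta0) → |M (i + 1) - M' (i + 1)| ≤ Z * ν i) →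
    (∀ i ∈ Ico is T, |φ i - φ' i| ≤ e i ∧ e i * θ i ≤ Z * ν i) →
    (∑ i ∈ Ico is T, e i ^ q ≤ E) →
    (∀ i ∈ Ico i0 is, θ is ≤ Z * ν i ∧
      ((is = T ∨ φ' is < eta0) → |M is - M' is| ≤ Z * ν i)) →
    ∃ P : ℝ, 0 ≤ P ∧ P ≤ 1 ∧
      ((∀ i ∈ Ico i0 T, φ i ≤ eta0 / 2 ∧ φ' i ≤ eta0 / 2) → P = 1) ∧
      |chainVal q θ φ M i0 T - chainVal q θ φ' M' i0 T - P * (M i0 - M' i0)|
        ≤ C * (1 + E) * Z *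
          (∑ i ∈ (Ico i0 T).filter (fun i => eta0 / 2 < φ i ∨ eta0 / 2 < φ' i),
            ν i ^ q) ^ (1 / (q:ℝ))

/-- Averaging stopped chains over windows of levels. -/
def WindowStmt (p : ℝ) : Prop :=
  ∃ C : ℝ, 0 < C ∧ ∀ (N J L : ℕ), 1 ≤ L → L ≤ J →
    ∀ (G0 t δ δ1 K Amax H Hc : ℝ) (s d : Fin N → ℝ) (a P e D A : Fin N → ℕ → ℝ),
    0 < G0 → 0 < t → 0 ≤ δ → 0 < δ1 → δ1 ≤ 1 → 1 ≤ K → 1 ≤ Amax → 0 ≤ H → 0 ≤ Hc →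
    (∀ k, 0 ≤ s k) → ∑ k, |d k| ^ p = t ^ p →
    (∀ k, ∀ l < J, a k l = P k l * d k + e k l + D k l) →
    (∀ k, ∀ l < J, 0 ≤ P k l ∧ P k l ≤ 1) →
    (∀ l < J, ∑ k, |e k l| ^ p ≤ (δ * t) ^ p) →
    (∀ k, ∀ l < J, |D k l| ≤ G0 * 2 ^ l * s k * t * A k l) →
    (∀ k, ∀ l < J, A k l = 0 ∨ (1 ≤ A k l ∧ A k l ≤ Amax)) →
    ∑ k, ∑ l ∈ range J, (G0 * 2 ^ l * s k * t * A k l) ^ p ≤ H * t ^ p →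
    ∑ k, ∑ l ∈ range J, (if P k l < 1 then (G0 * 2 ^ l * s k * t) ^ p else 0) ≤ Hc * t ^ p →
    (∀ k, ∀ l < J, |a k l| ≤ K * (G0 * 2 ^ l) * s k * t) →
    let J1 : ℕ := J - L + 1
    let τ : ℝ := (1 + Real.log (2 + Amax)) ^ (p - 1) * H / ((L:ℝ) ^ (p - 1) * J1)
    let F : ℝ := (∑ l ∈ range J1, ∑ k,
      (|winAvg L (a k) l| ^ p + |d k - winAvg L (a k) l| ^ p)) / J1
    F ≤ C * (t * (1 + δ + τ ^ (1 / p))) ^ p ∧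
      (δ ≤ 1 → τ ≤ 1 → |F - t ^ p| ≤ C * (δ + δ1 + τ ^ (1 / p) + δ1 ^ p * Hc / J1
        + (L + Real.logb 2 (K / δ1 ^ 2) + 3) / J1) * t ^ p)

/-- Radii of balls with `m` points and a small set of centres. -/
def CentresStmt : Prop :=
  ∀ (n : ℕ) (t : Fin n → Fin n → ℝ), FMetric t → ∀ m : ℕ, 2 ≤ m → m ≤ n →
    ∃ (ρ : Fin n → ℝ) (Cs : Finset (Fin n)) (cm : Fin n → Fin n),
      (∀ y, 0 < ρ y) ∧ (∀ y y', ρ y ≤ ρ y' + t y y') ∧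
      (∀ y R, R < ρ y → (ballF t y R).card ≤ m) ∧ Cs.card * m ≤ n ∧
      ∀ y, cm y ∈ Cs ∧ ρ (cm y) ≤ ρ y ∧ t y (cm y) ≤ 2 * ρ y

/-- Weights that turn into weights on centres above the radius `ρ`. -/
def StarStmt : Prop :=
  ∃ C : ℝ, 1 ≤ C ∧ ∀ (n : ℕ) (t : Fin n → Fin n → ℝ), FMetric t →
    ∀ (ρ : Fin n → ℝ) (Cs : Finset (Fin n)) (cm : Fin n → Fin n),
    (∀ y, 0 < ρ y) → (∀ y y', ρ y ≤ ρ y' + t y y') → (∀ y, cm y ∈ Cs ∧ t y (cm y) ≤ 2 * ρ y) →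
    ∀ (β Cw : ℝ) (w : ℤ → Fin n → Fin n → ℝ), 0 ≤ β → 1 ≤ Cw →
    (∀ i y, IsW (w i y)) → (∀ i y z, w i y z ≠ 0 → t y z ≤ 4 * (2:ℝ) ^ i) →
    (∀ i y y', tv (w i y) (w i y') ≤ Cw * nuG t β 5 i y * (t y y' / (2:ℝ) ^ i)) →
    ∃ ws : ℤ → Fin n → Fin n → ℝ, (∀ i y, IsW (ws i y)) ∧
      (∀ i y z, ws i y z ≠ 0 → t y z ≤ C * (2:ℝ) ^ i ∧
        (ρ y ≤ (2:ℝ) ^ i → z ∈ Cs ∧ t y z ≤ C * ρ y)) ∧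
      (∀ i j y, ρ y ≤ (2:ℝ) ^ i → ρ y ≤ (2:ℝ) ^ j → ws i y = ws j y) ∧
      ∀ i y y', (2:ℝ) ^ i ≤ 128 * max (ρ y) (ρ y') →
        tv (ws i y) (ws i y') ≤ C * Cw * nuG t β 25 i y * (t y y' / (2:ℝ) ^ i)

end Vale.Agent.P249.Full
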