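import Mathlib
import Vale.Agent.P249.Full.SplitSpec

/-!
The environment of the split (weights on all scales, radii, sensitivities of the centres),
the level functions, and the statements about them.
-/

namespace Vale.Agent.P249.Full

open Finset

/-- The data of the split of `X`, with one constant `Cx` for all its bounds. -/
structure SplitEnv (p Cx : ℝ) (n N : ℕ) where
  X : Fin n → Fin N → ℝ
  ρ : Fin n → ℝ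
  Cs : Finset (Fin n)
  W : ℕ → Fin n → Fin n → ℝ
  s : Fin N → ℝ
  base : ℤ
  T : ℕ
  B : ℕ
  β : ℝ
  injX : Function.Injective X
  one_le_p : 1 ≤ p
  one_le_Cx : 1 ≤ Cx
  one_le_β : 1 ≤ β
  ρ_pos : ∀ y, 0 < ρ y
  ρ_lip : ∀ y y', ρ y ≤ ρ y' + lpD p X y y'
  s_nonneg : ∀ k, 0 ≤ s k
  sens : ∀ k, ∀ c ∈ Cs, ∀ c' ∈ Cs, |X c k - X c' k| ≤ s k * lpD p X c c'
  isW : ∀ i y, IsW (W i y)
  supp : ∀ i y z, W i y z ≠ 0 → lpD p X y z ≤ Cx * (2:ℝ) ^ (base + i)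
  pure : ∀ (i : ℕ) y, ρ y ≤ (2:ℝ) ^ (base + i) →
    ∀ z, W i y z ≠ 0 → z ∈ Cs ∧ lpD p X y z ≤ Cx * ρ y
  stable : ∀ (i j : ℕ) y, ρ y ≤ (2:ℝ) ^ (base + i) → ρ y ≤ (2:ℝ) ^ (base + j) → W i y = W j y
  tv_le : ∀ (i : ℕ) y y', (2:ℝ) ^ (base + i) ≤ 128 * max (ρ y) (ρ y') →
    tv (W i y) (W i y') ≤ Cx * nuG (lpD p X) β 25 (base + i) y
      * (lpD p X y y' / (2:ℝ) ^ (base + i))
  base_le : ∀ y, 8 * (2:ℝ) ^ base * 2 ^ B ≤ ρ y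
  top_ρ : ∀ y, 128 * ρ y ≤ (2:ℝ) ^ (base + T)
  top_t : ∀ y y', lpD p X y y' ≤ (2:ℝ) ^ (base + T)

namespace SplitEnv

variable {p Cx : ℝ} {n N : ℕ} (V : SplitEnv p Cx n N)

/-- The radius of index `i`. -/
noncomputable def r (i : ℕ) : ℝ := (2:ℝ) ^ (V.base + i)

/-- The threshold of coordinate `k`, level `l`, scale `i`. -/
noncomputable def θ (k : Fin N) (l i : ℕ) : ℝ := (4 * Cx + 1) * 2 ^ l * V.s k * V.r i

/-- The one coordinate functional. -/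
def u (k : Fin N) : Fin n → ℝ := fun z => V.X z k

/-- The pair statistic. -/
noncomputable def φ (k : Fin N) (l : ℕ) (y : Fin n) (i : ℕ) : ℝ :=
  crossStat (V.θ k l i) (V.u k) (V.W i y) (V.W i y)
    + crossStat (V.θ k l (i + 1)) (V.u k) (V.W (i + 1) y) (V.W (i + 1) y)
    + crossStat (V.θ k l (i + 1)) (V.u k) (V.W i y) (V.W (i + 1) y)

/-- The majority mean at one scale. -/
noncomputable def M (k : Fin N) (l : ℕ) (y : Fin n) (i : ℕ) : ℝ :=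
  majMean (V.θ k l i) (V.u k) (V.W i y)

/-- The cut below the scale `2 ^ (-B) * ρ`. -/
noncomputable def ω (y : Fin n) (i : ℕ) : ℝ := ramp01 (V.r i * 2 ^ V.B / V.ρ y - 1)

/-- The exponent of the stopping rule. -/
noncomputable def q (_V : SplitEnv p Cx n N) : ℕ := max 2 ⌈p⌉₊

/-- The level function. -/
noncomputable def levelVal (k : Fin N) (l : ℕ) (y : Fin n) : ℝ :=
  V.M k l y V.T + ∑ i ∈ range V.T,
    V.ω y i * piW V.q (V.φ k l y) i V.T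
      * clipTo (16 * V.θ k l i) (V.M k l y i - V.M k l y (i + 1))

end SplitEnv

/-- Facts at one scale. -/
def ScaleStmt (p : ℝ) : Prop :=
  ∀ (Cx : ℝ) (n N : ℕ) (V : SplitEnv p Cx n N) (k : Fin N) (l : ℕ) (y y' : Fin n) (i : ℕ),
    (0 ≤ V.θ k l i ∧ V.θ k l (i + 1) = 2 * V.θ k l i) ∧ 0 ≤ V.φ k l y i ∧
    (V.ρ y ≤ V.r i → V.φ k l y i = 0 ∧ V.M k l y (i + 1) = V.M k l y i ∧
      V.M k l y i = ∑ z, V.W i y z * V.X z k) ∧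
    (V.φ k l y i < eta0 → |V.M k l y i - V.M k l y (i + 1)| ≤ 16 * V.θ k l i) ∧
    (V.φ k l y' i < eta0 → tv (V.W i y) (V.W i y') ≤ 1 / 64 →
      tv (V.W (i + 1) y) (V.W (i + 1) y') ≤ 1 / 64 →
        |V.M k l y i - V.M k l y (i + 1)| ≤ 16 * V.θ k l i) ∧
    (V.φ k l y' i < eta0 → tv (V.W i y) (V.W i y') ≤ 1 / 64 →
      |V.M k l y i - V.M k l y' i| ≤ 200 * tv (V.W i y) (V.W i y') * V.θ k l i) ∧
    |V.φ k l y i - V.φ k l y' i|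
      ≤ 3 * (tv (V.W i y) (V.W i y') + tv (V.W (i + 1) y) (V.W (i + 1) y')) ∧
    lpN p (fun k => V.M k l y i - V.X y k) ≤ 3 * Cx * V.r i ∧
    (V.ρ y ≤ V.r i → lpN p (fun k => V.M k l y i - V.X y k) ≤ 3 * Cx * V.ρ y)

/-- The energy of the scales where the statistic is large. -/
def EnergyStmt (p : ℝ) : Prop :=
  ∀ Cx : ℝ, ∃ C : ℝ, 0 < C ∧ ∀ (n N : ℕ) (V : SplitEnv p Cx n N) (y : Fin n) (i J : ℕ),
    ∑ k, ∑ l ∈ range J, (if eta0 / 2 < V.φ k l y i then V.θ k l i ^ p else 0) ≤ C * V.r i ^ p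

/-- Sensitivity of the level functions. -/
def SensStmt (p : ℝ) : Prop :=
  ∀ Cx : ℝ, ∃ C : ℝ, 1 ≤ C ∧ ∀ (n N : ℕ) (V : SplitEnv p Cx n N) (k : Fin N) (l : ℕ)
    (y y' : Fin n), |V.levelVal k l y - V.levelVal k l y'|
      ≤ C * (V.B + 1) * V.β * ((4 * Cx + 1) * 2 ^ l) * V.s k * lpD p V.X y y'

/-- The level functions stay within the local radius. -/
def NormStmt (p : ℝ) : Prop :=
  ∀ Cx : ℝ, ∃ C : ℝ, 1 ≤ C ∧ ∀ (n N : ℕ) (V : SplitEnv p Cx n N) (l : ℕ) (y : Fin n),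
    lpN p (fun k => V.X y k - V.levelVal k l y) ≤ C * V.ρ y

/-- The decomposition of the difference of level functions at a pair. -/
def PairStmt (p : ℝ) : Prop :=
  ∀ Cx : ℝ, ∃ C : ℝ, 1 ≤ C ∧ ∀ (n N : ℕ) (V : SplitEnv p Cx n N) (δ0 : ℝ), 0 < δ0 → δ0 ≤ 1 →
    ∀ (J : ℕ) (y y' : Fin n), y ≠ y' →
      ∃ (P e D A : Fin N → ℕ → ℝ) (δ Amax H Hc : ℝ), 0 ≤ δ ∧ 1 ≤ Amax ∧ 0 ≤ H ∧ 0 ≤ Hc ∧
        δ * lpD p V.X y y' ≤ C * (δ0 * lpD p V.X y y' + (V.ρ y + V.ρ y') / (2:ℝ) ^ V.B) ∧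
        Amax ≤ C * (V.B + 1) * V.β ∧
        H ≤ C * (V.β ^ p * (1 + Real.logb 2 (V.β / δ0)) + (V.B + 1)
          + V.β ^ (p - 1) * Real.log n) ∧
        Hc ≤ C * (V.B + 1) ∧
        (∀ k, ∀ l < J, V.levelVal k l y - V.levelVal k l y'
          = P k l * (V.X y k - V.X y' k) + e k l + D k l) ∧
        (∀ k, ∀ l < J, 0 ≤ P k l ∧ P k l ≤ 1) ∧
        (∀ l < J, ∑ k, |e k l| ^ p ≤ (δ * lpD p V.X y y') ^ p) ∧
        (∀ k, ∀ l < J, |D k l| ≤ (4 * Cx + 1) * 2 ^ l * V.s k * lpD p V.X y y' * A k l) ∧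
        (∀ k, ∀ l < J, A k l = 0 ∨ (1 ≤ A k l ∧ A k l ≤ Amax)) ∧
        ∑ k, ∑ l ∈ range J, ((4 * Cx + 1) * 2 ^ l * V.s k * lpD p V.X y y' * A k l) ^ p
          ≤ H * lpD p V.X y y' ^ p ∧
        ∑ k, ∑ l ∈ range J,
            (if P k l < 1 then ((4 * Cx + 1) * 2 ^ l * V.s k * lpD p V.X y y') ^ p else 0)
          ≤ Hc * lpD p V.X y y' ^ p

/-- The window parameters tend to zero. -/
def AsympStmt (p : ℝ) : Prop :=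
  ∀ ϑ : ℝ, 1 / 2 ≤ ϑ → ϑ < 1 → ∀ Cb C CB δ0 γ η : ℝ, 1 ≤ Cb → 1 ≤ C → 1 ≤ CB → 0 < δ0 → δ0 ≤ 1 →
    0 < γ → γ ≤ 1 → 0 < η → ∀ εJ : ℝ, 0 < εJ → εJ ≤ 1 / 2 →
    ∃ n0 : ℕ, ∀ n : ℕ, n0 ≤ n → ∀ m : ℕ, (n:ℝ) ^ γ ≤ m → m ≤ n → ∀ B : ℕ,
      (B : ℝ) ≤ CB * Real.log m →
      ∀ J L : ℕ, J = ⌊Real.logb 2 m / (4 * p)⌋₊ → L = max 1 ⌊εJ * J⌋₊ →
      ∀ β : ℝ, β = Cb * logL n ^ ϑ → ∀ Amax H : ℝ, 1 ≤ Amax → Amax ≤ C * (B + 1) * β → 0 ≤ H →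
        H ≤ C * (β ^ p * (1 + Real.logb 2 (β / δ0)) + (B + 1) + β ^ (p - 1) * Real.log n) →
        L ≤ J ∧
        (1 + Real.log (2 + Amax)) ^ (p - 1) * H / ((L:ℝ) ^ (p - 1) * ((J - L + 1 : ℕ) : ℝ)) ≤ η ∧
        ((B:ℝ) + 1) / ((J - L + 1 : ℕ) : ℝ) ≤ 32 * p * CB ∧
        ∀ δ1 : ℝ, η ≤ δ1 → δ1 ≤ 1 →
          ((L:ℝ) + Real.logb 2 (C * (B + 1) * β / δ1 ^ 2) + 3) / ((J - L + 1 : ℕ) : ℝ)
            ≤ 2 * εJ + η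

end Vale.Agent.P249.Full
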