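import Mathlib
import Vale.Agent.P249.Full.SplitEnv

/-! The numeric asymptotics of the window parameters. -/

namespace Vale.Agent.P249.Full

namespace Asymp

/-- A logarithm of a polynomially bounded quantity is below every power. -/
lemma one_add_log_le {δ A ℓ x : ℝ} (hδ : 0 < δ) (hA : 1 ≤ A) (hℓ : 1 ≤ ℓ) (hx : 0 < x)
    (hxA : x ≤ A * ℓ ^ (2:ℕ)) : 1 + Real.log x ≤ (1 + Real.log A + 2 / δ) * ℓ ^ δ := by
  have h1 : Real.log x ≤ Real.log A + 2 * Real.log ℓ := by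
    refine (Real.log_le_log hx hxA).trans_eq ?_
    rw [Real.log_mul (by positivity) (by positivity), Real.log_pow]
    norm_num
  have h2 := Real.log_le_rpow_div (by linarith : 0 ≤ ℓ) hδ
  have h3 : 1 ≤ ℓ ^ δ := Real.one_le_rpow hℓ hδ.le
  have h4 := Real.log_nonneg hA
  have h5 : 2 / δ * ℓ ^ δ = 2 * (ℓ ^ δ / δ) := by ring
  nlinarith

lemma logb_two_le {x : ℝ} (hx : 1 ≤ x) : Real.logb 2 x ≤ 2 * Real.log x := by
  have h2 : (1 / 2 : ℝ) ≤ Real.log 2 := by linarith [Real.log_two_gt_d9]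
  rw [Real.logb, div_le_iff₀ (by linarith)]
  nlinarith [Real.log_nonneg hx]

lemma log_le_logb_two {x : ℝ} (hx : 1 ≤ x) : Real.log x ≤ Real.logb 2 x := by
  rw [Real.logb, le_div_iff₀ (Real.log_pos (by norm_num))]
  exact mul_le_of_le_one_right (Real.log_nonneg hx) (by linarith [Real.log_two_lt_d9])

lemma tendsto_logL : Filter.Tendsto (fun n : ℕ => logL n) Filter.atTop Filter.atTop :=
  Filter.tendsto_atTop_add_const_right _ 1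
    (Real.tendsto_log_atTop.comp tendsto_natCast_atTop_atTop)

/-- The flatness ratio. -/
lemma ratio_le {p ϑ Cb C CB δ0 η εJ e δ A1 K1 K2 K3 c K' ℓ β Amax H : ℝ} {n B J L : ℕ}
    (hp : 1 < p) (hCb : 1 ≤ Cb) (hC : 1 ≤ C) (hCB : 1 ≤ CB) (hδ0 : 0 < δ0)
    (hδ01 : δ0 ≤ 1) (hη : 0 < η) (hεJ : 0 < εJ) (he1 : p * ϑ ≤ e) (he2 : 1 ≤ e)
    (he3 : (p - 1) * ϑ + 1 ≤ e) (hδ : 0 < δ) (hδp : 2 * p * δ = p - e)
    (hA1 : A1 = 3 * C * (CB + 1) * Cb) (hA1' : 1 ≤ A1)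
    (hK1 : K1 = 1 + Real.log A1 + 2 / δ) (hK2 : K2 = 2 * (1 + Real.log (Cb / δ0) + 2 / δ))
    (hK3 : K3 = C * (Cb ^ p * K2 + (CB + 1) + Cb ^ (p - 1))) (hc0 : 0 < c)
    (hK' : K' = (εJ * c / 2) ^ (p - 1) * (c / 2)) (hℓ1 : 1 ≤ ℓ) (hlogn : Real.log n = ℓ - 1)
    (hev2 : K1 ^ (p - 1) * K3 / (K' * η) ≤ ℓ ^ (p * δ)) (hβ : β = Cb * ℓ ^ ϑ) (hβ1 : 1 ≤ β)
    (hβℓ : β ≤ Cb * ℓ) (hB1 : (B:ℝ) + 1 ≤ (CB + 1) * ℓ) (hAm1 : 1 ≤ Amax)
    (hAm' : Amax ≤ C * (CB + 1) * Cb * ℓ ^ (2:ℕ)) (hH0 : 0 ≤ H)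
    (hH : H ≤ C * (β ^ p * (1 + Real.logb 2 (β / δ0)) + (B + 1) + β ^ (p - 1) * Real.log n))
    (hJc : c * ℓ ≤ J) (hLge : εJ * J / 2 ≤ L) (hdenJ : (J:ℝ) / 2 ≤ (J:ℝ) - L + 1) :
    (1 + Real.log (2 + Amax)) ^ (p - 1) * H / ((L:ℝ) ^ (p - 1) * ((J:ℝ) - L + 1)) ≤ η := by
  have hp0 : 0 < p := by linarith
  have hℓ0 : 0 < ℓ := by linarith
  have hℓ2 : (1:ℝ) ≤ ℓ ^ (2:ℕ) := one_le_pow₀ hℓ1
  have hK'0 : 0 < K' := hK' ▸ by positivity
  have hbase : 1 + Real.log (2 + Amax) ≤ K1 * ℓ ^ δ := by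
    refine hK1 ▸ one_add_log_le hδ hA1' hℓ1 (by linarith) ?_
    have h1 : Amax ≤ C * (CB + 1) * Cb * ℓ ^ (2:ℕ) := hAm'
    have h2 : 1 ≤ C * (CB + 1) * Cb * ℓ ^ (2:ℕ) := hAm1.trans h1
    rw [hA1]; linarith
  have hK10 : 0 ≤ K1 := by rw [hK1]; linarith [Real.log_nonneg hA1', div_pos two_pos hδ]
  have hlogb : 1 + Real.logb 2 (β / δ0) ≤ K2 * ℓ ^ δ := by
    have hx : 1 ≤ β / δ0 := (one_le_div hδ0).2 (by linarith)
    have h1 := one_add_log_le hδ ((one_le_div hδ0).2 (by linarith : δ0 ≤ Cb)) hℓ1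
      (by linarith) (show β / δ0 ≤ Cb / δ0 * ℓ ^ (2:ℕ) by
        rw [div_mul_eq_mul_div, pow_two]
        gcongr
        exact hβℓ.trans (mul_le_mul_of_nonneg_left (le_mul_of_one_le_left hℓ0.le hℓ1)
          (by linarith)))
    have h2 := logb_two_le hx
    rw [hK2]
    linarith
  have hK20 : 0 ≤ K2 := by
    rw [hK2]
    linarith [Real.log_nonneg ((one_le_div hδ0).2 (by linarith : δ0 ≤ Cb)), div_pos two_pos hδ]
  have hβp : β ^ p = Cb ^ p * ℓ ^ (ϑ * p) := by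
    rw [hβ, Real.mul_rpow (by linarith) (by positivity), ← Real.rpow_mul hℓ0.le]
  have hβp1 : β ^ (p - 1) = Cb ^ (p - 1) * ℓ ^ (ϑ * (p - 1)) := by
    rw [hβ, Real.mul_rpow (by linarith) (by positivity), ← Real.rpow_mul hℓ0.le]
  have t1 : β ^ p * (1 + Real.logb 2 (β / δ0)) ≤ Cb ^ p * K2 * ℓ ^ (e + δ) := by
    calc β ^ p * (1 + Real.logb 2 (β / δ0)) ≤ β ^ p * (K2 * ℓ ^ δ) :=
          mul_le_mul_of_nonneg_left hlogb (Real.rpow_nonneg (by linarith) _)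
      _ = Cb ^ p * K2 * ℓ ^ (ϑ * p + δ) := by rw [hβp, Real.rpow_add hℓ0]; ring
      _ ≤ _ := mul_le_mul_of_nonneg_left
          (Real.rpow_le_rpow_of_exponent_le hℓ1 (by linarith)) (by positivity)
  have t2 : (B:ℝ) + 1 ≤ (CB + 1) * ℓ ^ (e + δ) := by
    refine hB1.trans (mul_le_mul_of_nonneg_left ?_ (by linarith))
    exact (Real.rpow_one ℓ).symm.trans_le
      (Real.rpow_le_rpow_of_exponent_le hℓ1 (by linarith))
  have t3 : β ^ (p - 1) * Real.log n ≤ Cb ^ (p - 1) * ℓ ^ (e + δ) := by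
    calc β ^ (p - 1) * Real.log n ≤ β ^ (p - 1) * ℓ := by
          refine mul_le_mul_of_nonneg_left ?_ (Real.rpow_nonneg (by linarith) _)
          rw [hlogn]; linarith
      _ = Cb ^ (p - 1) * ℓ ^ (ϑ * (p - 1) + 1) := by
          rw [hβp1, Real.rpow_add hℓ0, Real.rpow_one]; ring
      _ ≤ _ := mul_le_mul_of_nonneg_left
          (Real.rpow_le_rpow_of_exponent_le hℓ1 (by linarith)) (by positivity)
  have hHb : H ≤ K3 * ℓ ^ (e + δ) := by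
    rw [hK3]
    calc H ≤ _ := hH
      _ ≤ C * (Cb ^ p * K2 * ℓ ^ (e + δ) + (CB + 1) * ℓ ^ (e + δ)
            + Cb ^ (p - 1) * ℓ ^ (e + δ)) :=
          mul_le_mul_of_nonneg_left (add_le_add (add_le_add t1 t2) t3) (by linarith)
      _ = _ := by ring
  have hnum : (1 + Real.log (2 + Amax)) ^ (p - 1) * H
      ≤ K1 ^ (p - 1) * K3 * ℓ ^ (p - p * δ) := by
    have hlogA := Real.log_nonneg (show 1 ≤ 2 + Amax by linarith)
    calc (1 + Real.log (2 + Amax)) ^ (p - 1) * H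
        ≤ (K1 * ℓ ^ δ) ^ (p - 1) * (K3 * ℓ ^ (e + δ)) :=
          mul_le_mul (Real.rpow_le_rpow (by linarith) hbase (by linarith)) hHb hH0
            (Real.rpow_nonneg (mul_nonneg hK10 (by positivity)) _)
      _ = K1 ^ (p - 1) * K3 * (ℓ ^ (δ * (p - 1)) * ℓ ^ (e + δ)) := by
          rw [Real.mul_rpow hK10 (by positivity), ← Real.rpow_mul hℓ0.le]; ring
      _ = _ := by
          rw [← Real.rpow_add hℓ0, show δ * (p - 1) + (e + δ) = p - p * δ by linarith]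
  have hdenb : K' * ℓ ^ p ≤ (L:ℝ) ^ (p - 1) * ((J:ℝ) - L + 1) := by
    have h1 : εJ * c / 2 * ℓ ≤ L := le_trans (by
      calc εJ * c / 2 * ℓ = εJ * (c * ℓ) / 2 := by ring
        _ ≤ εJ * J / 2 := by gcongr) hLge
    have h2 : c / 2 * ℓ ≤ (J:ℝ) - L + 1 := le_trans (by linarith) hdenJ
    calc K' * ℓ ^ p = (εJ * c / 2 * ℓ) ^ (p - 1) * (c / 2 * ℓ) := by
          rw [hK', Real.mul_rpow (by positivity) hℓ0.le,
            show ℓ ^ p = ℓ ^ (p - 1) * ℓ by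
              rw [← Real.rpow_add_one hℓ0.ne', sub_add_cancel]]
          ring
      _ ≤ _ := mul_le_mul (Real.rpow_le_rpow (by positivity) h1 (by linarith)) h2
          (by positivity) (Real.rpow_nonneg (Nat.cast_nonneg L) _)
  rw [div_le_iff₀ (lt_of_lt_of_le (by positivity) hdenb)]
  rw [div_le_iff₀ (by positivity)] at hev2
  calc _ ≤ K1 ^ (p - 1) * K3 * ℓ ^ (p - p * δ) := hnum
    _ ≤ ℓ ^ (p * δ) * (K' * η) * ℓ ^ (p - p * δ) :=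
        mul_le_mul_of_nonneg_right hev2 (by positivity)
    _ = η * (K' * (ℓ ^ (p * δ) * ℓ ^ (p - p * δ))) := by ring
    _ = η * (K' * ℓ ^ p) := by rw [← Real.rpow_add hℓ0, add_sub_cancel]
    _ ≤ _ := mul_le_mul_of_nonneg_left hdenb hη.le

/-- The middle window. -/
lemma middle_le {η εJ C β δ A1 K4 c ℓ δ1 CB Cb : ℝ} {B J L : ℕ} (hη : 0 < η) (hεJ : 0 < εJ)
    (hC : 1 ≤ C) (hβ1 : 1 ≤ β) (hB0 : (1:ℝ) ≤ (B:ℝ) + 1) (hδ : 0 < δ) (hA1' : 1 ≤ A1)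
    (hK4 : K4 = 2 * (1 + Real.log (A1 / η ^ 2) + 2 / δ) + 3) (hc0 : 0 < c) (hℓ1 : 1 ≤ ℓ)
    (hev3 : 2 * K4 / (c * η) ≤ ℓ ^ (1 - δ))
    (hpoly : C * ((B:ℝ) + 1) * β ≤ C * (CB + 1) * Cb * ℓ ^ (2:ℕ))
    (hA1 : C * (CB + 1) * Cb ≤ A1) (hJc : c * ℓ ≤ J) (hLle : (L:ℝ) ≤ εJ * J)
    (hdenJ : (J:ℝ) / 2 ≤ (J:ℝ) - L + 1) (hden0 : (0:ℝ) < (J:ℝ) - L + 1) (hd1 : η ≤ δ1)
    (hd2 : δ1 ≤ 1) :
    ((L:ℝ) + Real.logb 2 (C * (B + 1) * β / δ1 ^ 2) + 3) / ((J:ℝ) - L + 1) ≤ 2 * εJ + η := by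
  have hℓ0 : 0 < ℓ := by linarith
  have hδ10 : 0 < δ1 := lt_of_lt_of_le hη hd1
  have hη1 : η ≤ 1 := hd1.trans hd2
  have hA4 : 1 ≤ A1 / η ^ 2 := (one_le_div (by positivity)).2
    ((pow_le_one₀ hη.le hη1).trans hA1')
  have hx1 : 1 ≤ C * ((B:ℝ) + 1) * β / δ1 ^ 2 := (one_le_div (by positivity)).2
    ((pow_le_one₀ hδ10.le hd2).trans
      (one_le_mul_of_one_le_of_one_le (one_le_mul_of_one_le_of_one_le hC hB0) hβ1))
  have hxA : C * ((B:ℝ) + 1) * β / δ1 ^ 2 ≤ A1 / η ^ 2 * ℓ ^ (2:ℕ) := by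
    rw [div_mul_eq_mul_div]
    refine div_le_div₀ (by positivity) ?_ (by positivity) (pow_le_pow_left₀ hη.le hd1 2)
    exact hpoly.trans (mul_le_mul_of_nonneg_right hA1 (by positivity))
  have h1 := one_add_log_le hδ hA4 hℓ1 (by linarith) hxA
  have h2 := logb_two_le hx1
  have hδℓ : 1 ≤ ℓ ^ δ := Real.one_le_rpow hℓ1 hδ.le
  have h3 : Real.logb 2 (C * ((B:ℝ) + 1) * β / δ1 ^ 2) + 3 ≤ K4 * ℓ ^ δ := by
    rw [hK4]
    linarith
  have h4 : K4 * ℓ ^ δ ≤ η * ((J:ℝ) - L + 1) := by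
    rw [div_le_iff₀ (by positivity)] at hev3
    have h5 : 2 * K4 * ℓ ^ δ ≤ c * η * ℓ := by
      calc 2 * K4 * ℓ ^ δ ≤ ℓ ^ (1 - δ) * (c * η) * ℓ ^ δ :=
            mul_le_mul_of_nonneg_right hev3 (by positivity)
        _ = c * η * (ℓ ^ (1 - δ) * ℓ ^ δ) := by ring
        _ = _ := by rw [← Real.rpow_add hℓ0, sub_add_cancel, Real.rpow_one]
    linarith [mul_le_mul_of_nonneg_left hdenJ hη.le, mul_le_mul_of_nonneg_left hJc hη.le]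
  have h5 : (L:ℝ) ≤ 2 * εJ * ((J:ℝ) - L + 1) := by
    linarith [mul_le_mul_of_nonneg_left hdenJ hεJ.le]
  rw [div_le_iff₀ hden0]
  linarith

end Asymp

open Asymp in
/-- The window parameters tend to zero. -/
theorem asymp {p : ℝ} (hp : 1 < p) : AsympStmt p := by
  intro ϑ hϑ0 hϑ1 Cb C CB δ0 γ η hCb hC hCB hδ0 hδ01 hγ hγ1 hη εJ hεJ hεJ2
  have hp0 : 0 < p := by linarith
  -- exponents
  obtain ⟨e, he⟩ : ∃ e : ℝ, e = max (p * ϑ) (max 1 ((p - 1) * ϑ + 1)) := ⟨_, rfl⟩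
  have he1 : p * ϑ ≤ e := he ▸ le_max_left _ _
  have he2 : 1 ≤ e := he ▸ (le_max_left _ _).trans (le_max_right _ _)
  have he3 : (p - 1) * ϑ + 1 ≤ e := he ▸ (le_max_right _ _).trans (le_max_right _ _)
  have hep : e < p := he ▸ max_lt (by nlinarith) (max_lt hp (by nlinarith))
  obtain ⟨δ, hδdef⟩ : ∃ δ : ℝ, δ = (p - e) / (2 * p) := ⟨_, rfl⟩
  have hδ : 0 < δ := hδdef ▸ div_pos (by linarith) (by positivity)
  have hδp : 2 * p * δ = p - e := by rw [hδdef]; field_simp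
  have hδ1 : δ < 1 := by nlinarith
  -- constants
  obtain ⟨A1, hA1⟩ : ∃ A1 : ℝ, A1 = 3 * C * (CB + 1) * Cb := ⟨_, rfl⟩
  obtain ⟨K1, hK1⟩ : ∃ K1 : ℝ, K1 = 1 + Real.log A1 + 2 / δ := ⟨_, rfl⟩
  obtain ⟨K2, hK2⟩ : ∃ K2 : ℝ, K2 = 2 * (1 + Real.log (Cb / δ0) + 2 / δ) := ⟨_, rfl⟩
  obtain ⟨K3, hK3⟩ : ∃ K3 : ℝ, K3 = C * (Cb ^ p * K2 + (CB + 1) + Cb ^ (p - 1)) := ⟨_, rfl⟩
  obtain ⟨K4, hK4⟩ : ∃ K4 : ℝ, K4 = 2 * (1 + Real.log (A1 / η ^ 2) + 2 / δ) + 3 := ⟨_, rfl⟩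
  obtain ⟨c, hc⟩ : ∃ c : ℝ, c = γ / (16 * p) := ⟨_, rfl⟩
  have hc0 : 0 < c := hc ▸ by positivity
  obtain ⟨K', hK'⟩ : ∃ K' : ℝ, K' = (εJ * c / 2) ^ (p - 1) * (c / 2) := ⟨_, rfl⟩
  have hK'0 : 0 < K' := hK' ▸ by positivity
  -- eventual conditions
  have ev : ∀ᶠ n : ℕ in Filter.atTop,
      max (2 + 8 * p / γ) (max (2 / (εJ * c)) (1 + 8 * p / γ)) ≤ logL n ∧
      K1 ^ (p - 1) * K3 / (K' * η) ≤ logL n ^ (p * δ) ∧
      2 * K4 / (c * η) ≤ logL n ^ (1 - δ) :=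
    (tendsto_logL.eventually (Filter.eventually_ge_atTop _)).and
      ((((tendsto_rpow_atTop (by positivity)).comp tendsto_logL).eventually
        (Filter.eventually_ge_atTop _)).and
      (((tendsto_rpow_atTop (by linarith)).comp tendsto_logL).eventually
        (Filter.eventually_ge_atTop _)))
  obtain ⟨n1, hn1⟩ := Filter.eventually_atTop.1 ev
  refine ⟨max n1 2, fun n hn m hm hmn B hB J L hJ hL β hβ Amax H hAm1 hAm hH0 hH => ?_⟩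
  simp only [max_le_iff] at hn
  obtain ⟨⟨hℓa, hℓb, hℓc⟩, hev2, hev3⟩ := by simpa only [max_le_iff] using hn1 n hn.1
  have hnR : (2:ℝ) ≤ n := by exact_mod_cast hn.2
  set ℓ : ℝ := logL n with hℓ
  have hℓ1 : 1 ≤ ℓ := one_le_logL n
  have hℓ0 : 0 < ℓ := by linarith
  have hlogn : Real.log n = ℓ - 1 := by rw [hℓ, logL]; ring
  -- the size of `m`
  have hm0 : (0:ℝ) < m := lt_of_lt_of_le (Real.rpow_pos_of_pos (by linarith) γ) hm
  have hlm : γ * (ℓ - 1) ≤ Real.log m := by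
    rw [← hlogn, ← Real.log_rpow (by linarith)]
    exact Real.log_le_log (Real.rpow_pos_of_pos (by linarith) γ) hm
  have hlm' : Real.log m ≤ ℓ - 1 := hlogn ▸ Real.log_le_log hm0 (by exact_mod_cast hmn)
  have hm8 : 8 * p ≤ Real.log m := by
    refine le_trans ?_ hlm
    have h : 8 * p / γ ≤ ℓ - 1 := by linarith
    rw [div_le_iff₀ hγ] at h
    linarith
  have hJm : Real.log m / (8 * p) ≤ J := by
    have h1 := Nat.lt_floor_add_one (Real.logb 2 m / (4 * p))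
    rw [← hJ] at h1
    have h2 : Real.log m / (4 * p) ≤ Real.logb 2 m / (4 * p) := by
      gcongr
      exact log_le_logb_two (Nat.one_le_cast.2 (Nat.cast_pos.1 hm0))
    have h3 : 1 ≤ Real.log m / (8 * p) := (one_le_div (by positivity)).2 hm8
    have h4 : Real.log m / (4 * p) = Real.log m / (8 * p) + Real.log m / (8 * p) := by ring
    linarith
  have hJc : c * ℓ ≤ J := by
    have h : γ * (2 + 8 * p / γ) ≤ γ * ℓ := mul_le_mul_of_nonneg_left hℓa hγ.le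
    rw [mul_add, mul_div_cancel₀ _ hγ.ne'] at h
    refine le_trans ?_ hJm
    rw [show c * ℓ = γ * ℓ / 2 / (8 * p) by rw [hc]; ring]
    exact div_le_div_of_nonneg_right (by linarith) (by positivity)
  have hεJ1 : 2 ≤ εJ * J := by
    rw [div_le_iff₀ (by positivity)] at hℓb
    linarith [mul_le_mul_of_nonneg_left hJc hεJ.le]
  have hLeq : L = ⌊εJ * J⌋₊ := by
    rw [hL]; exact max_eq_right (Nat.le_floor (by push_cast; linarith))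
  have hLle : (L:ℝ) ≤ εJ * J := hLeq ▸ Nat.floor_le (by positivity)
  have hLge : εJ * J / 2 ≤ L := by
    have := Nat.lt_floor_add_one (εJ * J)
    rw [← hLeq] at this; linarith
  have hJ0 : (0:ℝ) < J := lt_of_lt_of_le (by positivity) hJc
  have hLJR : (L:ℝ) ≤ J := hLle.trans (mul_le_of_le_one_left hJ0.le (by linarith))
  have hLJ : L ≤ J := by exact_mod_cast hLJR
  have hden : ((J - L + 1 : ℕ) : ℝ) = J - L + 1 := by push_cast [Nat.cast_sub hLJ]; ring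
  rw [hden]
  have hdenJ : (J:ℝ) / 2 ≤ (J:ℝ) - L + 1 := by
    linarith [mul_le_mul_of_nonneg_right hεJ2 hJ0.le]
  have hden0 : (0:ℝ) < (J:ℝ) - L + 1 := by linarith
  -- sizes
  have hB1 : (B:ℝ) + 1 ≤ (CB + 1) * ℓ := by
    linarith [mul_le_mul_of_nonneg_left hlm' (by linarith : 0 ≤ CB)]
  have hB0 : (1:ℝ) ≤ (B:ℝ) + 1 := le_add_of_nonneg_left (Nat.cast_nonneg B)
  have hϑℓ : 1 ≤ ℓ ^ ϑ := Real.one_le_rpow hℓ1 (by linarith)
  have hβ1 : 1 ≤ β := hβ ▸ one_le_mul_of_one_le_of_one_le hCb hϑℓ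
  have hβℓ : β ≤ Cb * ℓ := by
    rw [hβ]
    refine mul_le_mul_of_nonneg_left ?_ (by linarith)
    exact (Real.rpow_le_rpow_of_exponent_le hℓ1 hϑ1.le).trans_eq (Real.rpow_one ℓ)
  have hpoly : C * ((B:ℝ) + 1) * β ≤ C * (CB + 1) * Cb * ℓ ^ (2:ℕ) := by
    calc C * ((B:ℝ) + 1) * β ≤ C * ((CB + 1) * ℓ) * (Cb * ℓ) := by gcongr
      _ = _ := by ring
  have hA1' : 1 ≤ A1 := by
    rw [hA1]
    linarith [one_le_mul_of_one_le_of_one_le (one_le_mul_of_one_le_of_one_le hC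
      (show 1 ≤ CB + 1 by linarith)) hCb]
  have hℓ2 : (1:ℝ) ≤ ℓ ^ (2:ℕ) := one_le_pow₀ hℓ1
  refine ⟨hLJ, ?_, ?_, ?_⟩
  · exact ratio_le hp hCb hC hCB hδ0 hδ01 hη hεJ he1 he2 he3 hδ hδp hA1 hA1' hK1 hK2 hK3
      hc0 hK' hℓ1 hlogn hev2 hβ hβ1 hβℓ hB1 hAm1 (hAm.trans hpoly) hH0 hH hJc hLge hdenJ
  · rw [div_le_iff₀ hden0]
    have h1 : (B:ℝ) + 1 ≤ 2 * CB * Real.log m := by
      linarith [mul_le_mul_of_nonneg_right hCB (show 0 ≤ Real.log m by linarith)]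
    rw [div_le_iff₀ (by positivity)] at hJm
    calc (B:ℝ) + 1 ≤ 2 * CB * Real.log m := h1
      _ ≤ 2 * CB * (J * (8 * p)) := by gcongr
      _ = 32 * p * CB * (J / 2) := by ring
      _ ≤ _ := mul_le_mul_of_nonneg_left hdenJ (by positivity)
  · intro δ1 hd1 hd2
    exact middle_le hη hεJ hC hβ1 hB0 hδ hA1' hK4 hc0 hℓ1 hev3 hpoly
      (by rw [hA1]; linarith [mul_pos (mul_pos (show (0:ℝ) < C by linarith)
        (show (0:ℝ) < CB + 1 by linarith)) (show (0:ℝ) < Cb by linarith)])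
      hJc hLle hdenJ hden0 hd1 hd2

end Vale.Agent.P249.Full
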