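import Mathlib
import Vale.Agent.P249.Full.SplitSpec

/-! Comparison of two stopped chains. -/

namespace Vale.Agent.P249.Full.Chain

open Finset

/-- The soft indicator inside `psiOf`. -/
noncomputable def softF (φ : ℝ) : ℝ := ramp01 ((φ - eta0 / 2) * (2 / eta0))

lemma psiOf_eq (q : ℕ) (φ : ℝ) : psiOf q φ = softF φ ^ q := rfl

lemma softF_mem (φ : ℝ) : 0 ≤ softF φ ∧ softF φ ≤ 1 :=
  ⟨le_max_left _ _, max_le zero_le_one (min_le_left _ _)⟩

lemma psiOf_mem (q : ℕ) (φ : ℝ) : 0 ≤ psiOf q φ ∧ psiOf q φ ≤ 1 :=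
  ⟨pow_nonneg (softF_mem φ).1 q, pow_le_one₀ (softF_mem φ).1 (softF_mem φ).2⟩

lemma softF_good {φ : ℝ} (h : φ ≤ eta0 / 2) : softF φ = 0 := by
  have h0 : (φ - eta0 / 2) * (2 / eta0) ≤ 0 :=
    mul_nonpos_of_nonpos_of_nonneg (sub_nonpos.2 h) (by norm_num [eta0])
  exact max_eq_left ((min_le_right _ _).trans h0)

lemma psiOf_good {q : ℕ} (hq : q ≠ 0) {φ : ℝ} (h : φ ≤ eta0 / 2) : psiOf q φ = 0 := by
  rw [psiOf_eq, softF_good h, zero_pow hq]

lemma psiOf_high (q : ℕ) {φ : ℝ} (h : eta0 ≤ φ) : psiOf q φ = 1 := by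
  have h1 : (1 : ℝ) ≤ (φ - eta0 / 2) * (2 / eta0) := by
    norm_num [eta0] at h ⊢
    linarith
  rw [psiOf_eq, softF, ramp01, min_eq_left h1, max_eq_right zero_le_one, one_pow]

lemma softF_lip (a b : ℝ) : |softF a - softF b| ≤ 128 * |a - b| := by
  unfold softF ramp01
  refine (abs_max_sub_max_le_max _ _ _ _).trans ?_
  rw [sub_self, abs_zero, max_eq_right (abs_nonneg _)]
  refine (abs_min_sub_min_le_max _ _ _ _).trans ?_
  rw [sub_self, abs_zero, max_eq_right (abs_nonneg _), ← sub_mul, sub_sub_sub_cancel_right,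
    abs_mul, mul_comm |a - b|]
  norm_num [eta0]

lemma psiOf_lip {q : ℕ} (hq : 1 ≤ q) {a b e : ℝ} (he : |a - b| ≤ e) :
    |psiOf q a - psiOf q b| ≤
      (q * 2 ^ q * 128 ^ q : ℕ) * e * (softF b ^ (q - 1) + e ^ (q - 1)) := by
  have he0 : 0 ≤ e := (abs_nonneg _).trans he
  obtain ⟨hb0, -⟩ := softF_mem b
  obtain ⟨ha0, -⟩ := softF_mem a
  have hd : |softF a - softF b| ≤ 128 * e := (softF_lip a b).trans (by linarith)
  have hmax : max |softF a| |softF b| ≤ softF b + 128 * e := by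
    rw [abs_of_nonneg ha0, abs_of_nonneg hb0]
    exact max_le (by linarith [(abs_le.1 hd).2]) (by linarith)
  have h128 : (1 : ℝ) ≤ 128 ^ (q - 1) := one_le_pow₀ (by norm_num)
  have hbp : 0 ≤ softF b ^ (q - 1) := pow_nonneg hb0 _
  have hep : 0 ≤ e ^ (q - 1) := pow_nonneg he0 _
  have h2 : (softF b + 128 * e) ^ (q - 1) ≤
      2 ^ q * (128 ^ (q - 1) * (softF b ^ (q - 1) + e ^ (q - 1))) := by
    calc (softF b + 128 * e) ^ (q - 1)
        ≤ 2 ^ (q - 1 - 1) * (softF b ^ (q - 1) + (128 * e) ^ (q - 1)) :=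
          add_pow_le hb0 (by positivity) (q - 1)
      _ ≤ _ := by
          refine mul_le_mul (pow_le_pow_right₀ one_le_two (by omega)) ?_ (by positivity)
            (by positivity)
          rw [mul_pow]
          nlinarith
  rw [psiOf_eq, psiOf_eq]
  calc |softF a ^ q - softF b ^ q|
      ≤ |softF a - softF b| * q * max |softF a| |softF b| ^ (q - 1) := abs_pow_sub_pow_le ..
    _ ≤ 128 * e * q * (softF b + 128 * e) ^ (q - 1) := by gcongr
    _ ≤ 128 * e * q * (2 ^ q * (128 ^ (q - 1) * (softF b ^ (q - 1) + e ^ (q - 1)))) := by gcongr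
    _ = _ := by
      have hs : (128 : ℝ) ^ q = 128 * 128 ^ (q - 1) := by
        rw [← pow_succ', Nat.sub_add_cancel hq]
      push_cast
      rw [hs]
      ring

lemma pow_pred_mul_le {q : ℕ} (hq : 1 ≤ q) {x y : ℝ} (hx : 0 ≤ x) (hy : 0 ≤ y) :
    x ^ (q - 1) * y ≤ x ^ q + y ^ q := by
  obtain ⟨k, rfl⟩ : ∃ k, q = k + 1 := ⟨q - 1, by omega⟩
  rw [Nat.add_sub_cancel, pow_succ, pow_succ]
  rcases le_total x y with h | h
  · calc x ^ k * y ≤ y ^ k * y := by gcongr
      _ ≤ _ := le_add_of_nonneg_left (by positivity)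
  · calc x ^ k * y ≤ x ^ k * x := by gcongr
      _ ≤ _ := le_add_of_nonneg_right (by positivity)

lemma piW_self (q : ℕ) (φ : ℕ → ℝ) (T : ℕ) : piW q φ T T = 1 := by simp [piW]

lemma piW_rec (q : ℕ) (φ : ℕ → ℝ) {i T : ℕ} (h : i < T) :
    piW q φ i T = (1 - psiOf q (φ i)) * piW q φ (i + 1) T :=
  Finset.prod_eq_prod_Ico_succ_bot h _

lemma piW_mem (q : ℕ) (φ : ℕ → ℝ) (i T : ℕ) : 0 ≤ piW q φ i T ∧ piW q φ i T ≤ 1 :=
  ⟨Finset.prod_nonneg fun _ _ => sub_nonneg.2 (psiOf_mem _ _).2,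
    Finset.prod_le_one (fun _ _ => sub_nonneg.2 (psiOf_mem _ _).2)
      fun _ _ => sub_le_self _ (psiOf_mem _ _).1⟩

lemma lt_eta0_of_piW {q : ℕ} {φ : ℕ → ℝ} {i T : ℕ} (hi : piW q φ i T ≠ 0) (hiT : i < T) :
    φ i < eta0 := by
  by_contra h
  push Not at h
  exact hi (Finset.prod_eq_zero (mem_Ico.2 ⟨le_rfl, hiT⟩) (by rw [psiOf_high q h, sub_self]))

lemma clipTo_eq {c v : ℝ} (h : |v| ≤ c) : clipTo c v = v := by
  rw [clipTo, min_eq_right (abs_le.1 h).2, max_eq_right (abs_le.1 h).1]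

lemma abs_clipTo_le {c : ℝ} (hc : 0 ≤ c) (v : ℝ) : |clipTo c v| ≤ c :=
  abs_le.2 ⟨le_max_left _ _, max_le (by linarith) (min_le_left _ _)⟩

lemma sum_theta_le {θ : ℕ → ℝ} (h0 : ∀ i, 0 ≤ θ i) (h2 : ∀ i, θ (i + 1) = 2 * θ i) {a b : ℕ}
    (hab : a ≤ b) : ∑ i ∈ Ico a b, θ i ≤ θ b := by
  induction b, hab using Nat.le_induction with
  | base => simpa using h0 a
  | succ b hab ih => rw [Finset.sum_Ico_succ_top hab, h2]; linarith

/-- Telescoping of the survival probabilities against geometric levels. -/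
lemma sum_theta_abs_piW_le (q : ℕ) (φ φ' θ : ℕ → ℝ) (hθ : ∀ i, 0 ≤ θ i)
    (h2 : ∀ i, θ (i + 1) = 2 * θ i) (T : ℕ) : ∀ a, a ≤ T →
    (∑ i ∈ Ico a T, θ i * |piW q φ i T - piW q φ' i T|) + θ a * |piW q φ a T - piW q φ' a T| ≤
      2 * ∑ j ∈ Ico a T, θ j * (piW q φ' (j + 1) T * |psiOf q (φ j) - psiOf q (φ' j)|) := by
  intro a ha
  induction ha using Nat.decreasingInduction with
  | self => simp [piW_self]
  | of_succ a ha ih =>
    rw [Finset.sum_eq_sum_Ico_succ_bot ha, Finset.sum_eq_sum_Ico_succ_bot ha]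
    have hstep : |piW q φ a T - piW q φ' a T| ≤ |piW q φ (a + 1) T - piW q φ' (a + 1) T| +
        piW q φ' (a + 1) T * |psiOf q (φ a) - psiOf q (φ' a)| := by
      rw [piW_rec q φ ha, piW_rec q φ' ha]
      have e : (1 - psiOf q (φ a)) * piW q φ (a + 1) T - (1 - psiOf q (φ' a)) * piW q φ' (a + 1) T =
          (1 - psiOf q (φ a)) * (piW q φ (a + 1) T - piW q φ' (a + 1) T) +
            piW q φ' (a + 1) T * (psiOf q (φ' a) - psiOf q (φ a)) := by ring
      rw [e]
      refine (abs_add_le _ _).trans (add_le_add ?_ (le_of_eq ?_))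
      · rw [abs_mul]
        exact mul_le_of_le_one_left (abs_nonneg _)
          (abs_le.2 ⟨by linarith [(psiOf_mem q (φ a)).2], by linarith [(psiOf_mem q (φ a)).1]⟩)
      · rw [abs_mul, abs_of_nonneg (piW_mem q φ' (a + 1) T).1, abs_sub_comm]
    rw [h2] at ih
    nlinarith [mul_le_mul_of_nonneg_left hstep (hθ a)]

/-- Summation by parts. -/
lemma sum_by_parts (π D : ℕ → ℝ) {a T : ℕ} (h : a ≤ T) :
    π T * D T + ∑ i ∈ Ico a T, π i * (D i - D (i + 1)) =
      π a * D a + ∑ i ∈ Ico a T, (π (i + 1) - π i) * D (i + 1) := by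
  induction h using Nat.decreasingInduction with
  | self => simp
  | of_succ a ha ih =>
    rw [Finset.sum_eq_sum_Ico_succ_bot ha, Finset.sum_eq_sum_Ico_succ_bot ha]
    linear_combination ih

theorem sum_stop_le (q : ℕ) (φ : ℕ → ℝ) {a T : ℕ} (h : a ≤ T) :
    ∑ i ∈ Ico a T, piW q φ (i + 1) T * psiOf q (φ i) = 1 - piW q φ a T := by
  induction h using Nat.decreasingInduction with
  | self => simp [piW_self]
  | of_succ a ha ih => rw [Finset.sum_eq_sum_Ico_succ_bot ha, ih, piW_rec q φ ha]; ring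

end Chain

open Finset Chain

theorem chain : ChainStmt := by
  intro q hq
  have hq1 : 1 ≤ q := by omega
  have hq0 : q ≠ 0 := by omega
  let K : ℝ := (q * 2 ^ q * 128 ^ q : ℕ)
  have hK : 0 ≤ K := Nat.cast_nonneg _
  refine ⟨1000 * (K + 1), by positivity, ?_⟩
  intro T i0 is θ ν e φ φ' M M' Z E hi0 hisT hZ hE hθ0 hθ2 hν0 he0 hJ hJ' hJ2 hD hphi hEsum hnear
  set bad := (Ico i0 T).filter (fun i => eta0 / 2 < φ i ∨ eta0 / 2 < φ' i)
  set V := (∑ i ∈ bad, ν i ^ q) ^ (1 / (q:ℝ))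
  have hV0 : 0 ≤ V := Real.rpow_nonneg (Finset.sum_nonneg fun i _ => pow_nonneg (hν0 i) q) _
  have hVq : ∑ i ∈ bad, ν i ^ q = V ^ q := by
    rw [show V = (∑ i ∈ bad, ν i ^ q) ^ ((q:ℝ)⁻¹) by simp [V, one_div],
      Real.rpow_inv_natCast_pow (Finset.sum_nonneg fun i _ => pow_nonneg (hν0 i) q) hq0]
  have hνV : ∀ i ∈ bad, ν i ≤ V := fun i hi => by
    refine (pow_le_pow_iff_left₀ (hν0 i) hV0 hq0).1 ?_
    rw [← hVq]
    exact Finset.single_le_sum (f := fun j => ν j ^ q) (fun j _ => pow_nonneg (hν0 j) q) hi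
  let π : ℕ → ℝ := fun i => piW q φ i T
  let π' : ℕ → ℝ := fun i => piW q φ' i T
  let cJ : ℕ → ℝ := fun i => clipTo (16 * θ i) (M i - M (i + 1))
  let cJ' : ℕ → ℝ := fun i => clipTo (16 * θ i) (M' i - M' (i + 1))
  have hcJ : ∀ i, |cJ i| ≤ 16 * θ i := fun i => abs_clipTo_le (by linarith [hθ0 i]) _
  have hcJ' : ∀ i, |cJ' i| ≤ 16 * θ i := fun i => abs_clipTo_le (by linarith [hθ0 i]) _
  let D : ℕ → ℝ := fun i => M i - M' i
  let g : ℕ → ℝ := fun j => θ j * (π' (j + 1) * |psiOf q (φ j) - psiOf q (φ' j)|)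
  -- the sum of the bad terms
  have hfsum : ∑ j ∈ Ico is T, π' (j + 1) * softF (φ' j) ^ q ≤ 1 :=
    (sum_stop_le q φ' hisT).le.trans (sub_le_self _ (piW_mem q φ' is T).1)
  have hg : ∑ j ∈ Ico is T, g j ≤ K * Z * (3 + E) * V := by
    have hsub : (Ico is T).filter (fun j => j ∈ bad) ⊆ bad := fun j hj => (mem_filter.1 hj).2
    have hgood : ∀ j ∈ Ico is T, j ∉ bad → g j = 0 := fun j hj hb => by
      have hjm : j ∈ Ico i0 T := mem_Ico.2 ⟨hi0.trans (mem_Ico.1 hj).1, (mem_Ico.1 hj).2⟩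
      simp only [bad, mem_filter, hjm, true_and, not_or, not_lt] at hb
      simp [g, psiOf_good hq0 hb.1, psiOf_good hq0 hb.2]
    calc ∑ j ∈ Ico is T, g j
        = ∑ j ∈ (Ico is T).filter (fun j => j ∈ bad), g j :=
          (Finset.sum_filter_of_ne fun j hj hne => by_contra fun hb => hne (hgood j hj hb)).symm
      _ ≤ ∑ j ∈ (Ico is T).filter (fun j => j ∈ bad),
            K * Z * (π' (j + 1) * softF (φ' j) ^ (q - 1) * ν j + e j ^ (q - 1) * ν j) := by
          refine Finset.sum_le_sum fun j hj => ?_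
          obtain ⟨hjI, -⟩ := mem_filter.1 hj
          obtain ⟨h1, h2⟩ := hphi j hjI
          obtain ⟨hp0, hp1⟩ := piW_mem q φ' (j + 1) T
          have hfp : 0 ≤ softF (φ' j) ^ (q - 1) := pow_nonneg (softF_mem _).1 _
          have hep : 0 ≤ e j ^ (q - 1) := pow_nonneg (he0 j) _
          calc g j ≤ θ j * (π' (j + 1) * (K * e j * (softF (φ' j) ^ (q - 1) + e j ^ (q - 1)))) :=
                mul_le_mul_of_nonneg_left
                  (mul_le_mul_of_nonneg_left (psiOf_lip hq1 h1) hp0) (hθ0 j)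
            _ = K * (e j * θ j) * (π' (j + 1) * (softF (φ' j) ^ (q - 1) + e j ^ (q - 1))) := by ring
            _ ≤ K * (Z * ν j) * (π' (j + 1) * softF (φ' j) ^ (q - 1) + e j ^ (q - 1)) := by
                have h3 : π' (j + 1) * e j ^ (q - 1) ≤ e j ^ (q - 1) := mul_le_of_le_one_left hep hp1
                have hzn : 0 ≤ Z * ν j := mul_nonneg hZ (hν0 j)
                refine mul_le_mul (mul_le_mul_of_nonneg_left h2 hK) ?_ ?_ (mul_nonneg hK hzn)
                · rw [mul_add]; linarith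
                · exact mul_nonneg hp0 (add_nonneg hfp hep)
            _ = _ := by ring
      _ ≤ K * Z * ((3 + E) * V) := by
          rw [← Finset.mul_sum]
          refine mul_le_mul_of_nonneg_left ?_ (mul_nonneg hK hZ)
          rcases hV0.eq_or_lt with hV | hV
          · refine le_of_eq_of_le (Finset.sum_eq_zero fun j hj => ?_) (by positivity)
            rw [le_antisymm ((hνV j (hsub hj)).trans hV.symm.le) (hν0 j)]
            ring
          · have hterm : ∀ j ∈ (Ico is T).filter (fun j => j ∈ bad),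
                π' (j + 1) * softF (φ' j) ^ (q - 1) * ν j + e j ^ (q - 1) * ν j ≤
                  V * (π' (j + 1) * softF (φ' j) ^ q + e j ^ q + 2 * (ν j ^ q / V ^ q)) := by
              intro j _
              obtain ⟨hp0, hp1⟩ := piW_mem q φ' (j + 1) T
              have hy : 0 ≤ ν j / V := div_nonneg (hν0 j) hV0
              have a1 := mul_le_mul_of_nonneg_left (pow_pred_mul_le hq1 (softF_mem (φ' j)).1 hy) hp0
              have a2 := pow_pred_mul_le hq1 (he0 j) hy
              have a3 : π' (j + 1) * (ν j / V) ^ q ≤ (ν j / V) ^ q :=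
                mul_le_of_le_one_left (pow_nonneg hy q) hp1
              rw [← div_pow]
              have hev : ν j = V * (ν j / V) := by field_simp
              conv_lhs => rw [hev]
              calc _ = V * (π' (j + 1) * (softF (φ' j) ^ (q - 1) * (ν j / V)) +
                    e j ^ (q - 1) * (ν j / V)) := by ring
                _ ≤ _ := mul_le_mul_of_nonneg_left (by linarith) hV0
            refine (Finset.sum_le_sum hterm).trans ?_
            rw [← Finset.mul_sum, mul_comm (3 + E)]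
            refine mul_le_mul_of_nonneg_left ?_ hV0
            rw [Finset.sum_add_distrib, Finset.sum_add_distrib, ← Finset.mul_sum, ← Finset.sum_div]
            have b1 : ∑ j ∈ (Ico is T).filter (fun j => j ∈ bad), π' (j + 1) * softF (φ' j) ^ q ≤ 1 :=
              (Finset.sum_le_sum_of_subset_of_nonneg (filter_subset _ _) fun j _ _ =>
                mul_nonneg (piW_mem q φ' (j + 1) T).1 (pow_nonneg (softF_mem _).1 q)).trans hfsum
            have b2 : ∑ j ∈ (Ico is T).filter (fun j => j ∈ bad), e j ^ q ≤ E :=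
              (Finset.sum_le_sum_of_subset_of_nonneg (filter_subset _ _) fun j _ _ =>
                pow_nonneg (he0 j) q).trans hEsum
            have b3 : (∑ j ∈ (Ico is T).filter (fun j => j ∈ bad), ν j ^ q) / V ^ q ≤ 1 := by
              rw [div_le_one (pow_pos hV q), ← hVq]
              exact Finset.sum_le_sum_of_subset_of_nonneg hsub fun j _ _ => pow_nonneg (hν0 j) q
            linarith
      _ = _ := by ring
  have hgnn : 0 ≤ ∑ j ∈ Ico is T, g j := Finset.sum_nonneg fun j _ =>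
    mul_nonneg (hθ0 j) (mul_nonneg (piW_mem q φ' (j + 1) T).1 (abs_nonneg _))
  have htel := sum_theta_abs_piW_le q φ φ' θ hθ0 hθ2 T is hisT
  have htel0 : 0 ≤ ∑ i ∈ Ico is T, θ i * |π i - π' i| :=
    Finset.sum_nonneg fun i _ => mul_nonneg (hθ0 i) (abs_nonneg _)
  have htel1 : 0 ≤ θ is * |π is - π' is| := mul_nonneg (hθ0 is) (abs_nonneg _)
  -- the far part
  have hfar : |(D T + ∑ i ∈ Ico is T, (π i * cJ i - π' i * cJ' i)) - π' is * D is| ≤
      32 * (∑ j ∈ Ico is T, g j) + Z * V := by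
    have hterm : ∀ i ∈ Ico is T, π i * cJ i - π' i * cJ' i =
        (π i - π' i) * cJ i + π' i * (D i - D (i + 1)) := by
      intro i hi
      by_cases h0 : π' i = 0
      · rw [h0]; ring
      · have hiI : i ∈ Ico i0 T := mem_Ico.2 ⟨hi0.trans (mem_Ico.1 hi).1, (mem_Ico.1 hi).2⟩
        have hlt := lt_eta0_of_piW h0 (mem_Ico.1 hi).2
        simp only [cJ, cJ', D, clipTo_eq (hJ' i hiI hlt), clipTo_eq (hJ2 i hi hlt)]
        ring
    have hT1 : π' T = 1 := piW_self q φ' T
    have hparts := sum_by_parts π' D hisT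
    rw [hT1, one_mul] at hparts
    rw [Finset.sum_congr rfl hterm, Finset.sum_add_distrib, ← add_assoc, add_comm (D T),
      add_assoc, hparts, add_comm (π' is * D is), ← add_assoc, add_sub_cancel_right]
    refine (abs_add_le _ _).trans (add_le_add ?_ ?_)
    · calc |∑ i ∈ Ico is T, (π i - π' i) * cJ i|
          ≤ ∑ i ∈ Ico is T, 16 * (θ i * |π i - π' i|) :=
            (Finset.abs_sum_le_sum_abs _ _).trans (Finset.sum_le_sum fun i _ => by
              rw [abs_mul]
              nlinarith [abs_nonneg (π i - π' i), hcJ i])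
        _ ≤ _ := by rw [← Finset.mul_sum]; linarith
    · calc |∑ i ∈ Ico is T, (π' (i + 1) - π' i) * D (i + 1)|
          ≤ ∑ i ∈ Ico is T, π' (i + 1) * psiOf q (φ' i) * (Z * V) := by
            refine (Finset.abs_sum_le_sum_abs _ _).trans (Finset.sum_le_sum fun i hi => ?_)
            obtain ⟨hp0, -⟩ := piW_mem q φ' (i + 1) T
            have e1 : π' (i + 1) - π' i = π' (i + 1) * psiOf q (φ' i) := by
              simp only [π', piW_rec q φ' (mem_Ico.1 hi).2]; ring
            rw [e1, abs_mul, abs_of_nonneg (mul_nonneg hp0 (psiOf_mem _ _).1)]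
            by_cases hz : π' (i + 1) * psiOf q (φ' i) = 0
            · rw [hz, zero_mul, zero_mul]
            refine mul_le_mul_of_nonneg_left ?_ (mul_nonneg hp0 (psiOf_mem _ _).1)
            have hnext : i + 1 = T ∨ φ' (i + 1) < eta0 := by
              rcases Nat.eq_or_lt_of_le (mem_Ico.1 hi).2 with h | h
              · exact Or.inl h
              · exact Or.inr (lt_eta0_of_piW (left_ne_zero_of_mul hz) h)
            have hb : i ∈ bad := by
              refine mem_filter.2 ⟨mem_Ico.2 ⟨hi0.trans (mem_Ico.1 hi).1, (mem_Ico.1 hi).2⟩,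
                Or.inr (lt_of_not_ge fun h => right_ne_zero_of_mul hz (psiOf_good hq0 h))⟩
            exact (hD i hi hnext).trans (mul_le_mul_of_nonneg_left (hνV i hb) hZ)
        _ ≤ Z * V := by
            rw [← Finset.sum_mul]
            exact mul_le_of_le_one_left (mul_nonneg hZ hV0) hfsum
  -- the splitting of the two chains
  have hsplit : chainVal q θ φ M i0 T - chainVal q θ φ' M' i0 T =
      (D T + ∑ i ∈ Ico is T, (π i * cJ i - π' i * cJ' i)) +
        ((∑ i ∈ Ico i0 is, π i * cJ i) - ∑ i ∈ Ico i0 is, π' i * cJ' i) := by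
    simp only [chainVal, ← Finset.sum_Ico_consecutive _ hi0 hisT, Finset.sum_sub_distrib, D, π, π',
      cJ, cJ']
    ring
  have hfinal : 32 * (∑ j ∈ Ico is T, g j) + Z * V + 32 * (∑ j ∈ Ico is T, g j) + 100 * (Z * V) ≤
      1000 * (K + 1) * (1 + E) * Z * V := by
    have hZV : 0 ≤ Z * V := mul_nonneg hZ hV0
    nlinarith [mul_nonneg hK hZV, mul_nonneg (mul_nonneg hK hE) hZV, mul_nonneg hE hZV]
  by_cases hbadnear : ∃ b ∈ Ico i0 is, eta0 / 2 < φ b ∨ eta0 / 2 < φ' b
  · obtain ⟨b, hb, hbb⟩ := hbadnear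
    have hbI : b ∈ Ico i0 T := mem_Ico.2 ⟨(mem_Ico.1 hb).1, (mem_Ico.1 hb).2.trans_le hisT⟩
    obtain ⟨hb1, hb2⟩ := hnear b hb
    have hbV : Z * ν b ≤ Z * V :=
      mul_le_mul_of_nonneg_left (hνV b (mem_filter.2 ⟨hbI, hbb⟩)) hZ
    refine ⟨0, le_rfl, zero_le_one, fun hall => ?_, ?_⟩
    · rcases hbb with h | h
      · exact absurd (hall b hbI).1 (not_le.2 h)
      · exact absurd (hall b hbI).2 (not_le.2 h)
    have hsθ := sum_theta_le hθ0 hθ2 hi0
    have hnb : ∀ ρ c : ℕ → ℝ, (∀ i, 0 ≤ ρ i ∧ ρ i ≤ 1) → (∀ i, |c i| ≤ 16 * θ i) →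
        |∑ i ∈ Ico i0 is, ρ i * c i| ≤ 16 * θ is := fun ρ c hρ hc => by
      refine (Finset.abs_sum_le_sum_abs _ _).trans
        ((Finset.sum_le_sum (g := fun i => 16 * θ i) fun i _ => ?_).trans ?_)
      · rw [abs_mul, abs_of_nonneg (hρ i).1]
        exact (mul_le_of_le_one_left (abs_nonneg _) (hρ i).2).trans (hc i)
      · rw [← Finset.mul_sum]; linarith
    have hA := hnb π cJ (fun i => piW_mem q φ i T) hcJ
    have hA' := hnb π' cJ' (fun i => piW_mem q φ' i T) hcJ'
    have hDis : |π' is * D is| ≤ Z * V := by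
      obtain ⟨hp0, hp1⟩ := piW_mem q φ' is T
      by_cases hz : π' is = 0
      · rw [hz, zero_mul, abs_zero]; exact mul_nonneg hZ hV0
      rw [abs_mul, abs_of_nonneg hp0]
      refine (mul_le_of_le_one_left (abs_nonneg _) hp1).trans ((hb2 ?_).trans hbV)
      rcases hisT.eq_or_lt with h | h
      · exact Or.inl h
      · exact Or.inr (lt_eta0_of_piW hz h)
    rw [hsplit, zero_mul, sub_zero]
    refine le_trans ?_ hfinal
    have h1 := abs_add_le ((D T + ∑ i ∈ Ico is T, (π i * cJ i - π' i * cJ' i)) - π' is * D is)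
      (π' is * D is)
    rw [sub_add_cancel] at h1
    refine (abs_add_le _ _).trans ?_
    have h2 := abs_sub (∑ i ∈ Ico i0 is, π i * cJ i) (∑ i ∈ Ico i0 is, π' i * cJ' i)
    nlinarith [mul_nonneg hZ hV0]
  · push Not at hbadnear
    have hconst : ∀ (φ₀ : ℕ → ℝ), (∀ i ∈ Ico i0 is, φ₀ i ≤ eta0 / 2) → ∀ i ∈ Ico i0 is,
        piW q φ₀ i T = piW q φ₀ is T := fun φ₀ h0 i hi => by
      rw [piW, piW, ← Finset.prod_Ico_consecutive _ (mem_Ico.1 hi).2.le hisT,
        Finset.prod_eq_one (fun j hj => ?_), one_mul]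
      have hj' : j ∈ Ico i0 is :=
        mem_Ico.2 ⟨(mem_Ico.1 hi).1.trans (mem_Ico.1 hj).1, (mem_Ico.1 hj).2⟩
      rw [psiOf_good hq0 (h0 j hj'), sub_zero]
    have hexact : ∀ i ∈ Ico i0 is, cJ i = M i - M (i + 1) ∧ cJ' i = M' i - M' (i + 1) ∧
        |M i - M (i + 1)| ≤ 16 * θ i := fun i hi => by
      have hiI : i ∈ Ico i0 T := mem_Ico.2 ⟨(mem_Ico.1 hi).1, (mem_Ico.1 hi).2.trans_le hisT⟩
      have he : eta0 / 2 < eta0 := by norm_num [eta0]
      have a := hJ i hiI ((hbadnear i hi).1.trans_lt he)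
      exact ⟨clipTo_eq a, clipTo_eq (hJ' i hiI ((hbadnear i hi).2.trans_lt he)), a⟩
    refine ⟨π' is, (piW_mem q φ' is T).1, (piW_mem q φ' is T).2, fun hall => ?_, ?_⟩
    · refine Finset.prod_eq_one fun j hj => ?_
      rw [psiOf_good hq0 (hall j (mem_Ico.2 ⟨hi0.trans (mem_Ico.1 hj).1, (mem_Ico.1 hj).2⟩)).2,
        sub_zero]
    have hsum : ∀ F : ℕ → ℝ, ∑ i ∈ Ico i0 is, (F i - F (i + 1)) = F i0 - F is := fun F => by
      simpa [neg_add_eq_sub, Finset.sum_sub_distrib] using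
        congrArg Neg.neg (Finset.sum_Ico_sub F hi0)
    have hN : (∑ i ∈ Ico i0 is, π i * cJ i) = π is * (M i0 - M is) := by
      rw [← hsum M, Finset.mul_sum]
      refine Finset.sum_congr rfl fun i hi => ?_
      rw [(hexact i hi).1, show π i = π is from hconst φ (fun j hj => (hbadnear j hj).1) i hi]
    have hN' : (∑ i ∈ Ico i0 is, π' i * cJ' i) = π' is * (M' i0 - M' is) := by
      rw [← hsum M', Finset.mul_sum]
      refine Finset.sum_congr rfl fun i hi => ?_
      rw [(hexact i hi).2.1, show π' i = π' is from hconst φ' (fun j hj => (hbadnear j hj).2) i hi]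
    have hM : |M i0 - M is| ≤ 16 * θ is := by
      rw [← hsum M]
      refine (Finset.abs_sum_le_sum_abs _ _).trans
        ((Finset.sum_le_sum fun i hi => (hexact i hi).2.2).trans ?_)
      rw [← Finset.mul_sum]; linarith [sum_theta_le hθ0 hθ2 hi0]
    rw [hsplit, hN, hN']
    refine le_trans ?_ hfinal
    have e1 : D T + ∑ i ∈ Ico is T, (π i * cJ i - π' i * cJ' i) +
        (π is * (M i0 - M is) - π' is * (M' i0 - M' is)) - π' is * (M i0 - M' i0) =
        ((D T + ∑ i ∈ Ico is T, (π i * cJ i - π' i * cJ' i)) - π' is * D is) +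
          (π is - π' is) * (M i0 - M is) := by
      simp only [D]; ring
    rw [e1]
    refine (abs_add_le _ _).trans ?_
    have h3 : |(π is - π' is) * (M i0 - M is)| ≤ 32 * ∑ j ∈ Ico is T, g j := by
      rw [abs_mul]
      nlinarith [mul_le_mul_of_nonneg_left hM (abs_nonneg (π is - π' is))]
    nlinarith [mul_nonneg hZ hV0]

end Vale.Agent.P249.Full
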