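import Mathlib
import Vale.Agent.P249.Full.Basic

/-! The statements of the modules of the sublinear-dimension theorem. -/

namespace Vale.Agent.P249.Full

open Finset

/-- M1: smoothing weights beating `log n` at one scale. -/
def KernelStmt (p : ℝ) : Prop :=
  ∃ ϑ C : ℝ, 1 / 2 ≤ ϑ ∧ ϑ < 1 ∧ 0 < C ∧
    ∀ n : ℕ, 2 ≤ n → ∀ (N : ℕ) (X : Fin n → Fin N → ℝ), Function.Injective X →
      ∀ r : ℝ, 0 < r → ∃ P : Fin n → Fin n → ℝ,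
        (∀ y, IsW (P y)) ∧ (∀ y z, P y z ≠ 0 → lpD p X y z ≤ 4 * r) ∧
        ∀ y y', tv (P y) (P y') ≤ C * logL n ^ ϑ * (lpD p X y y' / r)

/-- M1 (tilted bits): weights separating far points, Lipschitz in the Euclidean distance. -/
def TiltedStmt : Prop :=
  ∃ c : ℝ, 0 < c ∧ ∀ (n D : ℕ), 0 < n → ∀ v : Fin n → Fin D → ℝ,
    ∃ w : Fin n → Fin n → ℝ, (∀ y, IsW (w y)) ∧
      (∀ y y', tv (w y) (w y') ≤ Real.sqrt (∑ k, (v y k - v y' k) ^ 2)) ∧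
      ∀ y z, w y z ≤ Real.exp (-(c * ∑ k, (v y k - v z k) ^ 2))

/-- M1 (before truncation): smoothing weights with little mass far away. -/
def SepStmt (p : ℝ) : Prop :=
  ∃ ϑ C : ℝ, 1 / 2 ≤ ϑ ∧ ϑ < 1 ∧ 0 < C ∧
    ∀ n : ℕ, 2 ≤ n → ∀ (N : ℕ) (X : Fin n → Fin N → ℝ), Function.Injective X →
      ∀ r : ℝ, 0 < r → ∃ w : Fin n → Fin n → ℝ, (∀ y, IsW (w y)) ∧
        (∀ y y', tv (w y) (w y') ≤ C * logL n ^ ϑ * (lpD p X y y' / r)) ∧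
        ∀ y, ∑ z ∈ univ.filter (fun z => 2 * r < lpD p X y z), w y z ≤ 1 / logL n

/-- M2b (sparse part): hashing of sparse vectors with small relative error. -/
def SparseHashStmt (p : ℝ) : Prop :=
  ∀ ε : ℝ, 0 < ε → ε ≤ 1 → ∀ a : ℝ, 0 < a → a ≤ 1 → ∃ (R n0 : ℕ), ∀ n : ℕ, n0 ≤ n →
    ∀ Q : ℕ, ∀ S : ℕ, 1 ≤ S → S ≤ n → ∀ Y : Fin n → Fin Q → ℝ,
    (∀ i, (univ.filter (fun k => Y i k ≠ 0)).card ≤ S) →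
      ∃ Φ : Fin n → Fin (R * ⌈(S:ℝ) ^ 2 * (n:ℝ) ^ a⌉₊) → ℝ, (∀ i, Y i = 0 → Φ i = 0) ∧
        (∀ i j, |powDist p (Φ i) (Φ j) - powDist p (Y i) (Y j)| ≤ ε * powDist p (Y i) (Y j)) ∧
        ∀ i, |powDist p (Φ i) 0 - powDist p (Y i) 0| ≤ ε * powDist p (Y i) 0

/-- M1b: scales mixing ball weights with the kernel, and the total growth over a range. -/
def HybridStmt : Prop :=
  ∃ C : ℝ, 0 < C ∧ ∀ (n : ℕ) (t : Fin n → Fin n → ℝ), FMetric t → ∀ β : ℝ, 1 ≤ β →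
    Real.log n ≤ β ^ 2 →
    (∀ r : ℝ, 0 < r → ∃ P : Fin n → Fin n → ℝ, (∀ y, IsW (P y)) ∧
      (∀ y z, P y z ≠ 0 → t y z ≤ 4 * r) ∧ ∀ y y', tv (P y) (P y') ≤ β * (t y y' / r)) →
    ∃ w : ℤ → Fin n → Fin n → ℝ, (∀ i y, IsW (w i y)) ∧
      (∀ i y z, w i y z ≠ 0 → t y z ≤ 4 * (2:ℝ) ^ i) ∧
      ∀ i y y', tv (w i y) (w i y') ≤ C * nuG t β 5 i y * (t y y' / (2:ℝ) ^ i)

/-- M2a: sampling rows by sensitivity, with a slack term. -/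
def RowsStmt (p : ℝ) : Prop :=
  ∀ ε : ℝ, 0 < ε → ε ≤ 1 → ∃ C : ℝ, 0 < C ∧
    ∀ n : ℕ, 2 ≤ n → ∀ (Q : ℕ) (Y : Fin n → Fin Q → ℝ) (T : Fin n → Fin n → ℝ) (σ : Fin Q → ℝ),
      (∀ i j, 0 ≤ T i j) → (∀ k, 0 ≤ σ k) →
      (∀ i j k, |Y i k - Y j k| ^ p ≤ σ k * T i j) →
      ∃ d : ℕ, (d : ℝ) ≤ C * ((∑ k, σ k) + 1) * logL n ∧ ∃ Φ : Fin n → Fin d → ℝ,
        ∀ i j, |powDist p (Φ i) (Φ j) - powDist p (Y i) (Y j)|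
          ≤ ε * (powDist p (Y i) (Y j) + T i j)

/-- M2b: sketching a family of bounded norm into sublinearly many coordinates. -/
def SketchStmt (p : ℝ) : Prop :=
  ∀ ε : ℝ, 0 < ε → ε ≤ 1 → ∃ κ : ℝ, 0 < κ ∧ κ ≤ 1 ∧ ∃ n0 : ℕ, ∀ n : ℕ, n0 ≤ n →
    ∃ d : ℕ, (d : ℝ) ≤ (n:ℝ) ^ (1 - κ) ∧
      ∀ Q : ℕ, (Q : ℝ) ≤ (n:ℝ) ^ (1 + κ) → ∀ Δ : ℝ, 1 ≤ Δ → Δ ≤ (n:ℝ) ^ κ →
      ∀ s : ℝ, 0 < s → ∀ Y : Fin n → Fin Q → ℝ, (∀ i, powDist p (Y i) 0 ≤ (Δ * s) ^ p) →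
        ∃ Φ : Fin n → Fin d → ℝ, (∀ i, Y i = 0 → Φ i = 0) ∧
          (∀ i j, |powDist p (Φ i) (Φ j) - powDist p (Y i) (Y j)|
            ≤ ε * (s ^ p + powDist p (Y i) (Y j))) ∧
          ∀ i, |powDist p (Φ i) 0 - powDist p (Y i) 0| ≤ ε * (s ^ p + powDist p (Y i) 0)

/-- M4a: sketching a family whose norm is of the order of a local radius. -/
def FamilyStmt (p : ℝ) : Prop :=
  ∀ C1 : ℝ, 1 ≤ C1 → ∀ ε : ℝ, 0 < ε → ε ≤ 1 → ∃ κ : ℝ, 0 < κ ∧ κ ≤ 1 ∧ ∃ n0 : ℕ,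
    ∀ n : ℕ, n0 ≤ n → ∃ d : ℕ, (d : ℝ) ≤ (n:ℝ) ^ (1 - κ) ∧
      ∀ (t : Fin n → Fin n → ℝ) (ρ : Fin n → ℝ), FMetric t → (∀ y, 0 < ρ y) →
      (∀ y y', ρ y ≤ ρ y' + t y y') →
      ∀ B : ℕ, (2:ℝ) ^ B ≤ (n:ℝ) ^ κ → ∀ Q : ℕ, (Q : ℝ) ≤ (n:ℝ) ^ (1 + κ) →
      ∀ Y : Fin n → Fin Q → ℝ, (∀ y, lpN p (Y y) ≤ C1 * ρ y) →
      (∀ y y', lpD p Y y y' ≤ C1 * (t y y' + (ρ y + ρ y') / (2:ℝ) ^ B)) →
      ∃ Φ : Fin n → Fin d → ℝ, ∀ y y', |powDist p (Φ y) (Φ y') - powDist p (Y y) (Y y')|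
        ≤ ε * (t y y' + (ρ y + ρ y') / (2:ℝ) ^ B) ^ p

/-- M3: the split of a point set into low-sensitivity rows and a local remainder.
The order of the quantifiers matters: `C0` is independent of `ε` and of `CB`,
and `K0` is independent of `CB`. -/
def SplitStmt (p : ℝ) : Prop :=
  ∃ C0 : ℝ, 1 ≤ C0 ∧ ∀ ε : ℝ, 0 < ε → ε ≤ 1 → ∃ K0 : ℝ, 1 ≤ K0 ∧ ∀ CB : ℝ, 1 ≤ CB →
    ∀ γ : ℝ, 0 < γ → γ ≤ 1 / 2 → ∃ n0 : ℕ, ∀ n : ℕ, n0 ≤ n → ∀ m : ℕ, m = ⌈(n:ℝ) ^ γ⌉₊ →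
    ∀ B : ℕ, (B : ℝ) ≤ CB * Real.log m →
    ∀ (N : ℕ) (X : Fin n → Fin N → ℝ), Function.Injective X →
      ∃ ρ : Fin n → ℝ, (∀ y, 0 < ρ y) ∧ (∀ y y', ρ y ≤ ρ y' + lpD p X y y') ∧
        (∀ y R, R < ρ y → (ballF (lpD p X) y R).card ≤ m) ∧
        ∃ Q : ℕ, (Q : ℝ) ≤ N * logL n ∧
        ∃ (A E : Fin n → Fin Q → ℝ) (σ : Fin Q → ℝ), (∀ k, 0 ≤ σ k) ∧
          ∑ k, σ k ≤ (n:ℝ) ^ (1 - γ / 4) ∧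
          (∀ i j k, |A i k - A j k| ^ p ≤ σ k * powDist p (X i) (X j)) ∧
          (∀ y, lpN p (E y) ≤ C0 * ρ y) ∧
          (∀ i j, powDist p (A i) (A j) + powDist p (E i) (E j)
            ≤ (C0 * (lpD p X i j + (ρ i + ρ j) / (2:ℝ) ^ B)) ^ p) ∧
          ∀ i j, K0 * (ρ i + ρ j) / (2:ℝ) ^ B ≤ lpD p X i j →
            |powDist p (A i) (A j) + powDist p (E i) (E j) - powDist p (X i) (X j)|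
              ≤ ε * powDist p (X i) (X j)

/-- M4b: gluing the local sketches to a map that is exact above `2 ^ (-B) * ρ`. -/
def GlueStmt (p : ℝ) : Prop :=
  ∀ C0 : ℝ, 1 ≤ C0 → ∀ ε : ℝ, 0 < ε → ε ≤ 1 → ∀ K0 : ℝ, 1 ≤ K0 →
    ∃ (R : ℕ) (CB κ : ℝ) (n0 : ℕ), 1 ≤ CB ∧ 0 < κ ∧ κ ≤ 1 / 2 ∧
      ∀ n : ℕ, n0 ≤ n → ∀ m : ℕ, 2 ≤ m → (m : ℝ) ≤ (n:ℝ) ^ κ →
      ∃ B : ℕ, (B : ℝ) ≤ CB * Real.log m ∧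
        ∀ N : ℕ, (N : ℝ) ≤ (n:ℝ) ^ (1 + κ) →
        ∀ X : Fin n → Fin N → ℝ, Function.Injective X →
        ∀ ρ : Fin n → ℝ, (∀ y, 0 < ρ y) → (∀ y y', ρ y ≤ ρ y' + lpD p X y y') →
        (∀ y Rd, Rd < ρ y → (ballF (lpD p X) y Rd).card ≤ m) →
        ∀ (dF : ℕ) (F : Fin n → Fin dF → ℝ),
        (∀ i j, lpD p F i j ≤ C0 * (lpD p X i j + (ρ i + ρ j) / (2:ℝ) ^ B)) →
        (∀ i j, K0 * (ρ i + ρ j) / (2:ℝ) ^ B ≤ lpD p X i j →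
          (1 - ε / 8) * lpD p X i j ≤ lpD p F i j ∧ lpD p F i j ≤ (1 + ε / 8) * lpD p X i j) →
        ∃ d : ℕ, (d : ℝ) ≤ R * (dF + (n:ℝ) ^ (1 - κ)) ∧ ∃ f : Fin n → Fin d → ℝ,
          ∀ i j, (1 - ε) * lpD p X i j ≤ lpD p f i j ∧ lpD p f i j ≤ (1 + ε) * lpD p X i j

end Vale.Agent.P249.Full
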