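import Mathlib
import Vale.Agent.P249.Full.Spec

/-! M4a: sketching a family whose norm is of the order of a local radius. -/

namespace Vale.Agent.P249.Full

open Finset

namespace Family

variable {n : ℕ}

/-- Clamp to `[0, 1]`. -/
noncomputable def ramp (u : ℝ) : ℝ := max 0 (min 1 u)

/-- The partition of unity on the log scale: windows `[w V + o, (w + 1) V + o]`. -/
noncomputable def chi (V : ℕ) (o : ℝ) (w : ℤ) (z : ℝ) : ℝ :=
  ramp (z - ((w:ℝ) * V + o)) - ramp (z - (((w:ℝ) + 1) * V + o))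

lemma ramp_of_nonpos {u : ℝ} (h : u ≤ 0) : ramp u = 0 :=
  max_eq_left ((min_le_right _ _).trans h)

lemma ramp_of_one_le {u : ℝ} (h : 1 ≤ u) : ramp u = 1 := by
  rw [ramp, min_eq_left h, max_eq_right zero_le_one]

lemma ramp_nonneg (u : ℝ) : 0 ≤ ramp u := le_max_left _ _

lemma ramp_le_one (u : ℝ) : ramp u ≤ 1 := max_le zero_le_one (min_le_left _ _)

lemma abs_ramp_sub (a b : ℝ) : |ramp a - ramp b| ≤ |a - b| := by
  unfold ramp
  refine (abs_max_sub_max_le_max 0 _ 0 _).trans (max_le (by simp) ?_)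
  exact (abs_min_sub_min_le_max 1 _ 1 _).trans (max_le (by simp) le_rfl)

lemma abs_chi_le (V : ℕ) (o : ℝ) (w : ℤ) (z : ℝ) : |chi V o w z| ≤ 1 :=
  abs_le.2 ⟨by unfold chi; linarith [ramp_nonneg (z - ((w:ℝ) * V + o)),
      ramp_le_one (z - (((w:ℝ) + 1) * V + o))],
    by unfold chi; linarith [ramp_le_one (z - ((w:ℝ) * V + o)),
      ramp_nonneg (z - (((w:ℝ) + 1) * V + o))]⟩

lemma abs_chi_sub (V : ℕ) (o : ℝ) (w : ℤ) (z z' : ℝ) :
    |chi V o w z - chi V o w z'| ≤ 2 * |z - z'| := by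
  have h1 := abs_ramp_sub (z - ((w:ℝ) * V + o)) (z' - ((w:ℝ) * V + o))
  have h2 := abs_ramp_sub (z - (((w:ℝ) + 1) * V + o)) (z' - (((w:ℝ) + 1) * V + o))
  rw [sub_sub_sub_cancel_right] at h1 h2
  unfold chi
  have := abs_sub (ramp (z - ((w:ℝ) * V + o)) - ramp (z' - ((w:ℝ) * V + o)))
    (ramp (z - (((w:ℝ) + 1) * V + o)) - ramp (z' - (((w:ℝ) + 1) * V + o)))
  rw [sub_sub_sub_comm]
  linarith

lemma chi_support {V : ℕ} {o : ℝ} {w : ℤ} {z : ℝ} (h : chi V o w z ≠ 0) :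
    (w:ℝ) * V + o < z ∧ z < ((w:ℝ) + 1) * V + o + 1 := by
  by_contra hc
  apply h
  rcases le_or_gt z ((w:ℝ) * V + o) with h1 | h1
  · have hV : (0:ℝ) ≤ V := Nat.cast_nonneg V
    rw [chi, ramp_of_nonpos (by linarith), ramp_of_nonpos (by nlinarith), sub_zero]
  · have h2 : ((w:ℝ) + 1) * V + o + 1 ≤ z := not_lt.1 fun h2 => hc ⟨h1, h2⟩
    have hV : (0:ℝ) ≤ V := Nat.cast_nonneg V
    rw [chi, ramp_of_one_le (by nlinarith), ramp_of_one_le (by linarith), sub_self]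

/-- The two windows that can see `z`. -/
noncomputable def wins (V : ℕ) (o z : ℝ) : Finset ℤ := {⌊(z - o) / V⌋ - 1, ⌊(z - o) / V⌋}

lemma chi_eq_zero {V : ℕ} (hV : 1 ≤ V) {o : ℝ} {w : ℤ} {z : ℝ} (h : w ∉ wins V o z) :
    chi V o w z = 0 := by
  by_contra hne
  obtain ⟨h1, h2⟩ := chi_support hne
  have hVR : (1:ℝ) ≤ V := by exact_mod_cast hV
  have hV0 : (0:ℝ) < V := by linarith
  have e1 : (w:ℝ) < (z - o) / V := by rw [lt_div_iff₀ hV0]; linarith
  have e2 : (z - o) / V < (w:ℝ) + 2 := by rw [div_lt_iff₀ hV0]; linarith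
  have f1 : w ≤ ⌊(z - o) / V⌋ := Int.le_floor.2 e1.le
  have f2 : ⌊(z - o) / V⌋ < w + 2 := Int.floor_lt.2 (by push_cast; exact e2)
  exact h (by simp only [wins, Finset.mem_insert, Finset.mem_singleton]; omega)

lemma wins_left {V : ℕ} (hV : 1 ≤ V) {o z : ℝ} {w : ℤ} (h : w ∈ wins V o z) :
    (w:ℝ) * V + o ≤ z := by
  have hV0 : (0:ℝ) < V := by exact_mod_cast hV
  have h2 : w ≤ ⌊(z - o) / V⌋ := by
    simp only [wins, Finset.mem_insert, Finset.mem_singleton] at h; omega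
  have := Int.le_floor.1 h2
  rw [le_div_iff₀ hV0] at this
  linarith

lemma wins_card (V : ℕ) (o z : ℝ) : (wins V o z).card ≤ 2 :=
  (Finset.card_insert_le _ _).trans (by simp)

/-- A scale away from all window borders sees one window only. -/
lemma good_window {V G : ℕ} (hV : 1 ≤ V) (hG : 1 ≤ G) {o z : ℝ}
    (hgood : ∀ w : ℤ, (G:ℝ) ≤ |z - ((w:ℝ) * V + o)|) :
    ∃ w0 : ℤ, chi V o w0 z = 1 ∧ (∀ w, w ≠ w0 → chi V o w z = 0) ∧
      (w0:ℝ) * V + o + G ≤ z ∧ z ≤ ((w0:ℝ) + 1) * V + o - G := by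
  have hV0 : (0:ℝ) < V := by exact_mod_cast hV
  have hGR : (1:ℝ) ≤ G := by exact_mod_cast hG
  set w0 := ⌊(z - o) / V⌋ with hw0
  have h1 := Int.floor_le ((z - o) / V)
  have h2 := Int.lt_floor_add_one ((z - o) / V)
  rw [← hw0] at h1 h2
  rw [le_div_iff₀ hV0] at h1
  rw [div_lt_iff₀ hV0] at h2
  have g1 := hgood w0
  rw [abs_of_nonneg (by linarith)] at g1
  have g2 := hgood (w0 + 1)
  push_cast at g2
  rw [abs_of_nonpos (by linarith)] at g2
  have hz : chi V o w0 z = 1 := by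
    rw [chi, ramp_of_one_le (by linarith), ramp_of_nonpos (by linarith), sub_zero]
  refine ⟨w0, hz, fun w hw => ?_, by linarith, by linarith⟩
  by_contra hne
  obtain ⟨c1, c2⟩ := chi_support hne
  rcases lt_or_gt_of_ne hw with hlt | hlt
  · have hwR : (w:ℝ) + 1 ≤ w0 := by exact_mod_cast (by omega : w + 1 ≤ w0)
    nlinarith [mul_le_mul_of_nonneg_right hwR hV0.le]
  · have hwR : (w0:ℝ) + 1 ≤ w := by exact_mod_cast (by omega : w0 + 1 ≤ w)
    nlinarith [mul_le_mul_of_nonneg_right hwR hV0.le]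

lemma logb_sub_mul_le {a b : ℝ} (ha : 0 < a) (hab : a ≤ b) :
    |Real.logb 2 a - Real.logb 2 b| * a ≤ 2 * (b - a) := by
  have h2 : (1 / 2 : ℝ) ≤ Real.log 2 := by linarith [Real.log_two_gt_d9]
  have hb : 0 < b := ha.trans_le hab
  have hd : 0 ≤ Real.log (b / a) := Real.log_nonneg ((one_le_div ha).2 hab)
  have he : |Real.logb 2 a - Real.logb 2 b| = Real.log (b / a) / Real.log 2 := by
    rw [abs_sub_comm, ← Real.logb_div hb.ne' ha.ne', Real.logb]
    exact abs_of_nonneg (div_nonneg hd (by linarith))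
  rw [he]
  have h3 := Real.log_le_sub_one_of_pos (div_pos hb ha)
  calc Real.log (b / a) / Real.log 2 * a ≤ Real.log (b / a) / (1 / 2) * a := by gcongr
    _ ≤ (b / a - 1) / (1 / 2) * a := by gcongr
    _ = _ := by field_simp

lemma rpow_sub_rpow_le {p : ℝ} (hp : 1 ≤ p) {a b K : ℝ} (ha : 0 ≤ a) (hb : 0 ≤ b) (haK : a ≤ K)
    (hbK : b ≤ K) : |a ^ p - b ^ p| ≤ p * K ^ (p - 1) * |a - b| := by
  wlog hab : b ≤ a generalizing a b
  · rw [abs_sub_comm, abs_sub_comm a b]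
    exact this hb ha hbK haK (le_of_not_ge hab)
  rw [abs_of_nonneg (sub_nonneg.2 (Real.rpow_le_rpow hb hab (by linarith))),
    abs_of_nonneg (sub_nonneg.2 hab)]
  rcases ha.lt_or_eq with ha' | ha'
  · have h := one_add_mul_self_le_rpow_one_add (s := b / a - 1)
      (by linarith [div_nonneg hb ha]) hp
    rw [show 1 + (b / a - 1) = b / a by ring, Real.div_rpow hb ha,
      le_div_iff₀ (Real.rpow_pos_of_pos ha' p)] at h
    have e : a ^ p = a ^ (p - 1) * a := by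
      rw [← Real.rpow_add_one ha'.ne', sub_add_cancel]
    have hK : a ^ (p - 1) ≤ K ^ (p - 1) := Real.rpow_le_rpow ha haK (by linarith)
    calc a ^ p - b ^ p ≤ p * (1 - b / a) * a ^ p := by nlinarith
      _ = p * a ^ (p - 1) * (a - b) := by rw [e]; field_simp
      _ ≤ p * K ^ (p - 1) * (a - b) := by gcongr
  · have hb' : b = 0 := le_antisymm (by linarith) hb
    subst hb'
    simp [← ha']

lemma lpN_sub_le {ι : Type*} [Fintype ι] {p : ℝ} (hp : 1 ≤ p) (u v : ι → ℝ) :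
    |lpN p (fun k => u k - v k) - lpN p u| ≤ lpN p v := by
  have h1 := lpN_add_le hp (fun k => u k - v k) v
  have h2 := lpN_add_le hp u (fun k => (-1) * v k)
  have h3 := lpN_mul (lt_of_lt_of_le one_pos hp) (-1) v
  simp only [sub_add_cancel, neg_mul, one_mul, ← sub_eq_add_neg, abs_neg, abs_one] at h1 h2 h3
  exact abs_le.2 ⟨by linarith, by linarith⟩

lemma powDist_zero {ι : Type*} [Fintype ι] {p : ℝ} (hp : 0 < p) (u : ι → ℝ) :
    powDist p u 0 = lpN p u ^ p := by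
  rw [lpN_rpow hp]; simp [powDist]

lemma lpD_symm {ι : Type*} [Fintype ι] (p : ℝ) (Y : Fin n → ι → ℝ) (i j : Fin n) :
    lpD p Y i j = lpD p Y j i := by
  simp [lpD, lpN, abs_sub_comm]

lemma powDist_comm {ι : Type*} [Fintype ι] (p : ℝ) (u v : ι → ℝ) :
    powDist p u v = powDist p v u := by
  simp [powDist, abs_sub_comm]

/-- Two points in different windows. -/
lemma far_pair {ι κ : Type*} [Fintype ι] [Fintype κ] {p : ℝ} (hp : 1 ≤ p)
    {C1 K q σ εs s ρ ρ' : ℝ} (hC1 : 1 ≤ C1) (hK : K = 48 * C1) (hq : 0 ≤ q) (hσ : 0 ≤ σ)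
    (hεs : 0 ≤ εs) (hs0 : 0 ≤ s) (hs : s ≤ σ) (hρq : ρ' ≤ q * ρ) (hρσ : ρ ≤ 2 * σ)
    {u u' : ι → ℝ} {a a' : κ → ℝ}
    (hu : lpN p u ≤ 4 * C1 * ρ) (hu' : lpN p u' ≤ 4 * C1 * ρ') (ha : lpN p a ≤ C1 * ρ)
    (ha' : lpN p a' ≤ C1 * ρ') (hA : lpN p (fun k => u k - u' k) ≤ K * σ)
    (hB : lpN p (fun k => a k - a' k) ≤ K * σ)
    (herr : |lpN p u ^ p - lpN p a ^ p| ≤ εs * (s ^ p + lpN p a ^ p)) :
    |powDist p u u' - powDist p a a'| ≤ (2 * p * q + 2 * εs) * (K * σ) ^ p := by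
  have hp0 : 0 < p := by linarith
  have hC0 : 0 ≤ C1 := by linarith
  have hKσ : 0 ≤ K * σ := mul_nonneg (by linarith) hσ
  have hCρ : C1 * ρ ≤ 2 * (C1 * σ) := by linarith [mul_le_mul_of_nonneg_left hρσ hC0]
  have hCσ : 0 ≤ C1 * σ := mul_nonneg hC0 hσ
  have hKeq : K * σ = 48 * (C1 * σ) := by rw [hK]; ring
  have hsmall : 4 * C1 * ρ' ≤ q * (K * σ) := by
    calc 4 * C1 * ρ' ≤ 4 * C1 * (q * ρ) := by gcongr
      _ = q * (4 * (C1 * ρ)) := by ring
      _ ≤ _ := mul_le_mul_of_nonneg_left (by linarith) hq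
  have hsmall' : C1 * ρ' ≤ q * (K * σ) := by
    calc C1 * ρ' ≤ C1 * (q * ρ) := by gcongr
      _ = q * (C1 * ρ) := by ring
      _ ≤ _ := mul_le_mul_of_nonneg_left (by linarith) hq
  have dA := (lpN_sub_le hp u u').trans (hu'.trans hsmall)
  have dB := (lpN_sub_le hp a a').trans (ha'.trans hsmall')
  have bu : lpN p u ≤ K * σ := by linarith
  have ba : lpN p a ≤ K * σ := by linarith
  have hpK : p * (K * σ) ^ (p - 1) * (q * (K * σ)) = p * q * (K * σ) ^ p := by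
    rcases hKσ.lt_or_eq with h | h
    · have e : (K * σ) ^ p = (K * σ) ^ (p - 1) * (K * σ) := by
        rw [← Real.rpow_add_one h.ne', sub_add_cancel]
      rw [e]; ring
    · simp [← h, Real.zero_rpow hp0.ne']
  have hpp : 0 ≤ p * (K * σ) ^ (p - 1) := mul_nonneg hp0.le (Real.rpow_nonneg hKσ _)
  have r1 := (rpow_sub_rpow_le hp (lpN_nonneg _ _) (lpN_nonneg _ _) hA bu).trans
    ((mul_le_mul_of_nonneg_left dA hpp).trans_eq hpK)
  have r2 := (rpow_sub_rpow_le hp (lpN_nonneg _ _) (lpN_nonneg _ _) hB ba).trans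
    ((mul_le_mul_of_nonneg_left dB hpp).trans_eq hpK)
  have r3 : |lpN p u ^ p - lpN p a ^ p| ≤ 2 * εs * (K * σ) ^ p := by
    have a1 : s ^ p ≤ (K * σ) ^ p := Real.rpow_le_rpow hs0
      (hs.trans (le_mul_of_one_le_left hσ (by linarith))) hp0.le
    have a2 : lpN p a ^ p ≤ (K * σ) ^ p := Real.rpow_le_rpow (lpN_nonneg _ _) ba hp0.le
    linarith [mul_le_mul_of_nonneg_left (add_le_add a1 a2) hεs]
  rw [show powDist p u u' = lpN p (fun k => u k - u' k) ^ p from (lpN_rpow hp0 _).symm,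
    show powDist p a a' = lpN p (fun k => a k - a' k) ^ p from (lpN_rpow hp0 _).symm]
  rw [abs_sub_comm] at r2
  linarith [abs_sub_le (lpN p (fun k => u k - u' k) ^ p) (lpN p u ^ p)
      (lpN p (fun k => a k - a' k) ^ p),
    abs_sub_le (lpN p u ^ p) (lpN p a ^ p) (lpN p (fun k => a k - a' k) ^ p)]

/-- The map of one phase. -/
lemma phase {p : ℝ} (hp : 1 < p) {V G B d Q : ℕ} (hV : 1 ≤ V) (hG : 1 ≤ G) {C1 εs Δ K : ℝ}
    (hC1 : 1 ≤ C1) (hεs0 : 0 < εs) (hεs : εs ≤ 1) (hΔ : C1 * 2 ^ (V + 1 + B) ≤ Δ)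
    (hK : K = 48 * C1) (o : ℝ) (t : Fin n → Fin n → ℝ) (ρ : Fin n → ℝ) (ht : FMetric t)
    (hρ0 : ∀ y, 0 < ρ y) (hlip : ∀ y y', ρ y ≤ ρ y' + t y y') (Y : Fin n → Fin Q → ℝ)
    (hn : ∀ y, lpN p (Y y) ≤ C1 * ρ y)
    (hd : ∀ y y', lpD p Y y y' ≤ C1 * (t y y' + (ρ y + ρ y') / (2:ℝ) ^ B))
    (hS : ∀ s : ℝ, 0 < s → ∀ Z : Fin n → Fin Q → ℝ, (∀ i, powDist p (Z i) 0 ≤ (Δ * s) ^ p) →
      ∃ Φ : Fin n → Fin d → ℝ, (∀ i, Z i = 0 → Φ i = 0) ∧
        (∀ i j, |powDist p (Φ i) (Φ j) - powDist p (Z i) (Z j)|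
          ≤ εs * (s ^ p + powDist p (Z i) (Z j))) ∧
        ∀ i, |powDist p (Φ i) 0 - powDist p (Z i) 0| ≤ εs * (s ^ p + powDist p (Z i) 0)) :
    ∃ Ψ : Fin n → Fin d → ℝ,
      (∀ y y', powDist p (Ψ y) (Ψ y') ≤ (K * (t y y' + (ρ y + ρ y') / (2:ℝ) ^ B)) ^ p) ∧
      ∀ y y', (∀ w : ℤ, (G:ℝ) ≤ |Real.logb 2 (ρ y) - ((w:ℝ) * V + o)|) →
        (∀ w : ℤ, (G:ℝ) ≤ |Real.logb 2 (ρ y') - ((w:ℝ) * V + o)|) →
        |powDist p (Ψ y) (Ψ y') - powDist p (Y y) (Y y')|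
          ≤ (2 * p * (1 / 4) ^ G + 2 * εs) * (K * (t y y' + (ρ y + ρ y') / (2:ℝ) ^ B)) ^ p := by
  have hp0 : 0 < p := by linarith
  have hp1 : 1 ≤ p := hp.le
  have hB0 : (0:ℝ) < (2:ℝ) ^ B := by positivity
  have hB1 : (1:ℝ) ≤ (2:ℝ) ^ B := one_le_pow₀ (by norm_num)
  set z : Fin n → ℝ := fun y => Real.logb 2 (ρ y) with hz
  have hρz : ∀ y, ρ y = (2:ℝ) ^ z y := fun y =>
    (Real.rpow_logb (by norm_num) (by norm_num) (hρ0 y)).symm
  set σ : Fin n → Fin n → ℝ := fun y y' => t y y' + (ρ y + ρ y') / (2:ℝ) ^ B with hσ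
  set s : ℤ → ℝ := fun w => (2:ℝ) ^ ((w:ℝ) * V + o) / (2:ℝ) ^ B with hs
  have hs0 : ∀ w, 0 < s w := fun w => div_pos (Real.rpow_pos_of_pos (by norm_num) _) hB0
  set Z : ℤ → Fin n → Fin Q → ℝ := fun w y k => chi V o w (z y) * Y y k with hZ
  have hZn : ∀ w y, powDist p (Z w y) 0 ≤ (Δ * s w) ^ p := by
    intro w y
    have hΔ0 : 0 ≤ Δ := le_trans (mul_nonneg (by linarith) (by positivity)) hΔ
    rw [powDist_zero hp0]
    refine Real.rpow_le_rpow (lpN_nonneg _ _) ?_ hp0.le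
    simp only [hZ]
    rw [lpN_mul hp0]
    rcases eq_or_ne (chi V o w (z y)) 0 with h0 | h0
    · simp [h0, mul_nonneg hΔ0 (hs0 w).le]
    obtain ⟨-, h2⟩ := chi_support h0
    refine (mul_le_of_le_one_left (lpN_nonneg _ _) (abs_chi_le V o w (z y))).trans
      ((hn y).trans ?_)
    have h3 : ρ y ≤ (2:ℝ) ^ ((w:ℝ) * V + o) * (2:ℝ) ^ (V + 1) := by
      rw [hρz y, ← Real.rpow_natCast (2:ℝ) (V + 1), ← Real.rpow_add (by norm_num : (0:ℝ) < 2)]
      refine Real.rpow_le_rpow_of_exponent_le (by norm_num) ?_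
      push_cast; linarith
    calc C1 * ρ y ≤ C1 * ((2:ℝ) ^ ((w:ℝ) * V + o) * (2:ℝ) ^ (V + 1)) := by gcongr
      _ = C1 * 2 ^ (V + 1 + B) * s w := by rw [hs, pow_add _ (V + 1) B]; field_simp
      _ ≤ _ := mul_le_mul_of_nonneg_right hΔ (hs0 w).le
  choose Φ hΦ0 hΦd hΦn using fun w => hS (s w) (hs0 w) (Z w) (hZn w)
  have hvan : ∀ w y, w ∉ wins V o (z y) → Φ w y = 0 := fun w y hw => hΦ0 w y (by
    funext k; simp [hZ, chi_eq_zero hV hw])
  have hss : ∀ w y, w ∈ wins V o (z y) → s w ≤ ρ y / (2:ℝ) ^ B := fun w y hw => by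
    simp only [hs]
    rw [hρz y]
    exact div_le_div_of_nonneg_right
      (Real.rpow_le_rpow_of_exponent_le (by norm_num) (wins_left hV hw)) hB0.le
  have hΦb : ∀ w y y', lpD p (Φ w) y y' ≤ 2 * (lpD p (Z w) y y' + s w) := fun w y y' =>
    le_two_mul_of_rpow hp1 (lpD_nonneg _ _ _ _) (lpD_nonneg _ _ _ _) (hs0 w).le hεs (by
      rw [lpD_rpow hp0, lpD_rpow hp0]; exact hΦd w y y')
  have hσs : ∀ y y', σ y y' = σ y' y := fun y y' => by simp [hσ, ht.symm y y', add_comm]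
  have hσ0 : ∀ y y', 0 ≤ σ y y' := fun y y' =>
    add_nonneg (ht.nonneg y y') (div_nonneg (add_nonneg (hρ0 y).le (hρ0 y').le) hB0.le)
  have hσt : ∀ y y', t y y' ≤ σ y y' := fun y y' =>
    le_add_of_nonneg_right (div_nonneg (add_nonneg (hρ0 y).le (hρ0 y').le) hB0.le)
  have hσl : ∀ y y', ρ y / (2:ℝ) ^ B ≤ σ y y' := fun y y' => by
    have : ρ y / (2:ℝ) ^ B ≤ (ρ y + ρ y') / (2:ℝ) ^ B := by gcongr; linarith [hρ0 y']
    exact this.trans (le_add_of_nonneg_left (ht.nonneg y y'))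
  have hσr : ∀ y y', ρ y' / (2:ℝ) ^ B ≤ σ y y' := fun y y' => hσs y' y ▸ hσl y' y
  have hZd : ∀ w y y', lpD p (Z w) y y' ≤ 5 * C1 * σ y y' := by
    intro w y y'
    wlog h : ρ y ≤ ρ y' generalizing y y'
    · rw [lpD_symm, hσs]; exact this y' y (le_of_not_ge h)
    have h1 := lpN_add_le hp1 (fun k => (chi V o w (z y) - chi V o w (z y')) * Y y k)
      (fun k => chi V o w (z y') * (Y y k - Y y' k))
    rw [lpN_mul hp0, lpN_mul hp0] at h1
    have h2 : lpD p (Z w) y y' = lpN p (fun k => (chi V o w (z y) - chi V o w (z y')) * Y y k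
        + chi V o w (z y') * (Y y k - Y y' k)) := by
      simp only [lpD, hZ]; congr 1; funext k; ring
    rw [h2]
    refine h1.trans ?_
    have e1 : |chi V o w (z y) - chi V o w (z y')| * lpN p (Y y) ≤ 4 * C1 * σ y y' := by
      have l1 := logb_sub_mul_le (hρ0 y) h
      have l2 : ρ y' - ρ y ≤ t y y' := by linarith [hlip y' y, ht.symm y y']
      calc |chi V o w (z y) - chi V o w (z y')| * lpN p (Y y)
          ≤ (2 * |z y - z y'|) * (C1 * ρ y) :=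
            mul_le_mul (abs_chi_sub V o w _ _) (hn y) (lpN_nonneg _ _) (by positivity)
        _ = 2 * C1 * (|z y - z y'| * ρ y) := by ring
        _ ≤ 2 * C1 * (2 * σ y y') := by
            refine mul_le_mul_of_nonneg_left (l1.trans ?_) (by positivity)
            linarith [hσt y y']
        _ = _ := by ring
    have e2 : |chi V o w (z y')| * lpN p (fun k => Y y k - Y y' k) ≤ C1 * σ y y' :=
      (mul_le_of_le_one_left (lpN_nonneg _ _) (abs_chi_le _ _ _ _)).trans (hd y y')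
    linarith
  let Ψ : Fin n → Fin d → ℝ := fun y k => ∑ w ∈ wins V o (z y), Φ w y k
  refine ⟨Ψ, ?_⟩
  have hΨ : ∀ y y', lpD p Ψ y y' ≤ K * σ y y' := by
    intro y y'
    classical
    set S := wins V o (z y) ∪ wins V o (z y') with hSdef
    have e : ∀ a, wins V o (z a) ⊆ S → ∀ k, Ψ a k = ∑ w ∈ S, Φ w a k := fun a ha k =>
      Finset.sum_subset ha fun w _ hw => by rw [hvan w a hw]; rfl
    have h1 : lpD p Ψ y y' = lpN p (fun k => ∑ w ∈ S, (Φ w y k - Φ w y' k)) := by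
      simp only [lpD, Finset.sum_sub_distrib, ← e y Finset.subset_union_left,
        ← e y' Finset.subset_union_right]
    rw [h1]
    refine (lpN_sum_le hp1 S fun w k => Φ w y k - Φ w y' k).trans ?_
    have hterm : ∀ w ∈ S, lpD p (Φ w) y y' ≤ 12 * C1 * σ y y' := fun w hw => by
      have hs' : s w ≤ σ y y' := (Finset.mem_union.1 hw).elim
        (fun h => (hss w y h).trans (hσl y y')) (fun h => (hss w y' h).trans (hσr y y'))
      nlinarith [hΦb w y y', hZd w y y', hσ0 y y']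
    refine (Finset.sum_le_card_nsmul S (fun w => lpD p (Φ w) y y') _ hterm).trans ?_
    have hc : (S.card : ℝ) ≤ 4 := by
      exact_mod_cast (Finset.card_union_le _ _).trans
        (add_le_add (wins_card V o (z y)) (wins_card V o (z y')))
    rw [nsmul_eq_mul, hK]
    nlinarith [mul_nonneg (mul_nonneg (show (0:ℝ) ≤ 12 by norm_num) (by linarith : 0 ≤ C1))
      (hσ0 y y')]
  have hpow : ∀ y y', powDist p (Ψ y) (Ψ y') ≤ (K * σ y y') ^ p := fun y y' => by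
    rw [← lpD_rpow hp0]; exact Real.rpow_le_rpow (lpD_nonneg _ _ _ _) (hΨ y y') hp0.le
  refine ⟨hpow, fun y y' gy gy' => ?_⟩
  show _ ≤ _ * (K * σ y y') ^ p
  obtain ⟨w, w1, w0, wl, wr⟩ := good_window hV hG gy
  obtain ⟨w', w1', w0', wl', wr'⟩ := good_window hV hG gy'
  have hmem : ∀ a u, chi V o u (z a) = 1 → u ∈ wins V o (z a) := fun a u hu => by
    by_contra hne
    rw [chi_eq_zero hV hne] at hu
    exact zero_ne_one hu
  have hone : ∀ a u, chi V o u (z a) = 1 → Z u a = Y a := fun a u hu => by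
    funext k; simp [hZ, hu]
  have hsingle : ∀ a u, chi V o u (z a) = 1 → (∀ x, x ≠ u → chi V o x (z a) = 0) →
      ∀ k, Ψ a k = Φ u a k := fun a u hu hx k => by
    refine Finset.sum_eq_single u (fun x _ hne => ?_) (fun h => absurd (hmem a u hu) h)
    rw [hΦ0 x a (by funext j; simp [hZ, hx x hne])]; rfl
  have hK1 : 1 ≤ K := by rw [hK]; linarith
  have hKs : ∀ a b, (0:ℝ) ≤ K * σ a b := fun a b => mul_nonneg (by linarith) (hσ0 a b)
  rcases eq_or_ne w w' with rfl | hne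
  · have e1 : powDist p (Ψ y) (Ψ y') = powDist p (Φ w y) (Φ w y') := by
      simp only [powDist, hsingle y w w1 w0, hsingle y' w w1' w0']
    rw [e1, ← hone y w w1, ← hone y' w w1']
    refine (hΦd w y y').trans ?_
    have a1 : s w ^ p ≤ (K * σ y y') ^ p := by
      refine Real.rpow_le_rpow (hs0 w).le ?_ hp0.le
      nlinarith [(hss w y (hmem y w w1)).trans (hσl y y'), hσ0 y y']
    have a2 : powDist p (Z w y) (Z w y') ≤ (K * σ y y') ^ p := by
      rw [← lpD_rpow hp0]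
      refine Real.rpow_le_rpow (lpD_nonneg _ _ _ _) ((hZd w y y').trans ?_) hp0.le
      refine mul_le_mul_of_nonneg_right ?_ (hσ0 y y')
      rw [hK]; linarith
    have hq : (0:ℝ) ≤ 2 * p * (1 / 4) ^ G := by positivity
    nlinarith [mul_le_mul_of_nonneg_left (add_le_add a1 a2) hεs0.le,
      mul_nonneg hq (Real.rpow_nonneg (hKs y y') p)]
  · wlog hlt : w' < w generalizing y y' w w'
    · have := this y' y gy' gy w' w1' w0' wl' wr' w w1 w0 wl wr hne.symm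
        (lt_of_le_of_ne (not_lt.1 hlt) hne)
      rw [powDist_comm p (Ψ y'), powDist_comm p (Y y'), hσs y' y] at this
      exact this
    set q : ℝ := (1 / 4) ^ G with hq
    have hq0 : 0 < q := by positivity
    have hq1 : q ≤ 1 / 4 := pow_le_of_le_one (by norm_num) (by norm_num) (by omega)
    have hρq : ρ y' ≤ q * ρ y := by
      have hwR : (w':ℝ) + 1 ≤ w := by exact_mod_cast (by omega : w' + 1 ≤ w)
      have hVw := mul_le_mul_of_nonneg_right hwR (Nat.cast_nonneg V)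
      have hzz : z y' + 2 * (G:ℝ) ≤ z y := by linarith
      have hq' : q = (2:ℝ) ^ (-(2 * (G:ℝ))) := by
        rw [hq, Real.rpow_neg (by norm_num), Real.rpow_mul (by norm_num), Real.rpow_two,
          Real.rpow_natCast, one_div, inv_pow]
        norm_num
      rw [hq', hρz y, hρz y', ← Real.rpow_add (by norm_num : (0:ℝ) < 2)]
      exact Real.rpow_le_rpow_of_exponent_le (by norm_num) (by linarith)
    have hρσ : ρ y ≤ 2 * σ y y' := by
      nlinarith [hlip y y', hσt y y', hρ0 y, mul_le_mul_of_nonneg_right hq1 (hρ0 y).le]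
    have hdivB : ∀ a, ρ a / (2:ℝ) ^ B ≤ C1 * ρ a := fun a =>
      (div_le_self (hρ0 a).le hB1).trans (le_mul_of_one_le_left (hρ0 a).le hC1)
    have hΦy : ∀ a u, chi V o u (z a) = 1 → lpN p (Φ u a) ≤ 4 * C1 * ρ a := fun a u hu => by
      have h1 : lpN p (Φ u a) ≤ 2 * (lpN p (Z u a) + s u) :=
        le_two_mul_of_rpow hp1 (lpN_nonneg _ _) (lpN_nonneg _ _) (hs0 u).le hεs (by
          rw [← powDist_zero hp0, ← powDist_zero hp0]; exact hΦn u a)
      rw [hone a u hu] at h1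
      linarith [hn a, hss u a (hmem a u hu), hdivB a]
    have e1 : powDist p (Ψ y) (Ψ y') = powDist p (Φ w y) (Φ w' y') := by
      simp only [powDist, hsingle y w w1 w0, hsingle y' w' w1' w0']
    have e2 : lpN p (fun k => Φ w y k - Φ w' y' k) = lpD p Ψ y y' := by
      simp only [lpD, hsingle y w w1 w0, hsingle y' w' w1' w0']
    rw [e1]
    refine far_pair hp1 hC1 hK hq0.le (hσ0 y y') hεs0.le (hs0 w).le
      ((hss w y (hmem y w w1)).trans (hσl y y')) hρq hρσ (hΦy y w w1) (hΦy y' w' w1') (hn y)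
      (hn y') (e2 ▸ hΨ y y') ((hd y y').trans
        (mul_le_mul_of_nonneg_right (by rw [hK]; linarith) (hσ0 y y'))) ?_
    rw [← powDist_zero hp0, ← powDist_zero hp0, ← hone y w w1]
    exact hΦn w y

open Classical in
/-- Few phases have a border near a given scale. -/
lemma bad_card {V : ℕ} (hV : 1 ≤ V) (G : ℕ) (z : ℝ) :
    ((univ : Finset (Fin V)).filter
      (fun v : Fin V => ∃ w : ℤ, |z - ((w:ℝ) * V + ((v:ℕ):ℝ))| < G)).card ≤ 2 * G := by
  classical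
  have hVZ : (0:ℤ) < V := by exact_mod_cast hV
  let f : ℤ → Fin V := fun k => ⟨(k % (V:ℤ)).toNat, by
    rw [Int.toNat_lt (Int.emod_nonneg _ hVZ.ne')]; exact Int.emod_lt_of_pos _ hVZ⟩
  refine (Finset.card_le_card (t := (Finset.Icc (⌊z⌋ - G + 1) (⌊z⌋ + G)).image f) ?_).trans
    (Finset.card_image_le.trans ?_)
  · intro v hv
    obtain ⟨w, hw⟩ := (Finset.mem_filter.1 hv).2
    obtain ⟨h1, h2⟩ := abs_lt.1 hw
    refine Finset.mem_image.2 ⟨w * V + (v:ℕ), Finset.mem_Icc.2 ⟨?_, ?_⟩, ?_⟩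
    · have : ((⌊z⌋ - G : ℤ) : ℝ) < ((w * V + (v:ℕ) : ℤ) : ℝ) := by
        push_cast; linarith [Int.floor_le z]
      have := Int.cast_lt.1 this
      omega
    · have : ((w * V + (v:ℕ) : ℤ) : ℝ) < ((⌊z⌋ + 1 + G : ℤ) : ℝ) := by
        push_cast; linarith [Int.lt_floor_add_one z]
      have := Int.cast_lt.1 this
      omega
    · apply Fin.ext
      show ((w * V + (v:ℕ)) % (V:ℤ)).toNat = v
      rw [Int.mul_add_emod_self_right, Int.emod_eq_of_lt (Int.natCast_nonneg _)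
        (by exact_mod_cast v.2), Int.toNat_natCast]
  · rw [Int.card_Icc]; omega

/-- Concatenating scaled phases averages the `p`-th powers. -/
lemma average {p : ℝ} (hp : 0 < p) {V d : ℕ} (hV : 1 ≤ V) (Ψ : Fin V → Fin n → Fin d → ℝ) :
    ∃ Φ : Fin n → Fin (V * d) → ℝ,
      ∀ y y', powDist p (Φ y) (Φ y') = (∑ v, powDist p (Ψ v y) (Ψ v y')) / V := by
  have hV0 : (0:ℝ) < V := by exact_mod_cast hV
  refine ⟨fun y k => (1 / (V:ℝ)) ^ (1 / p) *
    Ψ (finProdFinEquiv.symm k).1 y (finProdFinEquiv.symm k).2, fun y y' => ?_⟩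
  unfold powDist
  rw [Equiv.sum_comp finProdFinEquiv.symm (fun u : Fin V × Fin d =>
      |(1 / (V:ℝ)) ^ (1 / p) * Ψ u.1 y u.2 - (1 / (V:ℝ)) ^ (1 / p) * Ψ u.1 y' u.2| ^ p),
    Fintype.sum_prod_type, Finset.sum_div]
  refine Finset.sum_congr rfl fun v _ => ?_
  rw [Finset.sum_div]
  refine Finset.sum_congr rfl fun k _ => ?_
  rw [← mul_sub, abs_mul, Real.mul_rpow (abs_nonneg _) (abs_nonneg _),
    abs_of_nonneg (Real.rpow_nonneg (by positivity) _), ← Real.rpow_mul (by positivity),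
    one_div_mul_cancel hp.ne', Real.rpow_one]
  ring

end Family

open Family in
open Classical in
/-- M4a. -/
theorem family {p : ℝ} (hp : 1 < p) (hSk : SketchStmt p) : FamilyStmt p := by
  intro C1 hC1 ε hε0 hε1
  have hp0 : 0 < p := by linarith
  set K : ℝ := 48 * C1 with hK
  set Kp : ℝ := K ^ p with hKp
  have hKp1 : 1 ≤ Kp := Real.one_le_rpow (by rw [hK]; linarith) hp0.le
  obtain ⟨κs, hκ0, hκ1, n0, hn0⟩ := hSk (ε / (6 * Kp)) (by positivity)
    ((div_le_one (by positivity)).2 (by linarith))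
  obtain ⟨G0, hG0⟩ := exists_pow_lt_of_lt_one (show (0:ℝ) < ε / (6 * p * Kp) by positivity)
    (show (1 / 4 : ℝ) < 1 by norm_num)
  obtain ⟨G, hG⟩ : ∃ G : ℕ, G = G0 + 1 := ⟨_, rfl⟩
  have hGε : 2 * p * (1 / 4 : ℝ) ^ G * Kp ≤ ε / 3 := by
    have h1 : (1 / 4 : ℝ) ^ G ≤ ε / (6 * p * Kp) :=
      (pow_le_pow_of_le_one (by norm_num) (by norm_num) (by omega)).trans hG0.le
    rw [le_div_iff₀ (by positivity)] at h1
    linarith
  obtain ⟨V, hVdef⟩ : ∃ V : ℕ, V = ⌈12 * (G:ℝ) * Kp / ε⌉₊ + 1 := ⟨_, rfl⟩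
  have hV : 1 ≤ V := by omega
  have hV0 : (0:ℝ) < V := by exact_mod_cast hV
  have hVε : 4 * (G:ℝ) * Kp ≤ ε / 3 * V := by
    have h1 := Nat.le_ceil (12 * (G:ℝ) * Kp / ε)
    have h2 : (V:ℝ) = (⌈12 * (G:ℝ) * Kp / ε⌉₊ : ℝ) + 1 := by rw [hVdef]; push_cast; ring
    rw [div_le_iff₀ hε0] at h1
    nlinarith
  obtain ⟨n1, hn1⟩ := Filter.eventually_atTop.1
    (((tendsto_rpow_atTop (half_pos hκ0)).comp tendsto_natCast_atTop_atTop).eventually
      (Filter.eventually_ge_atTop (max (V:ℝ) (C1 * 2 ^ (V + 1)))))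
  refine ⟨κs / 2, by linarith, by linarith, max n0 (max n1 1), fun n hn => ?_⟩
  simp only [max_le_iff] at hn
  obtain ⟨hna, hnb, hnc⟩ := hn
  have hbig := hn1 n hnb
  simp only [Function.comp_apply, max_le_iff] at hbig
  obtain ⟨hbV, hbC⟩ := hbig
  have hnR : (1:ℝ) ≤ n := by exact_mod_cast hnc
  have hn' : (0:ℝ) < n := by linarith
  obtain ⟨d, hd, hS⟩ := hn0 n hna
  refine ⟨V * d, ?_, ?_⟩
  · push_cast
    calc (V:ℝ) * d ≤ (n:ℝ) ^ (κs / 2) * (n:ℝ) ^ (1 - κs) :=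
          mul_le_mul hbV hd (Nat.cast_nonneg d) (by positivity)
      _ = _ := by rw [← Real.rpow_add hn']; congr 1; ring
  intro t ρ ht hρ0 hlip B hB Q hQ Y hYn hYd
  have hQ' : (Q:ℝ) ≤ (n:ℝ) ^ (1 + κs) :=
    hQ.trans (Real.rpow_le_rpow_of_exponent_le hnR (by linarith))
  obtain ⟨Δ, hΔdef⟩ : ∃ Δ : ℝ, Δ = C1 * 2 ^ (V + 1 + B) := ⟨_, rfl⟩
  have hΔ1 : 1 ≤ Δ := hΔdef ▸ one_le_mul_of_one_le_of_one_le hC1 (one_le_pow₀ (by norm_num))
  have hΔn : Δ ≤ (n:ℝ) ^ κs := by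
    rw [hΔdef, pow_add, ← mul_assoc, show κs = κs / 2 + κs / 2 by ring, Real.rpow_add hn']
    exact mul_le_mul hbC hB (by positivity) (by positivity)
  choose Ψ hΨ1 hΨ2 using fun v : Fin V => phase (K := K) (o := ((v:ℕ):ℝ)) hp hV
    (show 1 ≤ G by omega) hC1 (show (0:ℝ) < ε / (6 * Kp) by positivity)
    ((div_le_one (by positivity)).2 (by linarith)) hΔdef.ge hK t ρ ht hρ0 hlip Y hYn hYd
    (fun s hs Z hZ => hS Q hQ' Δ hΔ1 hΔn s hs Z hZ)
  obtain ⟨Φ, hΦ⟩ := average hp0 hV Ψ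
  refine ⟨Φ, fun y y' => ?_⟩
  set σ : ℝ := t y y' + (ρ y + ρ y') / (2:ℝ) ^ B with hσ
  have hσ0 : 0 ≤ σ :=
    add_nonneg (ht.nonneg y y') (div_nonneg (add_nonneg (hρ0 y).le (hρ0 y').le) (by positivity))
  have hKσ : (K * σ) ^ p = Kp * σ ^ p := Real.mul_rpow (by rw [hK]; linarith) hσ0
  set E : ℝ := 2 * p * (1 / 4) ^ G + 2 * (ε / (6 * Kp)) with hE
  set bad : Finset (Fin V) := univ.filter (fun v : Fin V =>
    (∃ w : ℤ, |Real.logb 2 (ρ y) - ((w:ℝ) * V + (v:ℕ))| < G) ∨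
    ∃ w : ℤ, |Real.logb 2 (ρ y') - ((w:ℝ) * V + (v:ℕ))| < G) with hbad
  have hterm : ∀ v, |powDist p (Ψ v y) (Ψ v y') - powDist p (Y y) (Y y')|
      ≤ E * (K * σ) ^ p + if v ∈ bad then (K * σ) ^ p else 0 := by
    intro v
    have hE0 : 0 ≤ E * (K * σ) ^ p :=
      mul_nonneg (by rw [hE]; positivity)
        (Real.rpow_nonneg (mul_nonneg (by rw [hK]; linarith) hσ0) _)
    split_ifs with hv
    · have h1 := hΨ1 v y y'
      have h2 : powDist p (Y y) (Y y') ≤ (K * σ) ^ p := by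
        rw [← lpD_rpow hp0]
        exact Real.rpow_le_rpow (lpD_nonneg _ _ _ _)
          ((hYd y y').trans (mul_le_mul_of_nonneg_right (by rw [hK]; linarith) hσ0)) hp0.le
      exact abs_le.2 ⟨by linarith [powDist_nonneg p (Ψ v y) (Ψ v y')],
        by linarith [powDist_nonneg p (Y y) (Y y')]⟩
    · simp only [hbad, Finset.mem_filter, Finset.mem_univ, true_and, not_or, not_exists,
        not_lt] at hv
      rw [add_zero]
      exact hΨ2 v y y' hv.1 hv.2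
  have hcard : (bad.card : ℝ) ≤ 4 * G := by
    have h2 : bad.card ≤ 2 * G + 2 * G := by
      rw [hbad, Finset.filter_or]
      exact (Finset.card_union_le _ _).trans (add_le_add (bad_card hV G _) (bad_card hV G _))
    have h3 : (bad.card : ℝ) ≤ ((2 * G + 2 * G : ℕ) : ℝ) := Nat.cast_le.2 h2
    push_cast at h3; linarith
  rw [hΦ]
  have e : (∑ v, powDist p (Ψ v y) (Ψ v y')) / V - powDist p (Y y) (Y y')
      = (∑ v, (powDist p (Ψ v y) (Ψ v y') - powDist p (Y y) (Y y'))) / V := by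
    rw [Finset.sum_sub_distrib, Finset.sum_const, Finset.card_univ, Fintype.card_fin,
      nsmul_eq_mul]
    field_simp
  rw [e, abs_div, abs_of_pos hV0, div_le_iff₀ hV0]
  refine (Finset.abs_sum_le_sum_abs _ _).trans ((Finset.sum_le_sum fun v _ => hterm v).trans ?_)
  rw [Finset.sum_add_distrib, Finset.sum_const, Finset.card_univ, Fintype.card_fin,
    Finset.sum_ite_mem, Finset.univ_inter, Finset.sum_const, nsmul_eq_mul, nsmul_eq_mul, hKσ]
  have hEK : E * Kp ≤ 2 * ε / 3 := by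
    have h1 : 2 * (ε / (6 * Kp)) * Kp = ε / 3 := by field_simp; ring
    rw [hE, add_mul, h1]
    linarith
  calc (V:ℝ) * (E * (Kp * σ ^ p)) + (bad.card : ℝ) * (Kp * σ ^ p)
      = ((V:ℝ) * (E * Kp) + (bad.card : ℝ) * Kp) * σ ^ p := by ring
    _ ≤ ((V:ℝ) * (2 * ε / 3) + ε / 3 * V) * σ ^ p := by
        refine mul_le_mul_of_nonneg_right (add_le_add ?_ ?_) (Real.rpow_nonneg hσ0 _)
        · exact mul_le_mul_of_nonneg_left hEK hV0.le
        · exact le_trans (mul_le_mul_of_nonneg_right hcard (zero_le_one.trans hKp1)) hVε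
    _ = _ := by ring

end Vale.Agent.P249.Full
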