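import Mathlib
import Vale.Agent.P249.Full.Spec
import Vale.Agent.P249.NearLinear

/-! Assembly of the sublinear-dimension theorem from its modules. -/

namespace Vale.Agent.P249.Full

open Finset

/-- Powers of `log n` are eventually below any positive power of `n`. -/
lemma eventually_log_le (g q C : ℝ) (hg : 0 < g) (hq : 0 ≤ q) :
    ∃ n0 : ℕ, ∀ n : ℕ, n0 ≤ n → C * logL n ^ q ≤ (n:ℝ) ^ g := by
  obtain ⟨h, hh, hh0⟩ : ∃ h : ℝ, h * q ≤ g / 2 ∧ 0 < h := by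
    refine ⟨g / (2 * (q + 1)), ?_, by positivity⟩
    rw [div_mul_eq_mul_div, div_le_iff₀ (by positivity)]
    nlinarith
  obtain ⟨K, hK⟩ : ∃ K : ℝ, K = |C| * (1 / h + 1) ^ q := ⟨_, rfl⟩
  have hK0 : 0 ≤ K := by rw [hK]; positivity
  obtain ⟨n0, hn0⟩ := exists_nat_ge ((K + 1) ^ (2 / g) + 1)
  refine ⟨n0, fun n hn => ?_⟩
  have hnR : (K + 1) ^ (2 / g) + 1 ≤ (n:ℝ) := hn0.trans (by exact_mod_cast hn)
  have hn1 : (1:ℝ) ≤ n := le_trans (le_add_of_nonneg_left (by positivity)) hnR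
  have hlog : logL n ≤ (1 / h + 1) * (n:ℝ) ^ h := by
    have h1 := Real.log_le_rpow_div (Nat.cast_nonneg n) hh0
    have h2 : (1:ℝ) ≤ (n:ℝ) ^ h := Real.one_le_rpow hn1 hh0.le
    calc logL n ≤ (n:ℝ) ^ h / h + (n:ℝ) ^ h := by unfold logL; linarith
      _ = _ := by ring
  have h1 : C * logL n ^ q ≤ |C| * ((1 / h + 1) * (n:ℝ) ^ h) ^ q :=
    mul_le_mul (le_abs_self C) (Real.rpow_le_rpow (logL_pos n).le hlog hq)
      (Real.rpow_nonneg (logL_pos n).le _) (abs_nonneg _)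
  refine h1.trans ?_
  rw [Real.mul_rpow (by positivity) (Real.rpow_nonneg (by linarith) _),
    ← Real.rpow_mul (by linarith), ← mul_assoc, ← hK]
  have h2 : (n:ℝ) ^ (h * q) ≤ (n:ℝ) ^ (g / 2) := Real.rpow_le_rpow_of_exponent_le hn1 hh
  have h3 : K ≤ (n:ℝ) ^ (g / 2) := by
    have h4 : ((K + 1) ^ (2 / g)) ^ (g / 2) ≤ (n:ℝ) ^ (g / 2) :=
      Real.rpow_le_rpow (by positivity) (by linarith) (by linarith)
    rw [← Real.rpow_mul (by linarith), show 2 / g * (g / 2) = 1 by field_simp, Real.rpow_one] at h4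
    linarith
  calc K * (n:ℝ) ^ (h * q) ≤ (n:ℝ) ^ (g / 2) * (n:ℝ) ^ (g / 2) :=
        mul_le_mul h3 h2 (by positivity) (by positivity)
    _ = _ := by rw [← Real.rpow_add (by linarith)]; ring_nf

/-- A relative error of a `p`-th power gives the same relative error of the base. -/
lemma base_of_pow_close {p : ℝ} (hp : 1 ≤ p) {x t e : ℝ} (hx : 0 ≤ x) (ht : 0 ≤ t) (he : 0 ≤ e)
    (he1 : e ≤ 1) (h : |x ^ p - t ^ p| ≤ e * t ^ p) : (1 - e) * t ≤ x ∧ x ≤ (1 + e) * t := by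
  have hp0 : 0 < p := by linarith
  obtain ⟨ha, hb⟩ := abs_le.1 h
  have htp : 0 ≤ t ^ p := Real.rpow_nonneg ht p
  have h1 : (1 - e) ^ p ≤ 1 - e :=
    Real.rpow_le_self_of_le_one (by linarith) (by linarith) hp
  have h2 : 1 + e ≤ (1 + e) ^ p := Real.self_le_rpow_of_one_le (by linarith) hp
  constructor
  · refine (Real.rpow_le_rpow_iff (mul_nonneg (by linarith) ht) hx hp0).1 ?_
    rw [Real.mul_rpow (by linarith) ht]
    nlinarith [mul_le_mul_of_nonneg_right h1 htp]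
  · refine (Real.rpow_le_rpow_iff hx (mul_nonneg (by linarith) ht) hp0).1 ?_
    rw [Real.mul_rpow (by linarith) ht]
    nlinarith [mul_le_mul_of_nonneg_right h2 htp]

lemma powDist_append {p : ℝ} {n a b : ℕ} (F : Fin n → Fin a → ℝ) (G : Fin n → Fin b → ℝ)
    (i j : Fin n) :
    powDist p (Fin.append (F i) (G i)) (Fin.append (F j) (G j))
      = powDist p (F i) (F j) + powDist p (G i) (G j) := by
  simp [powDist, Fin.sum_univ_add]

/-- The rows and the remainder together: coarse and, far from the radii, accurate. -/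
lemma combined_bounds {p : ℝ} (hp : 1 ≤ p) {C0 ε1 e σ t a b T' P' W : ℝ} (hC0 : 1 ≤ C0)
    (hε0 : 0 ≤ ε1) (hε1 : ε1 ≤ 1) (ht : 0 ≤ t) (hts : t ≤ σ) (ha : 0 ≤ a) (hb : 0 ≤ b)
    (hW : W = (2 * C0) ^ p + 1 + 2 ^ p) (hεW : ε1 * W = e / 16)
    (hT : |T' - a| ≤ ε1 * (a + t ^ p)) (hP : |P' - b| ≤ ε1 * σ ^ p)
    (hc : a + b ≤ (C0 * σ) ^ p) :
    T' + P' ≤ (4 * C0 * σ) ^ p ∧
      (σ ≤ 2 * t → |a + b - t ^ p| ≤ e / 16 * t ^ p → |T' + P' - t ^ p| ≤ e / 8 * t ^ p) := by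
  have hp0 : 0 ≤ p := by linarith
  have hσ : 0 ≤ σ := ht.trans hts
  have hsp := Real.rpow_nonneg hσ p
  have htp := Real.rpow_nonneg ht p
  have htσ : t ^ p ≤ σ ^ p := Real.rpow_le_rpow ht hts hp0
  have hT' := abs_le.1 hT
  have hP' := abs_le.1 hP
  constructor
  · have h5 : σ ^ p ≤ (C0 * σ) ^ p :=
      Real.rpow_le_rpow hσ (le_mul_of_one_le_left hσ hC0) hp0
    have h4 : 4 * (C0 * σ) ^ p ≤ (4 * C0 * σ) ^ p := by
      rw [mul_assoc, Real.mul_rpow (by norm_num : (0:ℝ) ≤ 4) (mul_nonneg (by linarith) hσ)]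
      exact mul_le_mul_of_nonneg_right (Real.self_le_rpow_of_one_le (by norm_num) hp)
        (Real.rpow_nonneg (mul_nonneg (by linarith) hσ) _)
    have h6 := mul_le_mul_of_nonneg_right hε1 (add_nonneg ha htp)
    have h7 := mul_le_mul_of_nonneg_right hε1 hsp
    linarith
  · intro h2 hacc
    have hσp : σ ^ p ≤ 2 ^ p * t ^ p := by
      rw [← Real.mul_rpow (by norm_num) ht]
      exact Real.rpow_le_rpow hσ h2 hp0
    have hale : a ≤ (2 * C0) ^ p * t ^ p := by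
      rw [← Real.mul_rpow (by linarith) ht]
      refine le_trans (by linarith) (hc.trans (Real.rpow_le_rpow (mul_nonneg (by linarith) hσ) ?_ hp0))
      calc C0 * σ ≤ C0 * (2 * t) := mul_le_mul_of_nonneg_left h2 (by linarith)
        _ = _ := by ring
    have h3 : ε1 * (a + t ^ p) + ε1 * σ ^ p ≤ e / 16 * t ^ p := by
      rw [← hεW, hW]
      calc ε1 * (a + t ^ p) + ε1 * σ ^ p
          ≤ ε1 * ((2 * C0) ^ p * t ^ p + t ^ p) + ε1 * (2 ^ p * t ^ p) :=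
            add_le_add (mul_le_mul_of_nonneg_left (by linarith) hε0)
              (mul_le_mul_of_nonneg_left hσp hε0)
        _ = _ := by ring
    have h' := abs_le.1 hacc
    rw [abs_le]
    constructor <;> linarith

/-- The exponential bound `2 ^ B ≤ n ^ κ`. -/
lemma two_pow_le {n m B : ℕ} {CB γ κ : ℝ} (hn : 1 ≤ n) (hm : 2 ≤ m) (hCB : 1 ≤ CB) (hγ : 0 < γ)
    (hγκ : γ ≤ κ / (4 * CB)) (hB : (B:ℝ) ≤ CB * Real.log m)
    (hmle : (m:ℝ) ≤ (n:ℝ) ^ (2 * γ)) : (2:ℝ) ^ B ≤ (n:ℝ) ^ κ := by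
  have hnp : (0:ℝ) < n := by exact_mod_cast (by omega : 0 < n)
  rw [← Real.rpow_natCast, Real.rpow_def_of_pos two_pos, Real.rpow_def_of_pos hnp]
  refine Real.exp_le_exp.2 ?_
  have hl2 : Real.log 2 ≤ 1 := by linarith [Real.log_le_sub_one_of_pos (two_pos : (0:ℝ) < 2)]
  have hlm : Real.log m ≤ 2 * γ * Real.log n := by
    have := Real.log_le_log (by exact_mod_cast (by omega : 0 < m)) hmle
    rwa [Real.log_rpow hnp] at this
  have hln := Real.log_natCast_nonneg n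
  rw [le_div_iff₀ (by linarith)] at hγκ
  have h0 : 0 ≤ CB * γ := mul_nonneg (by linarith) hγ.le
  calc Real.log 2 * B ≤ 1 * B := mul_le_mul_of_nonneg_right hl2 (Nat.cast_nonneg B)
    _ ≤ CB * (2 * γ * Real.log n) := by
        rw [one_mul]; exact hB.trans (mul_le_mul_of_nonneg_left hlm (by linarith))
    _ = (2 * (CB * γ)) * Real.log n := by ring
    _ ≤ κ * Real.log n := mul_le_mul_of_nonneg_right (by linarith) hln
    _ = _ := by ring

/-- Maps with positive lower distortion bound are injective. -/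
lemma injective_of_lower {p : ℝ} (hp : 0 < p) {n N N1 : ℕ} {X : Fin n → Fin N → ℝ}
    (hX : Function.Injective X) {f : Fin n → Fin N1 → ℝ} {s : ℝ} (hs : 0 < s)
    (h : ∀ i j, s * lpD p X i j ≤ lpD p f i j) : Function.Injective f := by
  intro i j hij
  by_contra hne
  have hpos : 0 < lpD p X i j := by
    rw [lpD_eq]
    exact Real.rpow_pos_of_pos (powDist_pos (hX.ne hne)) _
  have h0 : lpD p f i j = 0 := by simp [lpD, hij, lpN_zero hp]
  nlinarith [h i j]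

/-- The dimension count. -/
lemma dim_bound {n : ℕ} {γ κ κf κg R Cr S dT dΨ Cs : ℝ} (hn : 1 ≤ (n:ℝ)) (hR : 0 ≤ R) (hCr : 0 ≤ Cr)
    (hS : S ≤ (n:ℝ) ^ (1 - γ / 4)) (hγ : γ ≤ 1) (hκγ : κ ≤ γ / 8) (hκf : κ ≤ κf)
    (hκg : κ ≤ κg) (hlog : logL n ≤ (n:ℝ) ^ (γ / 8)) (hdT : dT ≤ Cr * (S + 1) * logL n)
    (hdΨ : dΨ ≤ (n:ℝ) ^ (1 - κf)) (hCs : 0 ≤ Cs) :
    R * (dT + dΨ + (n:ℝ) ^ (1 - κg)) ≤ (Cs + R * (2 * Cr + 2) + 1) * (n:ℝ) ^ (1 - κ) := by
  have hnp : (0:ℝ) < n := by linarith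
  have h1 : (1:ℝ) ≤ (n:ℝ) ^ (1 - γ / 4) := Real.one_le_rpow hn (by linarith)
  have hg : (n:ℝ) ^ (1 - κg) ≤ (n:ℝ) ^ (1 - κ) := Real.rpow_le_rpow_of_exponent_le hn (by linarith)
  have hf : (n:ℝ) ^ (1 - κf) ≤ (n:ℝ) ^ (1 - κ) := Real.rpow_le_rpow_of_exponent_le hn (by linarith)
  have hT : dT ≤ 2 * Cr * (n:ℝ) ^ (1 - κ) := by
    calc dT ≤ Cr * (S + 1) * logL n := hdT
      _ ≤ Cr * (2 * (n:ℝ) ^ (1 - γ / 4)) * (n:ℝ) ^ (γ / 8) :=
          mul_le_mul (mul_le_mul_of_nonneg_left (by linarith) hCr) hlog (logL_pos n).le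
            (mul_nonneg hCr (by linarith))
      _ = 2 * Cr * (n:ℝ) ^ (1 - γ / 8) := by
          rw [mul_assoc, mul_assoc, ← Real.rpow_add hnp]
          ring_nf
      _ ≤ _ := mul_le_mul_of_nonneg_left
          (Real.rpow_le_rpow_of_exponent_le hn (by linarith)) (by linarith)
  have hpos : 0 ≤ (n:ℝ) ^ (1 - κ) := Real.rpow_nonneg hnp.le _
  calc R * (dT + dΨ + (n:ℝ) ^ (1 - κg)) ≤ R * ((2 * Cr + 2) * (n:ℝ) ^ (1 - κ)) := by
        refine mul_le_mul_of_nonneg_left ?_ hR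
        linarith
    _ = (R * (2 * Cr + 2)) * (n:ℝ) ^ (1 - κ) := by ring
    _ ≤ _ := mul_le_mul_of_nonneg_right (by linarith) hpos

/-- Composition of the two maps. -/
lemma distortion_comp {e D1 D s1 x y z : ℝ} (he : e < 1) (he0 : 0 < e) (heD : 1 + e = D1 * (1 - e))
    (hD : D1 * D1 = D) (h2 : s1 * x ≤ y ∧ y ≤ D1 * (s1 * x))
    (h1 : (1 - e) * y ≤ z ∧ z ≤ (1 + e) * y) :
    (1 - e) * s1 * x ≤ z ∧ z ≤ D * ((1 - e) * s1 * x) := by
  constructor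
  · calc (1 - e) * s1 * x = (1 - e) * (s1 * x) := by ring
      _ ≤ (1 - e) * y := mul_le_mul_of_nonneg_left h2.1 (by linarith)
      _ ≤ z := h1.1
  · calc z ≤ (1 + e) * y := h1.2
      _ ≤ (1 + e) * (D1 * (s1 * x)) := mul_le_mul_of_nonneg_left h2.2 (by linarith)
      _ = _ := by rw [heD, ← hD]; ring

/-- The theorem, from the modules. -/
theorem sublinear_of {p : ℝ} (hp : 1 < p) (hrows : RowsStmt p) (hfam : FamilyStmt p)
    (hsplit : SplitStmt p) (hglue : GlueStmt p) (D : ℝ) (hD : 1 < D) :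
    ∃ κ C : ℝ, 0 < κ ∧ 0 < C ∧ ∀ n : ℕ, 2 ≤ n → ∀ (N : ℕ) (X : Fin n → Fin N → ℝ),
      Function.Injective X →
        ∃ d : ℕ, (d : ℝ) ≤ C * (n:ℝ) ^ (1 - κ) ∧
          ∃ (f : Fin n → Fin d → ℝ) (s : ℝ), 0 < s ∧ ∀ i j : Fin n,
            s * (∑ k, |X i k - X j k| ^ p) ^ (1 / p) ≤ (∑ k, |f i k - f j k| ^ p) ^ (1 / p) ∧
            (∑ k, |f i k - f j k| ^ p) ^ (1 / p)
              ≤ D * (s * (∑ k, |X i k - X j k| ^ p) ^ (1 / p)) := by
  classical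
  have hp0 : 0 < p := by linarith
  obtain ⟨D1, hD1def⟩ : ∃ D1, D1 = Real.sqrt D := ⟨_, rfl⟩
  have hD1 : 1 < D1 := by rw [hD1def]; exact Real.lt_sqrt_of_sq_lt (by linarith)
  have hD1sq : D1 * D1 = D := by rw [hD1def]; exact Real.mul_self_sqrt (by linarith)
  obtain ⟨e, he⟩ : ∃ e, e = (D1 - 1) / (D1 + 1) := ⟨_, rfl⟩
  have he0 : 0 < e := he ▸ div_pos (by linarith) (by linarith)
  have he1 : e < 1 := by rw [he, div_lt_one (by linarith)]; linarith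
  have heD : 1 + e = D1 * (1 - e) := by rw [he]; field_simp; ring
  obtain ⟨CN, hCN, hnear⟩ :=
    Vale.Agent.P249.near_linear p hp.le D1 hD1
  obtain ⟨C0, hC0, hsplit⟩ := hsplit
  obtain ⟨K0, hK0, hsplit⟩ := hsplit (e / 16) (by linarith) (by linarith)
  obtain ⟨R, CB, κg, ng, hCB, hκg, hκg1, hglue⟩ :=
    hglue (4 * C0) (by linarith) e he0 he1.le K0 hK0
  obtain ⟨W, hW⟩ : ∃ W : ℝ, W = (2 * C0) ^ p + 1 + 2 ^ p := ⟨_, rfl⟩
  have hW1 : 1 ≤ W := by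
    rw [hW]; linarith [Real.rpow_nonneg (show 0 ≤ 2 * C0 by linarith) p,
      Real.rpow_nonneg (show (0:ℝ) ≤ 2 by norm_num) p]
  obtain ⟨ε1, hε1⟩ : ∃ ε1, ε1 = e / (16 * W) := ⟨_, rfl⟩
  have hε10 : 0 < ε1 := by rw [hε1]; positivity
  have hε11 : ε1 ≤ 1 := by rw [hε1, div_le_one (by positivity)]; linarith
  have hεW : ε1 * W = e / 16 := by rw [hε1]; field_simp
  obtain ⟨Cr, hCr, hrows⟩ := hrows ε1 hε10 hε11
  obtain ⟨κf, hκf, hκf1, nf, hfam⟩ := hfam C0 hC0 ε1 hε10 hε11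
  obtain ⟨γ, hγdef⟩ : ∃ γ, γ = min (κg / 2) (min (κf / (4 * CB)) (1 / 2)) := ⟨_, rfl⟩
  have hγ : 0 < γ := by rw [hγdef]; positivity
  have hγg : γ ≤ κg / 2 := hγdef ▸ min_le_left _ _
  have hγf : γ ≤ κf / (4 * CB) := hγdef ▸ (min_le_right _ _).trans (min_le_left _ _)
  have hγh : γ ≤ 1 / 2 := hγdef ▸ (min_le_right _ _).trans (min_le_right _ _)
  obtain ⟨ns, hsplit⟩ := hsplit CB hCB γ hγ hγh
  obtain ⟨κ, hκdef⟩ : ∃ κ, κ = min (γ / 8) (min κf κg) := ⟨_, rfl⟩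
  have hκ : 0 < κ := by rw [hκdef]; positivity
  have hκγ : κ ≤ γ / 8 := hκdef ▸ min_le_left _ _
  have hκf' : κ ≤ κf := hκdef ▸ (min_le_right _ _).trans (min_le_left _ _)
  have hκg' : κ ≤ κg := hκdef ▸ (min_le_right _ _).trans (min_le_right _ _)
  obtain ⟨n1, hn1⟩ := eventually_log_le κg (p + 1) CN hκg (by linarith)
  obtain ⟨n2, hn2⟩ := eventually_log_le κf (p + 2) CN hκf (by linarith)
  obtain ⟨n3, hn3⟩ := eventually_log_le (γ / 8) 1 1 (by linarith) (by norm_num)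
  obtain ⟨n4, hn4⟩ := eventually_log_le γ 0 2 hγ le_rfl
  obtain ⟨n0, hn0⟩ : ∃ n0, n0 = n1 + n2 + n3 + n4 + ns + ng + nf := ⟨_, rfl⟩
  obtain ⟨Cs, hCs⟩ : ∃ Cs : ℝ, Cs = CN * n0 * (Real.log n0 + 1) ^ (p + 1) := ⟨_, rfl⟩
  have hCs0 : 0 ≤ Cs := by
    have := Real.log_natCast_nonneg n0
    rw [hCs]; positivity
  refine ⟨κ, Cs + R * (2 * Cr + 2) + 1, hκ, by positivity, fun n hn N X hX => ?_⟩
  have hnR : (1:ℝ) ≤ n := by exact_mod_cast (by omega : 1 ≤ n)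
  have hnp : (0:ℝ) < n := by linarith
  have hnpow : 1 ≤ (n:ℝ) ^ (1 - κ) := Real.one_le_rpow hnR (by linarith)
  obtain ⟨N1, hN1, f1, s1, hs1, hf1⟩ := hnear n hn N X hX
  by_cases hbig : n0 ≤ n
  swap
  · refine ⟨N1, hN1.trans ?_, f1, s1, hs1, fun i j => ⟨(hf1 i j).1, (hf1 i j).2.trans ?_⟩⟩
    · have hle : (n:ℝ) ≤ n0 := by exact_mod_cast (by omega : n ≤ n0)
      have hl : Real.log n ≤ Real.log n0 := Real.log_le_log hnp hle
      have h0 := Real.log_natCast_nonneg n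
      calc CN * n * (Real.log n + 1) ^ (p + 1) ≤ Cs := by
            rw [hCs]; gcongr
        _ ≤ (Cs + R * (2 * Cr + 2) + 1) * 1 := by
            rw [mul_one]; linarith [show 0 ≤ (R:ℝ) * (2 * Cr + 2) by positivity]
        _ ≤ _ := mul_le_mul_of_nonneg_left hnpow (by positivity)
    · refine mul_le_mul_of_nonneg_right ?_ (mul_nonneg hs1.le (Real.rpow_nonneg
        (Finset.sum_nonneg fun k _ => Real.rpow_nonneg (abs_nonneg _) _) _))
      nlinarith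
  -- the reduced point set
  have hf1inj : Function.Injective f1 := injective_of_lower hp0 hX hs1 fun i j => (hf1 i j).1
  obtain ⟨m, hm⟩ : ∃ m : ℕ, m = ⌈(n:ℝ) ^ γ⌉₊ := ⟨_, rfl⟩
  have hnγ : 2 ≤ (n:ℝ) ^ γ := by
    have := hn4 n (by omega)
    simpa using this
  have hm2 : 2 ≤ m := by
    have : (2:ℝ) ≤ m := hnγ.trans (hm ▸ Nat.le_ceil _)
    exact_mod_cast this
  have hmle : (m:ℝ) ≤ (n:ℝ) ^ (2 * γ) := by
    rw [hm, two_mul, Real.rpow_add hnp]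
    refine (Nat.ceil_lt_add_one (by positivity)).le.trans ?_
    nlinarith
  obtain ⟨B, hB, hglue⟩ := hglue n (by omega) m hm2
    (hmle.trans (Real.rpow_le_rpow_of_exponent_le hnR (by linarith)))
  obtain ⟨ρ, hρ, hρlip, hρball, Q, hQ, A, E, σ, hσ, hσsum, hsens, hE, hcoarse, hacc⟩ :=
    hsplit n (by omega) m hm B hB N1 f1 hf1inj
  obtain ⟨dT, hdT, T, hT⟩ := hrows n hn Q A (fun i j => powDist p (f1 i) (f1 j)) σ
    (fun i j => powDist_nonneg _ _ _) hσ hsens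
  obtain ⟨dΨ, hdΨ, hfam⟩ := hfam n (by omega)
  have hB2 : (2:ℝ) ^ B ≤ (n:ℝ) ^ κf := two_pow_le (by omega) hm2 hCB hγ hγf hB hmle
  have hNlog : (N1:ℝ) * logL n ≤ (n:ℝ) ^ (1 + κf) := by
    have h := hn2 n (by omega)
    rw [Real.rpow_add hnp, Real.rpow_one]
    have h' : (p + 2) = (p + 1) + 1 := by ring
    rw [h', Real.rpow_add_one (logL_pos n).ne'] at h
    calc (N1:ℝ) * logL n ≤ CN * n * logL n ^ (p + 1) * logL n :=
          mul_le_mul_of_nonneg_right hN1 (logL_pos n).le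
      _ = n * (CN * (logL n ^ (p + 1) * logL n)) := by ring
      _ ≤ _ := mul_le_mul_of_nonneg_left h hnp.le
  obtain ⟨Ψ, hΨ⟩ := hfam (lpD p f1) ρ (fmetric_lpD hp.le hf1inj) hρ hρlip B hB2 Q
    (hQ.trans hNlog) E hE (fun y y' => by
      refine (Real.rpow_le_rpow_iff (lpD_nonneg _ _ _ _) ?_ hp0).1 ?_
      · have := lpD_nonneg p f1 y y'
        have h1 := hρ y
        have h2 := hρ y'
        positivity
      rw [lpD_rpow hp0]
      linarith [hcoarse y y', powDist_nonneg p (A y) (A y')])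
  let F : Fin n → Fin (dT + dΨ) → ℝ := fun i => Fin.append (T i) (Ψ i)
  have hFeq : ∀ i j, powDist p (F i) (F j) = powDist p (T i) (T j) + powDist p (Ψ i) (Ψ j) :=
    fun i j => powDist_append T Ψ i j
  have hN1g : (N1:ℝ) ≤ (n:ℝ) ^ (1 + κg) := by
    refine hN1.trans ?_
    rw [Real.rpow_add hnp, Real.rpow_one, mul_comm CN (n:ℝ), mul_assoc]
    exact mul_le_mul_of_nonneg_left (hn1 n (by omega)) hnp.le
  have hsig : ∀ i j, 0 ≤ lpD p f1 i j + (ρ i + ρ j) / (2:ℝ) ^ B := fun i j => by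
    have := lpD_nonneg p f1 i j
    have h1 := hρ i
    have h2 := hρ j
    positivity
  have ht0 : ∀ i j, 0 ≤ lpD p f1 i j := fun i j => lpD_nonneg _ _ _ _
  have hts : ∀ i j, lpD p f1 i j ≤ lpD p f1 i j + (ρ i + ρ j) / (2:ℝ) ^ B := fun i j =>
    le_add_of_nonneg_right (div_nonneg (add_pos (hρ i) (hρ j)).le (by positivity))
  have hcb := fun i j => combined_bounds (e := e) (T' := powDist p (T i) (T j))
    (P' := powDist p (Ψ i) (Ψ j)) (a := powDist p (A i) (A j)) (b := powDist p (E i) (E j))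
    (t := lpD p f1 i j) hp.le hC0 hε10.le hε11 (ht0 i j) (hts i j) (powDist_nonneg _ _ _)
    (powDist_nonneg _ _ _) hW hεW (by rw [lpD_rpow hp0]; exact hT i j) (hΨ i j) (hcoarse i j)
  obtain ⟨d, hd, f, hf⟩ := hglue N1 hN1g f1 hf1inj ρ hρ hρlip hρball (dT + dΨ) F
    (fun i j => by
      refine (Real.rpow_le_rpow_iff (lpD_nonneg _ _ _ _) (mul_nonneg (by linarith) (hsig i j)) hp0).1 ?_
      rw [lpD_rpow hp0, hFeq]
      exact (hcb i j).1)
    (fun i j hij => by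
      refine base_of_pow_close hp.le (lpD_nonneg _ _ _ _) (ht0 i j) (by linarith) (by linarith) ?_
      rw [lpD_rpow hp0, hFeq]
      refine (hcb i j).2 ?_ (by rw [lpD_rpow hp0]; exact hacc i j hij)
      have : (ρ i + ρ j) / (2:ℝ) ^ B ≤ K0 * (ρ i + ρ j) / (2:ℝ) ^ B :=
        div_le_div_of_nonneg_right (le_mul_of_one_le_left (add_pos (hρ i) (hρ j)).le hK0)
          (by positivity)
      linarith)
  refine ⟨d, hd.trans ?_, f, (1 - e) * s1, mul_pos (by linarith) hs1, fun i j =>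
    distortion_comp he1 he0 heD hD1sq (hf1 i j) (hf i j)⟩
  push_cast
  exact dim_bound hnR (Nat.cast_nonneg R) hCr.le hσsum (by linarith) hκγ hκf' hκg'
    (by simpa using hn3 n (by omega)) hdT hdΨ hCs0

end Vale.Agent.P249.Full
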