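import Mathlib
import Vale.Agent.P249.Full.Spec
import Vale.Agent.P249.Glue
import Vale.Agent.P249.Combine

/-! M4b: gluing the local sketches to a map that is exact above `2 ^ (-B) * ρ`.

In each phase the scales are cut into windows of height `U` at distance `D` from each other.
A window carries the sketch of the remainder at its scale, switched on where `ρ` is above it;
above `ρ` the given map `F` is averaged over the window just below `ρ`. -/

namespace Vale.Agent.P249.Full.GlueAux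

open Finset

/-- The average of the radius averages over one window of scales. -/
noncomputable def bandAvg {n : ℕ} {V : Type*} [NormedAddCommGroup V] [NormedSpace ℝ V]
    (t : Fin n → Fin n → ℝ) (S U : ℕ) (k0 : ℤ) (G : Fin n → V) (x : Fin n) : V :=
  (U : ℝ)⁻¹ • ∑ u ∈ range U, smoothAt t S (k0 + u) G x

lemma two_zpow_le {i j : ℤ} (h : i ≤ j) : (2:ℝ) ^ i ≤ (2:ℝ) ^ j :=
  zpow_le_zpow_right₀ (by norm_num) h

lemma two_zpow_pos (i : ℤ) : (0:ℝ) < (2:ℝ) ^ i := zpow_pos (by norm_num) i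

lemma two_zpow_add_nat (i : ℤ) (k : ℕ) : (2:ℝ) ^ (i + k) = (2:ℝ) ^ i * 2 ^ k := by
  rw [zpow_add₀ (by norm_num : (2:ℝ) ≠ 0), zpow_natCast]

lemma two_zpow_add_four (i : ℤ) : (2:ℝ) ^ (i + 4) = (2:ℝ) ^ i * 16 := by
  rw [zpow_add₀ (by norm_num : (2:ℝ) ≠ 0)]; norm_num

section Band

variable {n : ℕ} {t : Fin n → Fin n → ℝ} {V : Type*} [NormedAddCommGroup V] [NormedSpace ℝ V]
  {S U : ℕ}

lemma bandAvg_near (ht : FMetric t) (hS : 0 < S) (hU : 0 < U) (k0 : ℤ) (G : Fin n → V)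
    (x : Fin n) (v : V) {δ : ℝ} (h : ∀ z, t x z ≤ (2:ℝ) ^ (k0 + U) → ‖G z - v‖ ≤ δ) :
    ‖bandAvg t S U k0 G x - v‖ ≤ δ := by
  have hUR : (0:ℝ) < U := by exact_mod_cast hU
  have he : bandAvg t S U k0 G x - v
      = (U:ℝ)⁻¹ • ∑ u ∈ range U, (smoothAt t S (k0 + u) G x - v) := by
    rw [bandAvg, Finset.sum_sub_distrib, smul_sub, Finset.sum_const, Finset.card_range,
      ← Nat.cast_smul_eq_nsmul ℝ, inv_smul_smul₀ hUR.ne']
  rw [he, norm_smul, Real.norm_eq_abs, abs_of_pos (inv_pos.2 hUR), inv_mul_le_iff₀ hUR]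
  refine (norm_sum_le _ _).trans ((Finset.sum_le_sum (g := fun _ => δ) fun u hu => ?_).trans
    (le_of_eq (by simp)))
  refine smoothAt_near ht hS _ G x v fun z hz => h z (hz.trans ?_)
  rw [mul_comm, show (2:ℝ) ^ (k0 + u) * 2 = (2:ℝ) ^ (k0 + u + 1) by
    rw [zpow_add_one₀ (by norm_num : (2:ℝ) ≠ 0)]]
  refine two_zpow_le ?_
  have : (u:ℤ) < U := by exact_mod_cast Finset.mem_range.1 hu
  omega

/-- Change of a window average between two points, in terms of the growth of the balls. -/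
lemma bandAvg_diff (ht : FMetric t) (hS : 0 < S) (hU : 0 < U) (k0 : ℤ) (G : Fin n → V)
    (x y : Fin n) {A : ℝ} (hA : 0 ≤ A) (hfine : (2:ℝ) ^ (k0 + U) / S ≤ t x y)
    (hG : ∀ R : ℝ, (2:ℝ) ^ k0 ≤ R → ∀ z z', t x z ≤ R → t x z' ≤ R → ‖G z - G z'‖ ≤ A * R) :
    ‖bandAvg t S U k0 G x - bandAvg t S U k0 G y‖
      ≤ A * t x y * (54 * (logBall t x ((2:ℝ) ^ (k0 + U + 1)) - logBall t x ((2:ℝ) ^ (k0 - 1))) / U
          + if (2:ℝ) ^ k0 < 2 * t x y then 5 else 0) := by
  have hUR : (0:ℝ) < U := by exact_mod_cast hU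
  have hτ0 : 0 ≤ t x y := ht.nonneg x y
  set f : ℕ → ℝ := fun u => logBall t x ((2:ℝ) ^ (k0 + u - 1)) with hf
  have hfm : ∀ u, f u ≤ f (u + 3) := fun u => logBall_mono t x (two_zpow_le (by push_cast; omega))
  set c : ℝ := if (2:ℝ) ^ k0 < 2 * t x y then 5 else 0 with hc
  have hc0 : 0 ≤ c := by rw [hc]; split_ifs <;> norm_num
  have hlev : ∀ u < U, ‖smoothAt t S (k0 + u) G x - smoothAt t S (k0 + u) G y‖
      ≤ A * t x y * (18 * (f (u + 3) - f u) + c) := by
    intro u hu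
    set k := k0 + (u:ℤ) with hk
    have hkU : k ≤ k0 + U := by
      have : (u:ℤ) < U := by exact_mod_cast hu
      omega
    have hpos := two_zpow_pos k
    have hle : (2:ℝ) ^ k0 ≤ (2:ℝ) ^ k := two_zpow_le (by omega)
    by_cases h1 : 2 * t x y ≤ (2:ℝ) ^ k
    · refine (smoothAt_gradient ht hS k x y h1
        (le_trans (div_le_div_of_nonneg_right (two_zpow_le hkU) (Nat.cast_nonneg S)) hfine) G
        (δ := A * (3 * (2:ℝ) ^ k)) (by positivity)
        fun z z' hz hz' => hG _ (hle.trans (by linarith)) z z' hz hz').trans ?_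
      have e1 : k0 + ((u + 3 : ℕ) : ℤ) - 1 = k + 2 := by push_cast; omega
      have e2 : k0 + (u : ℤ) - 1 = k - 1 := by omega
      have hnn := mul_nonneg (mul_nonneg hA hτ0) hc0
      simp only [hf, e1, e2]
      calc 6 * (A * (3 * (2:ℝ) ^ k)) * (t x y / (2:ℝ) ^ k) *
            (logBall t x ((2:ℝ) ^ (k + 2)) - logBall t x ((2:ℝ) ^ (k - 1)))
          = A * t x y * (18 * (logBall t x ((2:ℝ) ^ (k + 2)) - logBall t x ((2:ℝ) ^ (k - 1)))) := by
            field_simp; ring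
        _ ≤ _ := by linarith
    · push Not at h1
      have hcc : c = 5 := by rw [hc, if_pos (lt_of_le_of_lt hle h1)]
      refine le_trans ?_ (mul_le_mul_of_nonneg_left
        (le_add_of_nonneg_left (a := c) (mul_nonneg (by norm_num) (sub_nonneg.2 (hfm u))))
        (mul_nonneg hA hτ0))
      rw [hcc]
      refine smoothAt_near ht hS k G x _ fun z hz => ?_
      rw [norm_sub_rev]
      refine smoothAt_near ht hS k G y _ fun z' hz' => ?_
      refine (hG (5 * t x y) (by linarith) z' z ?_ ?_).trans (le_of_eq (by ring))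
      · linarith [ht.tri x y z']
      · linarith
  have hsum : ∑ u ∈ range U, (f (u + 3) - f u)
      ≤ 3 * (logBall t x ((2:ℝ) ^ (k0 + U + 1)) - logBall t x ((2:ℝ) ^ (k0 - 1))) := by
    rw [sum_shift]
    calc ∑ j ∈ range 3, (f (U + j) - f j) ≤ ∑ _j ∈ range 3,
          (logBall t x ((2:ℝ) ^ (k0 + U + 1)) - logBall t x ((2:ℝ) ^ (k0 - 1))) := by
          refine Finset.sum_le_sum fun j hj => sub_le_sub (logBall_mono t x (two_zpow_le ?_))
            (logBall_mono t x (two_zpow_le ?_))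
          · have : j < 3 := Finset.mem_range.1 hj
            push_cast; omega
          · omega
      _ = _ := by simp; ring
  have he : bandAvg t S U k0 G x - bandAvg t S U k0 G y = (U:ℝ)⁻¹ • ∑ u ∈ range U,
      (smoothAt t S (k0 + u) G x - smoothAt t S (k0 + u) G y) := by
    rw [bandAvg, bandAvg, ← smul_sub, ← Finset.sum_sub_distrib]
  rw [he, norm_smul, Real.norm_eq_abs, abs_of_pos (inv_pos.2 hUR), inv_mul_le_iff₀ hUR]
  refine (norm_sum_le _ _).trans ((Finset.sum_le_sum fun u hu =>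
    hlev u (Finset.mem_range.1 hu)).trans ?_)
  rw [← Finset.mul_sum, Finset.sum_add_distrib, ← Finset.mul_sum, Finset.sum_const,
    Finset.card_range, nsmul_eq_mul]
  refine le_trans (mul_le_mul_of_nonneg_left (add_le_add
    (mul_le_mul_of_nonneg_left hsum (by norm_num)) le_rfl) (mul_nonneg hA hτ0)) (le_of_eq ?_)
  field_simp; ring

end Band

/-- The ramp from `0` at `c` to `1` at `2 * c`. -/
noncomputable def ramp (c ρ : ℝ) : ℝ := max 0 (min 1 (ρ / c - 1))

lemma ramp_nonneg (c ρ : ℝ) : 0 ≤ ramp c ρ := le_max_left _ _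

lemma ramp_le_one (c ρ : ℝ) : ramp c ρ ≤ 1 := max_le zero_le_one (min_le_left _ _)

lemma ramp_eq_one {c ρ : ℝ} (hc : 0 < c) (h : 2 * c ≤ ρ) : ramp c ρ = 1 := by
  have : 1 ≤ ρ / c - 1 := by
    rw [le_sub_iff_add_le, le_div_iff₀ hc]; linarith
  simp [ramp, min_eq_left this]

lemma ramp_eq_zero {c ρ : ℝ} (hc : 0 < c) (h : ρ ≤ c) : ramp c ρ = 0 := by
  have h1 : ρ / c - 1 ≤ 0 := by
    rw [sub_nonpos, div_le_one hc]; exact h
  exact max_eq_left ((min_le_right _ _).trans h1)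

lemma lt_of_ramp_pos {c ρ : ℝ} (hc : 0 < c) (h : 0 < ramp c ρ) : c < ρ := by
  by_contra hn
  rw [ramp_eq_zero hc (not_lt.1 hn)] at h
  exact lt_irrefl _ h

lemma ramp_mono {c : ℝ} (hc : 0 < c) {u v : ℝ} (h : v ≤ u) : ramp c v ≤ ramp c u :=
  max_le_max le_rfl (min_le_min le_rfl (sub_le_sub_right (div_le_div_of_nonneg_right h hc.le) 1))

lemma ramp_anti {c c' : ℝ} (hc : 0 < c) (hcc : c ≤ c') {u : ℝ} (hu : 0 ≤ u) :
    ramp c' u ≤ ramp c u :=
  max_le_max le_rfl (min_le_min le_rfl (sub_le_sub_right (div_le_div_of_nonneg_left hu hc hcc) 1))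

lemma mul_ramp {c : ℝ} (hc : 0 < c) (u : ℝ) : c * ramp c u = min u (2 * c) - min u c := by
  rcases le_total u c with h | h
  · rw [ramp_eq_zero hc h, min_eq_left h, min_eq_left (by linarith)]; ring
  rcases le_total u (2 * c) with h2 | h2
  · have e1 : u / c - 1 ≤ 1 := by rw [sub_le_iff_le_add, div_le_iff₀ hc]; linarith
    have e2 : 0 ≤ u / c - 1 := by rw [sub_nonneg, le_div_iff₀ hc]; linarith
    rw [ramp, min_eq_right e1, max_eq_right e2, min_eq_left h2, min_eq_right h]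
    field_simp
  · rw [ramp_eq_one hc h2, min_eq_right h2, min_eq_right h]; ring

lemma min_diff_mono {u v a b : ℝ} (hvu : v ≤ u) (hab : a ≤ b) :
    min u a - min v a ≤ min u b - min v b := by
  simp only [min_def]
  split_ifs <;> linarith

/-- Ramps at well separated scales move together by at most the distance. -/
lemma sum_mul_ramp_le (c : ℕ → ℝ) (hc : ∀ i, 0 < c i) (h2 : ∀ i, 2 * c i ≤ c (i + 1))
    {u v : ℝ} (hvu : v ≤ u) : ∀ W,
    ∑ i ∈ range W, c i * (ramp (c i) u - ramp (c i) v) ≤ min u (c W) - min v (c W)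
  | 0 => by
    simp only [Finset.range_zero, Finset.sum_empty, sub_nonneg]
    exact min_le_min hvu le_rfl
  | W + 1 => by
    rw [Finset.sum_range_succ]
    have := sum_mul_ramp_le c hc h2 hvu W
    have e := min_diff_mono hvu (h2 W)
    rw [mul_sub, mul_ramp (hc W), mul_ramp (hc W)]
    linarith

/-- A geometric sum of window scales is dominated by its last term. -/
lemma sum_zpow_le (a : ℤ) {D : ℕ} (hD : 1 ≤ D) : ∀ k : ℕ,
    ∑ i ∈ range k, (2:ℝ) ^ (a + (i:ℤ) * D) ≤ (2:ℝ) ^ (a + (k:ℤ) * D)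
  | 0 => by simpa using (two_zpow_pos a).le
  | k + 1 => by
    rw [Finset.sum_range_succ]
    refine (add_le_add (sum_zpow_le a hD k) le_rfl).trans ?_
    rw [show a + ((k + 1 : ℕ) : ℤ) * D = a + (k:ℤ) * D + D by push_cast; ring, two_zpow_add_nat,
      ← two_mul, mul_comm]
    refine mul_le_mul_of_nonneg_left ?_ (two_zpow_pos _).le
    calc (2:ℝ) = 2 ^ 1 := (pow_one 2).symm
      _ ≤ 2 ^ D := pow_le_pow_right₀ (by norm_num) hD

/-- The lowest scale of window `i`. -/
def bd (a : ℤ) (D i : ℕ) : ℤ := a + (i:ℤ) * D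

/-- The switch of window `i`: on above its scale. -/
noncomputable def gam {n : ℕ} (ρ : Fin n → ℝ) (a : ℤ) (D U i : ℕ) (y : Fin n) : ℝ :=
  ramp ((2:ℝ) ^ (bd a D i + U + 4)) (ρ y)

/-- The remainder of `X` carried by window `i`. -/
noncomputable def remX {n : ℕ} {V : Type*} [NormedAddCommGroup V] [NormedSpace ℝ V]
    (t : Fin n → Fin n → ℝ) (ρ : Fin n → ℝ) (a : ℤ) (D U S i : ℕ) (X : Fin n → V) (y : Fin n) :
    V :=
  gam ρ a D U (i + 1) y • (X y - bandAvg t S U (bd a D (i + 1)) X y)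

/-- The glued sketches of one phase. -/
noncomputable def lowPart {n : ℕ} {V : Type*} [NormedAddCommGroup V] [NormedSpace ℝ V]
    (t : Fin n → Fin n → ℝ) (ρ : Fin n → ℝ) (a : ℤ) (D U S W : ℕ) (G : ℕ → Fin n → V)
    (y : Fin n) : V :=
  ∑ i ∈ range W, gam ρ a D U (i + 1) y • bandAvg t S U (bd a D i) (G i) y

/-- The averaged top map of one phase. -/
noncomputable def topPart {n : ℕ} {V : Type*} [NormedAddCommGroup V] [NormedSpace ℝ V]
    (t : Fin n → Fin n → ℝ) (ρ : Fin n → ℝ) (a : ℤ) (D U S W : ℕ) (F : Fin n → V)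
    (y : Fin n) : V :=
  ∑ i ∈ range W, (gam ρ a D U i y - gam ρ a D U (i + 1) y) • bandAvg t S U (bd a D i) F y

/-- The capped growth of the balls up to window `i`. -/
noncomputable def hcap {n : ℕ} (t : Fin n → Fin n → ℝ) (a : ℤ) (D m i : ℕ) (x : Fin n) : ℝ :=
  min (Real.log m) (logBall t x ((2:ℝ) ^ (bd a D i - 1)))

/-- `z` keeps away from all window boundaries. -/
def Away (a : ℤ) (D U W : ℕ) (z : ℝ) : Prop :=
  ∀ i ≤ W, (2:ℝ) ^ (bd a D i + 4 * U) ≤ z ∨ z < (2:ℝ) ^ (bd a D i - 4 * U)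

/-- The standing assumptions on one phase. -/
structure Phase {n : ℕ} {VX VF : Type*} [NormedAddCommGroup VX] [NormedSpace ℝ VX]
    [NormedAddCommGroup VF] [NormedSpace ℝ VF] (X : Fin n → VX) (F : Fin n → VF)
    (t : Fin n → Fin n → ℝ) (ρ : Fin n → ℝ) (a : ℤ) (D U S W B m : ℕ)
    (η C0 K0 ε : ℝ) : Prop where
  met : FMetric t
  dist : ∀ x y, ‖X x - X y‖ = t x y
  pos : ∀ y, 0 < ρ y
  lip : ∀ x y, ρ x ≤ ρ y + t x y
  ball : ∀ y R, R < ρ y → (ballF t y R).card ≤ m
  hU : 6 ≤ U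
  hD : 2 * U ≤ D
  hB : D + U + 6 ≤ B
  hS : 0 < S
  η0 : 0 < η
  η1 : η ≤ 1
  hlog : 54 * Real.log m ≤ η * U
  C01 : 1 ≤ C0
  K01 : 0 ≤ K0
  hK : 2 * K0 ≤ (2:ℝ) ^ U
  fine : ∀ x y, x ≠ y → (2:ℝ) ^ (bd a D W + U) / S ≤ t x y
  lo : ∀ y, (2:ℝ) ^ (a + U + 5) ≤ ρ y
  hi : ∀ y, ρ y ≤ (2:ℝ) ^ (bd a D W + U + 4)
  Fup : ∀ x y, ‖F x - F y‖ ≤ C0 * (t x y + (ρ x + ρ y) / (2:ℝ) ^ B)
  Facc : ∀ x y, K0 * (ρ x + ρ y) / (2:ℝ) ^ B ≤ t x y →
    (1 - ε / 8) * t x y ≤ ‖F x - F y‖ ∧ ‖F x - F y‖ ≤ (1 + ε / 8) * t x y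
  small : 100 * C0 * η + 200 * C0 / (2:ℝ) ^ U ≤ ε / 8
  ε1 : ε ≤ 1

section Phase

set_option linter.unusedSectionVars false

variable {n : ℕ} {VX VG VF : Type*} [NormedAddCommGroup VX] [NormedSpace ℝ VX]
  [NormedAddCommGroup VG] [NormedSpace ℝ VG] [NormedAddCommGroup VF] [NormedSpace ℝ VF]
  {X : Fin n → VX} {F : Fin n → VF} {G : ℕ → Fin n → VG} {t : Fin n → Fin n → ℝ} {ρ : Fin n → ℝ}
  {a : ℤ} {D U S W B m : ℕ} {η C0 K0 ε : ℝ}

lemma gam_mem (i : ℕ) (y : Fin n) : 0 ≤ gam ρ a D U i y ∧ gam ρ a D U i y ≤ 1 :=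
  ⟨ramp_nonneg _ _, ramp_le_one _ _⟩

lemma gam_mono {x y : Fin n} (h : ρ y ≤ ρ x) (i : ℕ) :
    gam ρ a D U i y ≤ gam ρ a D U i x :=
  ramp_mono (two_zpow_pos _) h

lemma lt_of_gam_pos {i : ℕ} {y : Fin n} (h : 0 < gam ρ a D U i y) :
    (2:ℝ) ^ (bd a D i + U + 4) < ρ y :=
  lt_of_ramp_pos (two_zpow_pos _) h

lemma lt_of_gam_lt_one {i : ℕ} {y : Fin n} (h : gam ρ a D U i y < 1) :
    ρ y < (2:ℝ) ^ (bd a D i + U + 5) := by
  by_contra hn
  refine h.ne (ramp_eq_one (two_zpow_pos _) (le_trans (le_of_eq ?_) (not_lt.1 hn)))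
  rw [show bd a D i + U + 5 = bd a D i + U + 4 + 1 by ring,
    zpow_add_one₀ (by norm_num : (2:ℝ) ≠ 0), mul_comm]

lemma gam_one_of_le {i : ℕ} {y : Fin n} (h : (2:ℝ) ^ (bd a D i + U + 5) ≤ ρ y) :
    gam ρ a D U i y = 1 :=
  le_antisymm (gam_mem i y).2 (not_lt.1 fun h' => absurd (lt_of_gam_lt_one h') (not_lt.2 h))

lemma bd_succ (i : ℕ) : bd a D (i + 1) = bd a D i + D := by
  simp only [bd]; push_cast; ring

lemma bd_le {i j : ℕ} (h : i ≤ j) : bd a D i ≤ bd a D j := by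
  have : (i:ℤ) ≤ j := by exact_mod_cast h
  simp only [bd]; nlinarith [Int.natCast_nonneg (n := D)]

lemma gam_anti {y : Fin n} (hy : 0 ≤ ρ y) {i j : ℕ} (h : i ≤ j) :
    gam ρ a D U j y ≤ gam ρ a D U i y :=
  ramp_anti (two_zpow_pos _) (two_zpow_le (by linarith [bd_le (a := a) (D := D) h])) hy

variable (P : Phase X F t ρ a D U S W B m η C0 K0 ε)
include P

lemma eps_small : 84 * η + 6 * C0 * η + 200 * C0 / (2:ℝ) ^ U + 2 * η ≤ ε / 8 := by
  nlinarith [P.small, mul_le_mul_of_nonneg_right P.C01 P.η0.le, P.η0, mul_nonneg (le_trans zero_le_one P.C01) P.η0.le]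

lemma coef_nonneg (i : ℕ) (y : Fin n) :
    0 ≤ gam ρ a D U i y - gam ρ a D U (i + 1) y :=
  sub_nonneg.2 (gam_anti (P.pos y).le (Nat.le_succ i))

lemma sum_coef (y : Fin n) :
    ∑ i ∈ range W, (gam ρ a D U i y - gam ρ a D U (i + 1) y) = 1 := by
  rw [Finset.sum_range_sub' (fun i => gam ρ a D U i y) W]
  have e1 : gam ρ a D U 0 y = 1 := gam_one_of_le (by simpa [bd] using P.lo y)
  have e2 : gam ρ a D U W y = 0 := ramp_eq_zero (two_zpow_pos _) (P.hi y)
  rw [e1, e2]; ring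

/-- Telescoped growth of the balls in the windows. -/
lemma sum_growth (x : Fin n) :
    ∑ i ∈ range W, 54 * (hcap t a D m (i + 1) x - hcap t a D m i x) / (U:ℝ) ≤ η := by
  rw [← Finset.sum_div, ← Finset.mul_sum, Finset.sum_range_sub (fun i => hcap t a D m i x) W,
    div_le_iff₀ (by exact_mod_cast (by linarith [P.hU] : 0 < U))]
  have h1 : hcap t a D m W x ≤ Real.log m := min_le_left _ _
  have h2 : 0 ≤ hcap t a D m 0 x := le_min (Real.log_natCast_nonneg m) (logBall_nonneg _ _ _)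
  linarith [P.hlog]

lemma growth_nonneg (i : ℕ) (x : Fin n) :
    0 ≤ 54 * (hcap t a D m (i + 1) x - hcap t a D m i x) / (U:ℝ) := by
  refine div_nonneg (mul_nonneg (by norm_num) (sub_nonneg.2 (min_le_min le_rfl ?_)))
    (Nat.cast_nonneg _)
  exact logBall_mono t x (two_zpow_le (by linarith [bd_le (a := a) (D := D) (Nat.le_succ i)]))

/-- A window below `ρ x` sees at most `m` points. -/
lemma band_diff {V : Type*} [NormedAddCommGroup V] [NormedSpace ℝ V] {i : ℕ} (hi : i ≤ W)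
    (f : Fin n → V) {x y : Fin n} (hxy : x ≠ y) {A : ℝ} (hA : 0 ≤ A)
    (hbelow : (2:ℝ) ^ (bd a D i + U + 1) < ρ x)
    (hf : ∀ R : ℝ, (2:ℝ) ^ bd a D i ≤ R → ∀ z z', t x z ≤ R → t x z' ≤ R →
      ‖f z - f z'‖ ≤ A * R) :
    ‖bandAvg t S U (bd a D i) f x - bandAvg t S U (bd a D i) f y‖
      ≤ A * t x y * (54 * (hcap t a D m (i + 1) x - hcap t a D m i x) / (U:ℝ)
          + if (2:ℝ) ^ bd a D i < 2 * t x y then 5 else 0) := by
  have hU0 : 0 < U := by linarith [P.hU]
  refine (bandAvg_diff P.met P.hS hU0 _ f x y hA ?_ hf).trans ?_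
  · exact le_trans (div_le_div_of_nonneg_right
      (two_zpow_le (by linarith [bd_le (a := a) (D := D) hi])) (Nat.cast_nonneg S)) (P.fine x y hxy)
  refine mul_le_mul_of_nonneg_left (add_le_add (div_le_div_of_nonneg_right
    (mul_le_mul_of_nonneg_left (sub_le_sub ?_ (min_le_right _ _)) (by norm_num))
    (Nat.cast_nonneg _)) le_rfl) (mul_nonneg hA (P.met.nonneg x y))
  refine le_min ?_ (logBall_mono t x (two_zpow_le ?_))
  · have hc := P.ball x _ hbelow
    have h0 : 0 < (ballF t x ((2:ℝ) ^ (bd a D i + U + 1))).card :=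
      Finset.card_pos.2 ⟨x, mem_ballF_self P.met x (two_zpow_pos _).le⟩
    exact Real.log_le_log (by exact_mod_cast h0) (by exact_mod_cast hc)
  · have := P.hD
    have := P.hU
    rw [bd_succ]; omega

lemma remX_norm (i : ℕ) (z : Fin n) :
    ‖remX t ρ a D U S i X z‖ ≤ (2:ℝ) ^ (bd a D (i + 1) + U) := by
  rw [remX, norm_smul, Real.norm_eq_abs, abs_of_nonneg (gam_mem _ z).1]
  refine (mul_le_of_le_one_left (norm_nonneg _) (gam_mem _ z).2).trans ?_
  rw [norm_sub_rev]
  refine bandAvg_near P.met P.hS (by linarith [P.hU]) _ X z _ fun z' hz' => ?_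
  rw [P.dist, P.met.symm]; exact hz'

lemma X_ball (x : Fin n) (k : ℤ) :
    ∀ R : ℝ, (2:ℝ) ^ k ≤ R → ∀ z z', t x z ≤ R → t x z' ≤ R → ‖X z - X z'‖ ≤ 2 * R := by
  intro R _ z z' hz hz'
  rw [P.dist]
  linarith [P.met.tri z x z', P.met.symm z x]

/-- The change of a product with a switch. -/
lemma smul_sub_bound {V : Type*} [NormedAddCommGroup V] [NormedSpace ℝ V] {gx gy : ℝ}
    (h0 : 0 ≤ gy) (hle : gy ≤ gx) (u v : V) :
    ‖gx • u - gy • v‖ ≤ (gx - gy) * ‖u‖ + gy * ‖u - v‖ := by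
  have he : gx • u - gy • v = (gx - gy) • u + gy • (u - v) := by
    rw [sub_smul, smul_sub]; abel
  rw [he]
  refine (norm_add_le _ _).trans (le_of_eq ?_)
  rw [norm_smul, norm_smul, Real.norm_eq_abs, Real.norm_eq_abs, abs_of_nonneg h0,
    abs_of_nonneg (sub_nonneg.2 hle)]

lemma mul_ramp_diff_le {x y : Fin n} (h : ρ y ≤ ρ x) (i : ℕ) :
    (2:ℝ) ^ (bd a D i + U + 4) * (gam ρ a D U i x - gam ρ a D U i y) ≤ t x y := by
  rw [gam, gam, mul_sub, mul_ramp (two_zpow_pos _), mul_ramp (two_zpow_pos _)]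
  have e2 : min (ρ y) ((2:ℝ) ^ (bd a D i + U + 4)) ≤ min (ρ x) ((2:ℝ) ^ (bd a D i + U + 4)) :=
    min_le_min h le_rfl
  have e1 : min (ρ x) (2 * (2:ℝ) ^ (bd a D i + U + 4))
      - min (ρ y) (2 * (2:ℝ) ^ (bd a D i + U + 4)) ≤ ρ x - ρ y := by
    simp only [min_def]; split_ifs <;> linarith
  linarith [P.lip x y]

lemma remX_diff {i : ℕ} (hi : i < W) (x y : Fin n) :
    ‖remX t ρ a D U S i X x - remX t ρ a D U S i X y‖ ≤ 14 * t x y := by
  rcases eq_or_ne x y with rfl | hxy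
  · simp [P.met.self]
  wlog h : ρ y ≤ ρ x generalizing x y
  · rw [norm_sub_rev, P.met.symm x y]; exact this y x hxy.symm (le_of_not_ge h)
  have hτ := P.met.nonneg x y
  rw [remX, remX]
  refine (smul_sub_bound P (gam_mem _ y).1 (gam_mono h _) _ _).trans ?_
  set g := gam ρ a D U (i + 1) with hg
  set o := bandAvg t S U (bd a D (i + 1)) X
  have h1 : ‖X x - o x‖ ≤ (2:ℝ) ^ (bd a D (i + 1) + U + 4) := by
    rw [norm_sub_rev]
    refine (bandAvg_near P.met P.hS (by linarith [P.hU]) _ X x _ fun z' hz' => ?_).trans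
      (two_zpow_le (by omega) : (2:ℝ) ^ (bd a D (i + 1) + U) ≤ _)
    rw [P.dist, P.met.symm]; exact hz'
  have h2 : (g x - g y) * ‖X x - o x‖ ≤ t x y := by
    refine le_trans (mul_le_mul_of_nonneg_left h1 (sub_nonneg.2 (gam_mono h _))) ?_
    rw [mul_comm]; exact mul_ramp_diff_le P h (i + 1)
  rcases (gam_mem (ρ := ρ) (a := a) (D := D) (U := U) (i + 1) y).1.eq_or_lt' with h0 | h0
  · simp only [hg, h0, zero_mul, add_zero] at h2 ⊢
    linarith
  have hy := lt_of_gam_pos h0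
  have h3 : ‖(X x - o x) - (X y - o y)‖ ≤ 13 * t x y := by
    rw [show (X x - o x) - (X y - o y) = (X x - X y) - (o x - o y) by abel]
    refine (norm_sub_le _ _).trans ?_
    have := band_diff P (i := i + 1) (by omega) X hxy (A := 2) (by norm_num)
      (lt_of_le_of_lt (two_zpow_le (by omega)) (hy.trans_le h)) (X_ball P x _)
    have hH : 54 * (hcap t a D m (i + 1 + 1) x - hcap t a D m (i + 1) x) / (U:ℝ) ≤ η := by
      refine le_trans (div_le_div_of_nonneg_right ?_ (Nat.cast_nonneg _))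
        ((div_le_iff₀ (by exact_mod_cast (by linarith [P.hU] : 0 < U))).2 P.hlog)
      have h0 : 0 ≤ hcap t a D m (i + 1) x :=
        le_min (Real.log_natCast_nonneg m) (logBall_nonneg _ _ _)
      have h1 : hcap t a D m (i + 1 + 1) x ≤ Real.log m := min_le_left _ _
      linarith
    have hind : (if (2:ℝ) ^ bd a D (i + 1) < 2 * t x y then (5:ℝ) else 0) ≤ 5 := by
      split_ifs <;> norm_num
    rw [P.dist]
    nlinarith [P.η1]
  nlinarith [mul_le_mul (gam_mem (ρ := ρ) (a := a) (D := D) (U := U) (i + 1) y).2 h3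
    (norm_nonneg _) zero_le_one]

variable {p es : ℝ}
  (hp : 1 ≤ p) (hes : es ≤ 1)
  (hG : ∀ i < W, (∀ z z', |‖G i z - G i z'‖ ^ p
      - ‖remX t ρ a D U S i X z - remX t ρ a D U S i X z'‖ ^ p|
      ≤ es * (((2:ℝ) ^ bd a D i) ^ p
        + ‖remX t ρ a D U S i X z - remX t ρ a D U S i X z'‖ ^ p)) ∧
    ∀ z, |‖G i z‖ ^ p - ‖remX t ρ a D U S i X z‖ ^ p|
      ≤ es * (((2:ℝ) ^ bd a D i) ^ p + ‖remX t ρ a D U S i X z‖ ^ p))
include hp hes hG

lemma G_diff {i : ℕ} (hi : i < W) (z z' : Fin n) :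
    ‖G i z - G i z'‖ ≤ 28 * (t z z' + (2:ℝ) ^ bd a D i) := by
  refine (le_two_mul_of_rpow hp (norm_nonneg _) (norm_nonneg _) (two_zpow_pos _).le hes
    ((hG i hi).1 z z')).trans ?_
  linarith [remX_diff P hi z z', two_zpow_pos (bd a D i)]

lemma G_ball {i : ℕ} (hi : i < W) (x : Fin n) :
    ∀ R : ℝ, (2:ℝ) ^ bd a D i ≤ R → ∀ z z', t x z ≤ R → t x z' ≤ R →
      ‖G i z - G i z'‖ ≤ 84 * R := by
  intro R hR z z' hz hz'
  refine (G_diff P hp hes hG hi z z').trans ?_
  linarith [P.met.tri z x z', P.met.symm z x]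

lemma G_avg_norm {i : ℕ} (hi : i < W) (z : Fin n) :
    ‖bandAvg t S U (bd a D i) (G i) z‖ ≤ (2:ℝ) ^ (bd a D (i + 1) + U + 2) := by
  have h := bandAvg_near P.met P.hS (by linarith [P.hU] : 0 < U) (bd a D i) (G i) z 0
    (δ := (2:ℝ) ^ (bd a D (i + 1) + U + 2)) fun z' _ => ?_
  · simpa using h
  rw [sub_zero]
  refine (le_two_mul_of_rpow hp (norm_nonneg _) (norm_nonneg _) (two_zpow_pos _).le hes
    ((hG i hi).2 z')).trans ?_
  have h1 := remX_norm P i z'
  have h2 : (2:ℝ) ^ bd a D i ≤ (2:ℝ) ^ (bd a D (i + 1) + U) :=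
    two_zpow_le (by rw [bd_succ]; omega)
  rw [show (bd a D (i + 1) + U + 2 : ℤ) = bd a D (i + 1) + U + ((2:ℕ):ℤ) by norm_num,
    two_zpow_add_nat]
  linarith

/-- One window of the glued sketches. -/
lemma low_term {i : ℕ} (hi : i < W) {x y : Fin n} (hxy : x ≠ y) (h : ρ y ≤ ρ x) :
    ‖gam ρ a D U (i + 1) x • bandAvg t S U (bd a D i) (G i) x
        - gam ρ a D U (i + 1) y • bandAvg t S U (bd a D i) (G i) y‖
      ≤ (2:ℝ) ^ (bd a D (i + 1) + U + 4)
          * (gam ρ a D U (i + 1) x - gam ρ a D U (i + 1) y) / 4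
        + 84 * t x y * (54 * (hcap t a D m (i + 1) x - hcap t a D m i x) / (U:ℝ)
          + if (2:ℝ) ^ bd a D i < 2 * t x y then 5 else 0) := by
  have hτ := P.met.nonneg x y
  refine (smul_sub_bound P (gam_mem _ y).1 (gam_mono h _) _ _).trans (add_le_add ?_ ?_)
  · refine (mul_le_mul_of_nonneg_left (G_avg_norm P hp hes hG hi x)
      (sub_nonneg.2 (gam_mono h _))).trans (le_of_eq ?_)
    rw [show (bd a D (i + 1) + U + 4 : ℤ) = bd a D (i + 1) + U + 2 + ((2:ℕ):ℤ) by norm_num; ring,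
      two_zpow_add_nat]
    ring
  · have hind : (0:ℝ) ≤ if (2:ℝ) ^ bd a D i < 2 * t x y then 5 else 0 := by
      split_ifs <;> norm_num
    have hnn : 0 ≤ 84 * t x y * (54 * (hcap t a D m (i + 1) x - hcap t a D m i x) / (U:ℝ)
        + if (2:ℝ) ^ bd a D i < 2 * t x y then 5 else 0) :=
      mul_nonneg (by positivity) (add_nonneg (growth_nonneg P i x) hind)
    rcases (gam_mem (ρ := ρ) (a := a) (D := D) (U := U) (i + 1) y).1.eq_or_lt' with h0 | h0
    · simpa [h0] using hnn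
    refine le_trans (mul_le_of_le_one_left (norm_nonneg _) (gam_mem _ y).2) ?_
    refine band_diff P hi.le (G i) hxy (by norm_num)
      (lt_of_le_of_lt (two_zpow_le ?_) ((lt_of_gam_pos h0).trans_le h)) (G_ball P hp hes hG hi x)
    rw [bd_succ]; omega

/-- One window, bounded by its norms. -/
lemma low_term_norm {i : ℕ} (hi : i < W) (x y : Fin n) :
    ‖gam ρ a D U (i + 1) x • bandAvg t S U (bd a D i) (G i) x
        - gam ρ a D U (i + 1) y • bandAvg t S U (bd a D i) (G i) y‖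
      ≤ (2:ℝ) ^ (bd a D (i + 1) + U + 3) := by
  refine (norm_sub_le _ _).trans ?_
  rw [show (bd a D (i + 1) + U + 3 : ℤ) = bd a D (i + 1) + U + 2 + 1 by ring,
    zpow_add_one₀ (by norm_num : (2:ℝ) ≠ 0), mul_two]
  refine add_le_add ?_ ?_ <;>
  · rw [norm_smul, Real.norm_eq_abs, abs_of_nonneg (gam_mem _ _).1]
    exact (mul_le_of_le_one_left (norm_nonneg _) (gam_mem _ _).2).trans (G_avg_norm P hp hes hG hi _)

lemma sum_switch {x y : Fin n} (h : ρ y ≤ ρ x) :
    ∑ i ∈ range (W + 1),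
      (2:ℝ) ^ (bd a D i + U + 4) * (gam ρ a D U i x - gam ρ a D U i y) ≤ t x y := by
  have h2 : ∀ i : ℕ, 2 * (2:ℝ) ^ (bd a D i + U + 4) ≤ (2:ℝ) ^ (bd a D (i + 1) + U + 4) := by
    intro i
    rw [mul_comm, ← zpow_add_one₀ (by norm_num : (2:ℝ) ≠ 0)]
    refine two_zpow_le ?_
    have := P.hD
    have := P.hU
    rw [bd_succ]; omega
  refine (sum_mul_ramp_le (fun i => (2:ℝ) ^ (bd a D i + U + 4)) (fun i => two_zpow_pos _) h2 h
    (W + 1)).trans ?_
  have := P.lip x y
  simp only [min_def]; split_ifs <;> linarith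

lemma sum_switch_succ {x y : Fin n} (h : ρ y ≤ ρ x) :
    ∑ i ∈ range W, (2:ℝ) ^ (bd a D (i + 1) + U + 4)
      * (gam ρ a D U (i + 1) x - gam ρ a D U (i + 1) y) ≤ t x y := by
  have := sum_switch P hp hes hG h
  rw [Finset.sum_range_succ'] at this
  have h0 : 0 ≤ (2:ℝ) ^ (bd a D 0 + U + 4) * (gam ρ a D U 0 x - gam ρ a D U 0 y) :=
    mul_nonneg (two_zpow_pos _).le (sub_nonneg.2 (gam_mono h _))
  linarith

/-- The windows far below the distance. -/
lemma sum_below {k : ℕ} :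
    ∑ i ∈ range k, (2:ℝ) ^ (bd a D (i + 1) + U + 3) ≤ (2:ℝ) ^ (bd a D k + U + 4) := by
  rcases k with - | j
  · simp [(two_zpow_pos _).le]
  have hsum : ∑ i ∈ range (j + 1), (2:ℝ) ^ (bd a D (i + 1) + U + 3)
      = ∑ i ∈ range j, (2:ℝ) ^ ((a + D + U + 3) + (i:ℤ) * D)
        + (2:ℝ) ^ ((a + D + U + 3) + (j:ℤ) * D) := by
    rw [← Finset.sum_range_succ (fun i : ℕ => (2:ℝ) ^ ((a + D + U + 3) + (i:ℤ) * D)) j]
    refine Finset.sum_congr rfl fun i _ => ?_
    congr 1
    simp only [bd]; push_cast; ring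
  rw [hsum]
  have h2 := P.hD
  have hU := P.hU
  refine (add_le_add (sum_zpow_le _ (by omega) j) le_rfl).trans (le_of_eq ?_)
  rw [← two_mul, show (bd a D (j + 1) + U + 4 : ℤ) = a + D + U + 3 + (j:ℤ) * D + 1 by
      simp only [bd]; push_cast; ring,
    zpow_add_one₀ (by norm_num : (2:ℝ) ≠ 0), mul_comm]

/-- A margin of scales turns into a small factor. -/
lemma shrink {k l : ℤ} {τ : ℝ} (hkl : k + U ≤ l) (hτ : (2:ℝ) ^ l ≤ τ) :
    (2:ℝ) ^ k ≤ τ / (2:ℝ) ^ U := by
  rw [le_div_iff₀ (by positivity), ← two_zpow_add_nat]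
  exact (two_zpow_le hkl).trans hτ

lemma low_always {x y : Fin n} (hxy : x ≠ y) (h : ρ y ≤ ρ x) {i0 : ℕ}
    (h1 : (2:ℝ) ^ bd a D i0 ≤ t x y) (h2 : t x y < (2:ℝ) ^ bd a D (i0 + 1)) (hi0 : 2 ≤ i0)
    (hi0W : i0 + 1 < W) :
    ‖lowPart t ρ a D U S W G x - lowPart t ρ a D U S W G y‖ ≤ 1400 * t x y := by
  have hτ := P.met.nonneg x y
  have hD := P.hD
  have hU := P.hU
  rw [lowPart, lowPart, ← Finset.sum_sub_distrib]
  refine (norm_sum_le _ _).trans ((Finset.sum_le_sum (g := fun i =>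
    (2:ℝ) ^ (bd a D (i + 1) + U + 4) * (gam ρ a D U (i + 1) x - gam ρ a D U (i + 1) y) / 4
      + 84 * t x y * (54 * (hcap t a D m (i + 1) x - hcap t a D m i x) / (U:ℝ))
      + ((if i < i0 - 1 then (2:ℝ) ^ (bd a D (i + 1) + U + 3) else 0)
        + (if i ∈ Finset.Icc (i0 - 1) (i0 + 1) then 420 * t x y else 0))) fun i hi => ?_).trans ?_)
  · rw [Finset.mem_range] at hi
    have hA : 0 ≤ (2:ℝ) ^ (bd a D (i + 1) + U + 4)
        * (gam ρ a D U (i + 1) x - gam ρ a D U (i + 1) y) / 4 :=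
      div_nonneg (mul_nonneg (two_zpow_pos _).le (sub_nonneg.2 (gam_mono h _))) (by norm_num)
    have hB : 0 ≤ 84 * t x y * (54 * (hcap t a D m (i + 1) x - hcap t a D m i x) / (U:ℝ)) :=
      mul_nonneg (by positivity) (growth_nonneg P i x)
    by_cases hlow : i < i0 - 1
    · rw [if_pos hlow, if_neg (by simp; omega), add_zero]
      linarith [low_term_norm P hp hes hG hi x y]
    · rw [if_neg hlow, zero_add]
      refine (low_term P hp hes hG hi hxy h).trans ?_
      rw [mul_add]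
      by_cases htop : i ≤ i0 + 1
      · rw [if_pos (Finset.mem_Icc.2 ⟨by omega, htop⟩)]
        have : (if (2:ℝ) ^ bd a D i < 2 * t x y then (5:ℝ) else 0) ≤ 5 := by
          split_ifs <;> norm_num
        nlinarith
      · have hb : 2 * t x y ≤ (2:ℝ) ^ bd a D i := by
          refine le_trans ?_ (two_zpow_le (show bd a D (i0 + 1) + 1 ≤ bd a D i from ?_))
          · rw [zpow_add_one₀ (by norm_num : (2:ℝ) ≠ 0)]; linarith
          · have := bd_le (a := a) (D := D) (show i0 + 1 + 1 ≤ i by omega)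
            rw [bd_succ] at this
            omega
        rw [if_neg (not_lt.2 hb), if_neg (by simp; omega)]
        linarith
  rw [Finset.sum_add_distrib, Finset.sum_add_distrib, Finset.sum_add_distrib, ← Finset.sum_div,
    ← Finset.mul_sum, ← Finset.sum_filter, ← Finset.sum_filter]
  have e1 : (Finset.range W).filter (fun i => i < i0 - 1) = Finset.range (i0 - 1) := by
    ext i; simp; omega
  have e2 : (Finset.range W).filter (fun i => i ∈ Finset.Icc (i0 - 1) (i0 + 1))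
      = Finset.Icc (i0 - 1) (i0 + 1) := by
    ext i; simp; omega
  rw [e1, e2, Finset.sum_const, Nat.card_Icc, nsmul_eq_mul,
    show i0 + 1 + 1 - (i0 - 1) = 3 by omega]
  have s3 : ∑ i ∈ range (i0 - 1), (2:ℝ) ^ (bd a D (i + 1) + U + 3) ≤ t x y := by
    refine (sum_below P hp hes hG).trans (le_trans (two_zpow_le ?_) h1)
    have := bd_succ (a := a) (D := D) (i0 - 1)
    rw [Nat.sub_add_cancel (by omega)] at this
    omega
  push_cast
  nlinarith [sum_switch_succ P hp hes hG h, sum_growth P x,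
    mul_le_mul_of_nonneg_left ((sum_growth P x).trans P.η1) hτ, P.η1]

lemma F_ball {x : Fin n} {k : ℤ} (hk : ρ x / (2:ℝ) ^ B ≤ (2:ℝ) ^ k) :
    ∀ R : ℝ, (2:ℝ) ^ k ≤ R → ∀ z z', t x z ≤ R → t x z' ≤ R → ‖F z - F z'‖ ≤ 6 * C0 * R := by
  intro R hR z z' hz hz'
  refine (P.Fup z z').trans ?_
  rw [mul_comm 6 C0, mul_assoc]
  refine mul_le_mul_of_nonneg_left ?_ (le_trans zero_le_one P.C01)
  have hB1 : (1:ℝ) ≤ 2 ^ B := one_le_pow₀ (by norm_num)
  have e1 : (ρ z + ρ z') / (2:ℝ) ^ B ≤ 2 * (ρ x / (2:ℝ) ^ B) + 2 * R := by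
    rw [div_le_iff₀ (by positivity), add_mul, mul_assoc 2 (ρ x / _),
      div_mul_cancel₀ _ (by positivity)]
    nlinarith [P.lip z x, P.lip z' x, P.met.symm z x, P.met.symm z' x, two_zpow_pos k]
  linarith [P.met.tri z x z', P.met.symm z x, two_zpow_pos k]

lemma coef_bounds {i : ℕ} {z : Fin n}
    (h : gam ρ a D U i z - gam ρ a D U (i + 1) z ≠ 0) :
    (2:ℝ) ^ (bd a D i + U + 4) < ρ z ∧ ρ z < (2:ℝ) ^ (bd a D i + D + U + 5) := by
  have hc := lt_of_le_of_ne (coef_nonneg P i z) h.symm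
  have h1 := (gam_mem (ρ := ρ) (a := a) (D := D) (U := U) i z).2
  have h0 := (gam_mem (ρ := ρ) (a := a) (D := D) (U := U) (i + 1) z).1
  refine ⟨lt_of_gam_pos (by linarith), ?_⟩
  rw [show bd a D i + D + U + 5 = bd a D (i + 1) + U + 5 by rw [bd_succ]]
  exact lt_of_gam_lt_one (by linarith)

lemma top_sub (z : Fin n) :
    topPart t ρ a D U S W F z - F z = ∑ i ∈ range W,
      (gam ρ a D U i z - gam ρ a D U (i + 1) z) • (bandAvg t S U (bd a D i) F z - F z) := by
  simp only [topPart, smul_sub, Finset.sum_sub_distrib, ← Finset.sum_smul, sum_coef P z, one_smul]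

lemma top_near_F (z : Fin n) {δ : ℝ}
    (hδ : ∀ i < W, gam ρ a D U i z - gam ρ a D U (i + 1) z ≠ 0 →
      ‖bandAvg t S U (bd a D i) F z - F z‖ ≤ δ) :
    ‖topPart t ρ a D U S W F z - F z‖ ≤ δ := by
  rw [top_sub P hp hes hG]
  refine (norm_sum_le _ _).trans ((Finset.sum_le_sum (g := fun i =>
    (gam ρ a D U i z - gam ρ a D U (i + 1) z) * δ) fun i hi => ?_).trans (le_of_eq ?_))
  · rw [norm_smul, Real.norm_eq_abs, abs_of_nonneg (coef_nonneg P i z)]
    by_cases h : gam ρ a D U i z - gam ρ a D U (i + 1) z = 0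
    · simp [h]
    · exact mul_le_mul_of_nonneg_left (hδ i (Finset.mem_range.1 hi) h) (coef_nonneg P i z)
  · rw [← Finset.sum_mul, sum_coef P z, one_mul]

lemma top_always {x y : Fin n} (hxy : x ≠ y) (h : ρ y ≤ ρ x) :
    ‖topPart t ρ a D U S W F x - topPart t ρ a D U S W F y‖ ≤ 40 * C0 * t x y := by
  have hτ := P.met.nonneg x y
  have hC0 : 0 ≤ C0 := le_trans zero_le_one P.C01
  have hU0 : 0 < U := by linarith [P.hU]
  have hB1 : (1:ℝ) ≤ 2 ^ B := one_le_pow₀ (by norm_num)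
  by_cases hc : ρ x ≤ 2 * ρ y
  · set c : ℕ → Fin n → ℝ := fun i z => gam ρ a D U i z - gam ρ a D U (i + 1) z with hcdef
    have he : topPart t ρ a D U S W F x - topPart t ρ a D U S W F y = ∑ i ∈ range W,
        ((c i x - c i y) • (bandAvg t S U (bd a D i) F x - F x)
          + c i y • (bandAvg t S U (bd a D i) F x - bandAvg t S U (bd a D i) F y)) := by
      rw [topPart, topPart, ← Finset.sum_sub_distrib, ← sub_eq_zero, ← Finset.sum_sub_distrib,
        Finset.sum_congr rfl (g := fun i => (c i x - c i y) • F x) (fun i _ => by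
          simp only [hcdef, sub_smul, smul_sub]; abel),
        ← Finset.sum_smul, Finset.sum_sub_distrib]
      simp only [hcdef, sum_coef P, sub_self, zero_smul]
    have hrel : ∀ i, (c i x ≠ 0 ∨ c i y ≠ 0) →
        (2:ℝ) ^ (bd a D i + U + 1) < ρ x ∧ ρ x / (2:ℝ) ^ B ≤ (2:ℝ) ^ bd a D i := by
      intro i hi
      have hB := P.hB
      have key : (2:ℝ) ^ (bd a D i + U + 4) < ρ x ∧ ρ x ≤ (2:ℝ) ^ (bd a D i + D + U + 6) := by
        rcases hi with hi | hi
        · obtain ⟨e1, e2⟩ := coef_bounds P hp hes hG hi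
          exact ⟨e1, e2.le.trans (two_zpow_le (by omega))⟩
        · obtain ⟨e1, e2⟩ := coef_bounds P hp hes hG hi
          refine ⟨e1.trans_le h, ?_⟩
          rw [show bd a D i + D + U + 6 = bd a D i + D + U + 5 + 1 by ring,
            zpow_add_one₀ (by norm_num : (2:ℝ) ≠ 0)]
          linarith
      refine ⟨lt_of_le_of_lt (two_zpow_le (by omega)) key.1, ?_⟩
      rw [div_le_iff₀ (by positivity), ← two_zpow_add_nat]
      exact key.2.trans (two_zpow_le (by omega))
    rw [he]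
    refine (norm_sum_le _ _).trans ((Finset.sum_le_sum (g := fun i =>
      3 * C0 / 8 * ((2:ℝ) ^ (bd a D i + U + 4) * (gam ρ a D U i x - gam ρ a D U i y)
        + (2:ℝ) ^ (bd a D (i + 1) + U + 4) * (gam ρ a D U (i + 1) x - gam ρ a D U (i + 1) y))
      + 6 * C0 * t x y * (54 * (hcap t a D m (i + 1) x - hcap t a D m i x) / (U:ℝ) + 5 * c i y))
      fun i hi => ?_).trans ?_)
    · rw [Finset.mem_range] at hi
      have hdx := sub_nonneg.2 (gam_mono (a := a) (D := D) (U := U) h i)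
      have hdx' := sub_nonneg.2 (gam_mono (a := a) (D := D) (U := U) h (i + 1))
      refine (norm_add_le _ _).trans (add_le_add ?_ ?_)
      · have hrhs : 0 ≤ 3 * C0 / 8 * ((2:ℝ) ^ (bd a D i + U + 4) * (gam ρ a D U i x - gam ρ a D U i y)
            + (2:ℝ) ^ (bd a D (i + 1) + U + 4)
              * (gam ρ a D U (i + 1) x - gam ρ a D U (i + 1) y)) := by
          have := two_zpow_pos (bd a D i + U + 4)
          have := two_zpow_pos (bd a D (i + 1) + U + 4)
          positivity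
        rw [norm_smul, Real.norm_eq_abs]
        by_cases hi' : c i x ≠ 0 ∨ c i y ≠ 0
        · have habs : |c i x - c i y| ≤ (gam ρ a D U i x - gam ρ a D U i y)
              + (gam ρ a D U (i + 1) x - gam ρ a D U (i + 1) y) := by
            simp only [hcdef]
            rw [abs_le]
            constructor <;> linarith
          have hnear : ‖bandAvg t S U (bd a D i) F x - F x‖ ≤ 6 * C0 * (2:ℝ) ^ (bd a D i + U) :=
            bandAvg_near P.met P.hS hU0 _ F x _ fun z hz =>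
              F_ball P hp hes hG (hrel i hi').2 _ (two_zpow_le (by omega)) z x hz
                (by rw [P.met.self]; exact (two_zpow_pos _).le)
          refine (mul_le_mul habs hnear (norm_nonneg _) (add_nonneg hdx hdx')).trans ?_
          rw [two_zpow_add_four (bd a D i + U), two_zpow_add_four (bd a D (i + 1) + U)]
          have hle : (2:ℝ) ^ (bd a D i + U) ≤ (2:ℝ) ^ (bd a D (i + 1) + U) :=
            two_zpow_le (by linarith [bd_le (a := a) (D := D) (Nat.le_succ i)])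
          nlinarith [mul_le_mul_of_nonneg_left hle (mul_nonneg hC0 hdx')]
        · push Not at hi'
          simpa [hi'.1, hi'.2] using hrhs
      · have hcy := coef_nonneg P i y
        have hH := growth_nonneg P i x
        rw [norm_smul, Real.norm_eq_abs, abs_of_nonneg hcy]
        rcases eq_or_lt_of_le hcy with h0 | h0
        · simp only [hcdef, ← h0, zero_mul]; positivity
        have hc1 : c i y ≤ 1 := by
          have := gam_mem (ρ := ρ) (a := a) (D := D) (U := U) i y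
          have := gam_mem (ρ := ρ) (a := a) (D := D) (U := U) (i + 1) y
          simp only [hcdef]; linarith
        obtain ⟨hb, hk⟩ := hrel i (Or.inr h0.ne')
        refine le_trans (mul_le_mul_of_nonneg_left (band_diff P hi.le F hxy (by positivity) hb
          (F_ball P hp hes hG hk)) hcy) ?_
        have hind : (if (2:ℝ) ^ bd a D i < 2 * t x y then (5:ℝ) else 0) ≤ 5 := by
          split_ifs <;> norm_num
        calc c i y * (6 * C0 * t x y * (54 * (hcap t a D m (i + 1) x - hcap t a D m i x) / (U:ℝ)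
              + if (2:ℝ) ^ bd a D i < 2 * t x y then 5 else 0))
            = 6 * C0 * t x y * (c i y * (54 * (hcap t a D m (i + 1) x - hcap t a D m i x) / (U:ℝ))
              + c i y * if (2:ℝ) ^ bd a D i < 2 * t x y then 5 else 0) := by ring
          _ ≤ _ := by
            refine mul_le_mul_of_nonneg_left (add_le_add (mul_le_of_le_one_left hH hc1) ?_)
              (by positivity)
            rw [mul_comm (5:ℝ)]
            exact mul_le_mul_of_nonneg_left hind hcy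
    rw [Finset.sum_add_distrib, ← Finset.mul_sum, ← Finset.mul_sum, Finset.sum_add_distrib,
      Finset.sum_add_distrib, ← Finset.mul_sum, sum_coef P y]
    have s0 := sum_switch P hp hes hG h
    rw [Finset.sum_range_succ] at s0
    have s0' : 0 ≤ (2:ℝ) ^ (bd a D W + U + 4) * (gam ρ a D U W x - gam ρ a D U W y) :=
      mul_nonneg (two_zpow_pos _).le (sub_nonneg.2 (gam_mono h _))
    nlinarith [mul_le_mul_of_nonneg_left (add_le_add (le_trans (le_add_of_nonneg_right s0') s0)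
      (sum_switch_succ P hp hes hG h)) hC0, mul_le_mul_of_nonneg_left ((sum_growth P x).trans P.η1)
      (mul_nonneg hC0 hτ), mul_nonneg hC0 hτ]
  · push Not at hc
    have hy := P.pos y
    have hdiff := P.lip x y
    have hz : ∀ z, ‖topPart t ρ a D U S W F z - F z‖ ≤ 4 * C0 * ρ z := fun z => by
      refine top_near_F P hp hes hG z fun i _ hi => ?_
      obtain ⟨hlt, -⟩ := coef_bounds P hp hes hG hi
      refine bandAvg_near P.met P.hS hU0 _ F z _ fun z' hz' => (P.Fup z' z).trans ?_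
      rw [mul_comm 4 C0, mul_assoc]
      refine mul_le_mul_of_nonneg_left ?_ hC0
      have e0 : (2:ℝ) ^ (bd a D i + U) ≤ (2:ℝ) ^ (bd a D i + U + 4) := two_zpow_le (by omega)
      have e1 : (ρ z' + ρ z) / (2:ℝ) ^ B ≤ ρ z' + ρ z :=
        div_le_self (by linarith [P.pos z', P.pos z]) hB1
      linarith [P.lip z' z, P.met.symm z' z]
    have hF : ‖F x - F y‖ ≤ C0 * (6 * t x y) := by
      refine (P.Fup x y).trans (mul_le_mul_of_nonneg_left ?_ hC0)
      have e1 : (ρ x + ρ y) / (2:ℝ) ^ B ≤ ρ x + ρ y :=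
        div_le_self (by linarith [P.pos x]) hB1
      linarith
    have e1 := norm_sub_le_norm_sub_add_norm_sub (topPart t ρ a D U S W F x) (F x)
      (topPart t ρ a D U S W F y)
    have e2 := norm_sub_le_norm_sub_add_norm_sub (F x) (F y) (topPart t ρ a D U S W F y)
    rw [norm_sub_rev (F y) (topPart t ρ a D U S W F y)] at e2
    have m1 : C0 * ρ x ≤ C0 * (2 * t x y) := mul_le_mul_of_nonneg_left (by linarith) hC0
    have m2 : C0 * ρ y ≤ C0 * t x y := mul_le_mul_of_nonneg_left (by linarith) hC0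
    linarith [hz x, hz y, mul_nonneg hC0 hτ]

/-- The bound valid in every phase. -/
lemma phase_always {x y : Fin n} (hxy : x ≠ y) {i0 : ℕ}
    (h1 : (2:ℝ) ^ bd a D i0 ≤ t x y) (h2 : t x y < (2:ℝ) ^ bd a D (i0 + 1)) (hi0 : 2 ≤ i0)
    (hi0W : i0 + 1 < W) :
    ‖lowPart t ρ a D U S W G x - lowPart t ρ a D U S W G y‖
      + ‖topPart t ρ a D U S W F x - topPart t ρ a D U S W F y‖ ≤ 1440 * C0 * t x y := by
  wlog h : ρ y ≤ ρ x generalizing x y
  · have := this hxy.symm (by rwa [P.met.symm]) (by rwa [P.met.symm]) (le_of_not_ge h)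
    rwa [norm_sub_rev (lowPart t ρ a D U S W G y), norm_sub_rev (topPart t ρ a D U S W F y),
      P.met.symm y x] at this
  nlinarith [low_always P hp hes hG hxy h h1 h2 hi0 hi0W, top_always P hp hes hG hxy h,
    mul_le_mul_of_nonneg_right P.C01 (P.met.nonneg x y)]

/-- The bounds valid in a phase that keeps away from `t x y`, `ρ x` and `ρ y`. -/
lemma phase_good {x y : Fin n} (hxy : x ≠ y) {i0 : ℕ}
    (hsk : ∀ g y τ : ℝ, 0 ≤ g → 0 ≤ y → 0 ≤ τ → y ≤ 2 * τ →
      |g ^ p - y ^ p| ≤ es * (τ ^ p + y ^ p) → |g - y| ≤ ε / 8 * τ)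
    (h1 : (2:ℝ) ^ bd a D i0 ≤ t x y) (h2 : t x y < (2:ℝ) ^ bd a D (i0 + 1))
    (hi0W : i0 + 1 < W) (gt : Away a D U W (t x y)) (gx : Away a D U W (ρ x))
    (gy : Away a D U W (ρ y)) :
    ((1 - ε / 2) * t x y ≤ ‖lowPart t ρ a D U S W G x - lowPart t ρ a D U S W G y‖
      ∨ (1 - ε / 2) * t x y ≤ ‖topPart t ρ a D U S W F x - topPart t ρ a D U S W F y‖) ∧
    ‖lowPart t ρ a D U S W G x - lowPart t ρ a D U S W G y‖
      + ‖topPart t ρ a D U S W F x - topPart t ρ a D U S W F y‖ ≤ (1 + ε / 2) * t x y := by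
  wlog h : ρ y ≤ ρ x generalizing x y
  · have := this hxy.symm (by rwa [P.met.symm]) (by rwa [P.met.symm]) (by rwa [P.met.symm]) gy gx
      (le_of_not_ge h)
    rwa [norm_sub_rev (lowPart t ρ a D U S W G y), norm_sub_rev (topPart t ρ a D U S W F y),
      P.met.symm y x] at this
  have hτ := P.met.nonneg x y
  have hC0 : 0 ≤ C0 := le_trans zero_le_one P.C01
  have hU := P.hU
  have hD := P.hD
  have hB := P.hB
  have hU0 : 0 < U := by omega
  have hUR : (1:ℝ) ≤ 2 ^ U := one_le_pow₀ (by norm_num)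
  have t1 : (2:ℝ) ^ (bd a D i0 + 4 * U) ≤ t x y := by
    rcases gt i0 (by omega) with e | e
    · exact e
    · exact absurd (h1.trans_lt e) (not_lt.2 (two_zpow_le (by omega)))
  have t2 : t x y < (2:ℝ) ^ (bd a D (i0 + 1) - 4 * U) := by
    rcases gt (i0 + 1) (by omega) with e | e
    · exact absurd ((two_zpow_le (by omega)).trans e) (not_le.2 h2)
    · exact e
  have hsm := P.small
  have hsm' := eps_small P
  have hdiv : 0 ≤ C0 / (2:ℝ) ^ U := div_nonneg hC0 (by positivity)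
  have hsl : ∀ r : ℝ, r ≤ t x y / (2:ℝ) ^ U → C0 * r ≤ C0 / (2:ℝ) ^ U * t x y := fun r hr =>
    (mul_le_mul_of_nonneg_left hr hC0).trans (le_of_eq (by ring))
  have hbelow : ∀ z : Fin n, ∑ i ∈ range i0, (2:ℝ) ^ (bd a D (i + 1) + U + 3)
      ≤ t x y / (2:ℝ) ^ U := fun _ =>
    (sum_below P hp hes hG).trans (shrink P hp hes hG (by omega) t1)
  rcases gx (i0 + 1) (by omega) with hA | hBc
  · -- both points are far above the distance
    have hsum : t x y ≤ ρ x / 4 := by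
      rw [le_div_iff₀ (by norm_num : (0:ℝ) < 4)]
      refine le_trans ?_ hA
      refine le_trans (mul_le_mul_of_nonneg_right t2.le (by norm_num)) ?_
      rw [show (4:ℝ) = (2:ℝ) ^ (2:ℤ) by norm_num, ← zpow_add₀ (by norm_num : (2:ℝ) ≠ 0)]
      exact two_zpow_le (by omega)
    have hy2 : ρ x ≤ 2 * ρ y := by linarith [P.lip x y]
    have heq : ∀ i ≤ W, gam ρ a D U i x = gam ρ a D U i y := by
      intro i hi
      rcases gy i hi with e | e
      · have e' : (2:ℝ) ^ (bd a D i + U + 5) ≤ ρ y := (two_zpow_le (by omega)).trans e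
        rw [gam_one_of_le e', gam_one_of_le (e'.trans h)]
      · have e' : ρ x ≤ (2:ℝ) ^ (bd a D i + U + 4) := by
          refine hy2.trans (le_trans (mul_le_mul_of_nonneg_left e.le (by norm_num)) ?_)
          rw [mul_comm, ← zpow_add_one₀ (by norm_num : (2:ℝ) ≠ 0)]
          exact two_zpow_le (by omega)
        simp [gam, ramp_eq_zero (two_zpow_pos _) e', ramp_eq_zero (two_zpow_pos _) (h.trans e')]
    have hone : ∀ i ≤ i0 + 1, gam ρ a D U i x = 1 := fun i hi =>
      gam_one_of_le ((two_zpow_le (by linarith [bd_le (a := a) (D := D) hi])).trans hA)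
    have hbig : ∀ i, i0 < i → 2 * t x y ≤ (2:ℝ) ^ bd a D i := by
      intro i hi
      refine le_trans (mul_le_mul_of_nonneg_left t2.le (by norm_num)) ?_
      rw [mul_comm, ← zpow_add_one₀ (by norm_num : (2:ℝ) ≠ 0)]
      exact two_zpow_le (by linarith [bd_le (a := a) (D := D) (show i0 + 1 ≤ i by omega),
        (show (6:ℤ) ≤ U by exact_mod_cast hU)])
    set q := ‖G i0 x - G i0 y‖
    set w := ‖remX t ρ a D U S i0 X x - remX t ρ a D U S i0 X y‖ with hw
    have hwt : |w - t x y| ≤ 2 * η * t x y := by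
      rw [hw, remX, remX, ← heq _ (by omega), hone _ le_rfl, one_smul, one_smul, ← P.dist x y]
      refine (abs_norm_sub_norm_le _ _).trans ?_
      rw [show X x - bandAvg t S U (bd a D (i0 + 1)) X x
          - (X y - bandAvg t S U (bd a D (i0 + 1)) X y) - (X x - X y)
          = -(bandAvg t S U (bd a D (i0 + 1)) X x - bandAvg t S U (bd a D (i0 + 1)) X y) by abel,
        norm_neg]
      refine (band_diff P (by omega) X hxy (by norm_num : (0:ℝ) ≤ 2)
        (lt_of_lt_of_le (zpow_lt_zpow_right₀ (by norm_num) (by omega)) hA) (X_ball P x _)).trans ?_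
      rw [if_neg (not_lt.2 (hbig _ (by omega))), add_zero, P.dist]
      have := Finset.single_le_sum (fun i _ => growth_nonneg P i x)
        (Finset.mem_range.2 (show i0 + 1 < W from hi0W))
      nlinarith [sum_growth P x]
    have hw2 : w ≤ 2 * t x y := by
      nlinarith [(abs_le.1 hwt).2, P.ε1, mul_le_mul_of_nonneg_right P.C01 P.η0.le,
        div_nonneg (mul_nonneg (by norm_num : (0:ℝ) ≤ 200) hC0) (pow_nonneg zero_le_two U)]
    have hq : |q - w| ≤ ε / 8 * t x y := by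
      refine hsk q w _ (norm_nonneg _) (norm_nonneg _) hτ hw2
        (le_trans ((hG i0 (by omega)).1 x y) ?_)
      rcases le_total 0 es with h0 | h0
      · exact mul_le_mul_of_nonneg_left (add_le_add (Real.rpow_le_rpow (two_zpow_pos _).le h1
          (by linarith)) le_rfl) h0
      · have hpos := Real.rpow_pos_of_pos (two_zpow_pos (bd a D i0)) p
        have habs := (abs_nonneg _).trans ((hG i0 (by omega)).1 x y)
        have hw0 := Real.rpow_nonneg (norm_nonneg
          (remX t ρ a D U S i0 X x - remX t ρ a D U S i0 X y)) p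
        have : es = 0 := le_antisymm h0 (nonneg_of_mul_nonneg_left habs (by linarith))
        simp [this]
    have hnearG : ∀ z, ‖bandAvg t S U (bd a D i0) (G i0) z - G i0 z‖
        ≤ 56 * (t x y / (2:ℝ) ^ U) := fun z => by
      refine (bandAvg_near P.met P.hS hU0 _ _ z _ (δ := 56 * (2:ℝ) ^ (bd a D i0 + U))
        fun z' hz' => ?_).trans (mul_le_mul_of_nonneg_left (shrink P hp hes hG (by omega) t1)
          (by norm_num))
      refine (G_diff P hp hes hG (by omega) z' z).trans ?_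
      rw [P.met.symm z' z]
      linarith [two_zpow_le (show bd a D i0 ≤ bd a D i0 + U by omega)]
    have hlow : |‖lowPart t ρ a D U S W G x - lowPart t ρ a D U S W G y‖ - q|
        ≤ t x y / (2:ℝ) ^ U + 84 * η * t x y + 112 * (t x y / (2:ℝ) ^ U) := by
      refine (abs_norm_sub_norm_le _ _).trans ?_
      rw [lowPart, lowPart, ← Finset.sum_sub_distrib,
        ← Finset.add_sum_erase _ _ (Finset.mem_range.2 (show i0 < W by omega)),
        ← heq (i0 + 1) (by omega), hone _ le_rfl, one_smul, one_smul]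
      rw [add_sub_right_comm, add_comm]
      refine (norm_add_le _ _).trans (add_le_add ?_ ?_)
      · refine (norm_sum_le _ _).trans ((Finset.sum_le_sum (g := fun i =>
          (if i < i0 then (2:ℝ) ^ (bd a D (i + 1) + U + 3) else 0)
          + 84 * t x y * (54 * (hcap t a D m (i + 1) x - hcap t a D m i x) / (U:ℝ)))
          fun i hi => ?_).trans ?_)
        · obtain ⟨hne, hi⟩ := Finset.mem_erase.1 hi
          rw [Finset.mem_range] at hi
          have hB' := mul_nonneg (by positivity : (0:ℝ) ≤ 84 * t x y) (growth_nonneg P i x)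
          by_cases hlt : i < i0
          · rw [if_pos hlt]
            linarith [low_term_norm P hp hes hG hi x y]
          · refine (low_term P hp hes hG hi hxy h).trans ?_
            rw [if_neg hlt, if_neg (not_lt.2 (hbig i (by omega))), heq _ (by omega)]
            simp
        · refine le_trans (Finset.sum_le_sum_of_subset_of_nonneg (Finset.erase_subset _ _)
            fun i _ _ => add_nonneg (by split_ifs <;> positivity)
              (mul_nonneg (by positivity) (growth_nonneg P i x))) ?_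
          rw [Finset.sum_add_distrib, ← Finset.sum_filter, ← Finset.mul_sum]
          refine add_le_add (le_trans (le_of_eq ?_) (hbelow x)) ?_
          · congr 1; ext i; simp; omega
          · nlinarith [sum_growth P x]
      · rw [show bandAvg t S U (bd a D i0) (G i0) x - bandAvg t S U (bd a D i0) (G i0) y
            - (G i0 x - G i0 y)
            = (bandAvg t S U (bd a D i0) (G i0) x - G i0 x)
              - (bandAvg t S U (bd a D i0) (G i0) y - G i0 y) by abel]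
        linarith [norm_sub_le (bandAvg t S U (bd a D i0) (G i0) x - G i0 x)
          (bandAvg t S U (bd a D i0) (G i0) y - G i0 y), hnearG x, hnearG y]
    have htop : ‖topPart t ρ a D U S W F x - topPart t ρ a D U S W F y‖ ≤ 6 * C0 * η * t x y := by
      rw [topPart, topPart, ← Finset.sum_sub_distrib]
      refine (norm_sum_le _ _).trans ((Finset.sum_le_sum (g := fun i =>
        6 * C0 * t x y * (54 * (hcap t a D m (i + 1) x - hcap t a D m i x) / (U:ℝ)))
        fun i hi => ?_).trans ?_)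
      · rw [Finset.mem_range] at hi
        rw [← heq i hi.le, ← heq (i + 1) (by omega), ← smul_sub, norm_smul, Real.norm_eq_abs,
          abs_of_nonneg (coef_nonneg P i x)]
        have hnn := mul_nonneg (by positivity : (0:ℝ) ≤ 6 * C0 * t x y) (growth_nonneg P i x)
        rcases eq_or_ne (gam ρ a D U i x - gam ρ a D U (i + 1) x) 0 with h0 | h0
        · simpa [h0] using hnn
        have hi0' : i0 < i := by
          by_contra hle
          exact h0 (by rw [hone i (by omega), hone (i + 1) (by omega), sub_self])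
        obtain ⟨e1, e2⟩ := coef_bounds P hp hes hG h0
        have hc1 : gam ρ a D U i x - gam ρ a D U (i + 1) x ≤ 1 := by
          linarith [(gam_mem (ρ := ρ) (a := a) (D := D) (U := U) i x).2,
            (gam_mem (ρ := ρ) (a := a) (D := D) (U := U) (i + 1) x).1]
        refine le_trans (mul_le_of_le_one_left (norm_nonneg _) hc1) ?_
        refine (band_diff P hi.le F hxy (by positivity)
          (lt_of_le_of_lt (two_zpow_le (by omega)) e1) (F_ball P hp hes hG ?_)).trans ?_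
        · rw [div_le_iff₀ (by positivity), ← two_zpow_add_nat]
          exact e2.le.trans (two_zpow_le (by omega))
        · rw [if_neg (not_lt.2 (hbig i hi0')), add_zero]
      · rw [← Finset.mul_sum]
        nlinarith [mul_le_mul_of_nonneg_left (sum_growth P x) (mul_nonneg hC0 hτ)]
    have e := abs_le.1 hlow
    have e' := abs_le.1 hq
    have e'' := abs_le.1 hwt
    have hfin : 113 * (t x y / (2:ℝ) ^ U) + (84 * η + 6 * C0 * η + 2 * η) * t x y
        ≤ ε / 8 * t x y := by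
      refine le_trans ?_ (mul_le_mul_of_nonneg_right hsm' hτ)
      have e3 := hsl _ (le_refl (t x y / (2:ℝ) ^ U))
      have e4 : t x y / (2:ℝ) ^ U ≤ C0 * (t x y / (2:ℝ) ^ U) :=
        le_mul_of_one_le_left (by positivity) P.C01
      rw [show (84 * η + 6 * C0 * η + 200 * C0 / (2:ℝ) ^ U + 2 * η) * t x y
          = (84 * η + 6 * C0 * η + 2 * η) * t x y + 200 * (C0 / (2:ℝ) ^ U * t x y) by ring]
      nlinarith [mul_nonneg hdiv hτ]
    refine ⟨Or.inl ?_, ?_⟩
    · nlinarith [mul_nonneg (mul_nonneg hC0 P.η0.le) hτ, norm_nonneg (topPart t ρ a D U S W F x - topPart t ρ a D U S W F y)]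
    · nlinarith
  · -- both points are below the next window
    have hz0 : ∀ i, i0 < i → ∀ z, ρ z ≤ ρ x → gam ρ a D U i z = 0 := fun i hi z hz =>
      ramp_eq_zero (two_zpow_pos _) (hz.trans (hBc.le.trans (two_zpow_le
        (by linarith [bd_le (a := a) (D := D) (show i0 + 1 ≤ i by omega),
          (show (6:ℤ) ≤ U by exact_mod_cast hU)]))))
    have hlow : ‖lowPart t ρ a D U S W G x - lowPart t ρ a D U S W G y‖
        ≤ t x y / (2:ℝ) ^ U := by
      rw [lowPart, lowPart, ← Finset.sum_sub_distrib]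
      refine (norm_sum_le _ _).trans ((Finset.sum_le_sum (g := fun i =>
        if i < i0 then (2:ℝ) ^ (bd a D (i + 1) + U + 3) else 0) fun i hi => ?_).trans ?_)
      · by_cases hlt : i < i0
        · rw [if_pos hlt]; exact low_term_norm P hp hes hG (Finset.mem_range.1 hi) x y
        · simp [if_neg hlt, hz0 (i + 1) (by omega) x le_rfl, hz0 (i + 1) (by omega) y h]
      · rw [← Finset.sum_filter]
        refine le_trans (le_of_eq ?_) (hbelow x)
        congr 1; ext i; simp; omega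
    have hz : ∀ z, ρ z ≤ ρ x →
        ‖topPart t ρ a D U S W F z - F z‖ ≤ 6 * (C0 / (2:ℝ) ^ U * t x y) := fun z hz => by
      refine top_near_F P hp hes hG z fun i _ hi => ?_
      have hile : i ≤ i0 := by
        by_contra hlt
        exact hi (by rw [hz0 i (by omega) z hz, hz0 (i + 1) (by omega) z hz, sub_self])
      refine (bandAvg_near P.met P.hS hU0 _ F z _
        (δ := 6 * C0 * (2:ℝ) ^ (bd a D i0 + U)) fun z' hz' => ?_).trans ?_
      · have hb := bd_le (a := a) (D := D) hile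
        refine F_ball P hp hes hG (x := z) (k := bd a D i0) ?_ _ (two_zpow_le (by omega)) z' z
          (hz'.trans (two_zpow_le (by omega))) (by rw [P.met.self]; exact (two_zpow_pos _).le)
        rw [div_le_iff₀ (by positivity), ← two_zpow_add_nat]
        refine hz.trans (hBc.le.trans (two_zpow_le ?_))
        rw [bd_succ]; omega
      · rw [mul_assoc]
        exact mul_le_mul_of_nonneg_left (hsl _ (shrink P hp hes hG (by omega) t1)) (by norm_num)
    have hFa := P.Facc x y (by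
      refine le_trans ?_ t1
      rw [div_le_iff₀ (by positivity)]
      refine le_trans (mul_le_mul_of_nonneg_left (show ρ x + ρ y ≤ 2 * (2:ℝ) ^ (bd a D (i0 + 1) - 4 * U)
        by linarith) P.K01) ?_
      rw [← mul_assoc, mul_comm K0 2]
      refine le_trans (mul_le_mul_of_nonneg_right P.hK (two_zpow_pos _).le) ?_
      rw [← two_zpow_add_nat, mul_comm, ← two_zpow_add_nat]
      refine two_zpow_le ?_
      rw [bd_succ]; omega)
    have a1 := norm_sub_le_norm_sub_add_norm_sub (F x) (topPart t ρ a D U S W F x) (F y)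
    have a2 := norm_sub_le_norm_sub_add_norm_sub (topPart t ρ a D U S W F x)
      (topPart t ρ a D U S W F y) (F y)
    have b1 := norm_sub_le_norm_sub_add_norm_sub (topPart t ρ a D U S W F x) (F x)
      (topPart t ρ a D U S W F y)
    have b2 := norm_sub_le_norm_sub_add_norm_sub (F x) (F y) (topPart t ρ a D U S W F y)
    rw [norm_sub_rev (F x) (topPart t ρ a D U S W F x)] at a1
    rw [norm_sub_rev (F y) (topPart t ρ a D U S W F y)] at b2
    have e4 : t x y / (2:ℝ) ^ U ≤ C0 / (2:ℝ) ^ U * t x y :=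
      le_trans (le_mul_of_one_le_left (by positivity) P.C01) (hsl _ le_rfl)
    have hfin : 200 * (C0 / (2:ℝ) ^ U * t x y) ≤ ε / 8 * t x y := by
      rw [← mul_assoc]
      refine mul_le_mul_of_nonneg_right ?_ hτ
      rw [mul_div_assoc] at hsm
      linarith only [hsm, mul_nonneg hC0 P.η0.le]
    have hq0 := mul_nonneg hdiv hτ
    obtain ⟨hFl, hFu⟩ := hFa
    have hzx := hz x le_rfl
    have hzy := hz y h
    refine ⟨Or.inr ?_, ?_⟩
    · linarith only [hFl, a1, a2, hzx, hzy, hfin, hq0]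
    · linarith only [hFu, b1, b2, hzx, hzy, hfin, hq0, hlow, e4]

end Phase

section Assembly

lemma two_pow_le_exp (k : ℕ) : (2:ℝ) ^ k ≤ Real.exp k := by
  rw [← Real.exp_one_pow]
  exact pow_le_pow_left₀ (by norm_num) (by linarith [Real.add_one_le_exp (1:ℝ)]) k

lemma nat_le_two_pow (k : ℕ) : (k:ℝ) ≤ (2:ℝ) ^ k := by
  exact_mod_cast (Nat.lt_two_pow_self (n := k)).le

/-- A small error of the `p`-th powers gives a small error of the norms. -/
lemma sketch_scale {p ε : ℝ} (hp : 1 ≤ p) (hε : 0 ≤ ε) {g y τ : ℝ} (hg : 0 ≤ g) (hy : 0 ≤ y)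
    (hτ : 0 ≤ τ) (hyτ : y ≤ 2 * τ)
    (h : |g ^ p - y ^ p| ≤ (ε / 8) ^ p / (3 * 2 ^ p) * (τ ^ p + y ^ p)) :
    |g - y| ≤ ε / 8 * τ := by
  have hp0 : 0 < p := by linarith
  have key : |g - y| ^ p ≤ |g ^ p - y ^ p| := by
    rcases le_total y g with hle | hle
    · have := Real.add_rpow_le_rpow_add (sub_nonneg.2 hle) hy hp
      rw [sub_add_cancel] at this
      rw [abs_of_nonneg (sub_nonneg.2 hle)]
      linarith [le_abs_self (g ^ p - y ^ p)]
    · have := Real.add_rpow_le_rpow_add (sub_nonneg.2 hle) hg hp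
      rw [sub_add_cancel] at this
      rw [abs_of_nonpos (sub_nonpos.2 hle), neg_sub]
      linarith [neg_abs_le (g ^ p - y ^ p)]
  have h2 : (0:ℝ) < 2 ^ p := Real.rpow_pos_of_pos (by norm_num) _
  have h2' : (1:ℝ) ≤ 2 ^ p := Real.one_le_rpow (by norm_num) hp0.le
  have hy' : y ^ p ≤ 2 ^ p * τ ^ p := by
    rw [← Real.mul_rpow (by norm_num) hτ]; exact Real.rpow_le_rpow hy hyτ hp0.le
  have hd0 : 0 ≤ (ε / 8) ^ p := Real.rpow_nonneg (by positivity) _
  have hτp := Real.rpow_nonneg hτ p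
  refine (Real.rpow_le_rpow_iff (abs_nonneg _) (by positivity) hp0).1 ((key.trans h).trans ?_)
  rw [Real.mul_rpow (by positivity) hτ, div_mul_eq_mul_div, div_le_iff₀ (by positivity), mul_assoc]
  refine mul_le_mul_of_nonneg_left ?_ hd0
  nlinarith [mul_le_mul_of_nonneg_right h2' hτp]

/-- The window of height `U` containing `z`. -/
noncomputable def jl (U : ℕ) (z : ℝ) : ℤ := Int.log (2 ^ U) z

lemma jl_spec {U : ℕ} (hU : 0 < U) {z : ℝ} (hz : 0 < z) :
    (2:ℝ) ^ (jl U z * U) ≤ z ∧ z < (2:ℝ) ^ ((jl U z + 1) * U) := by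
  have hb : 1 < 2 ^ U := Nat.one_lt_two_pow hU.ne'
  have he : ∀ j : ℤ, ((2 ^ U : ℕ) : ℝ) ^ j = (2:ℝ) ^ (j * U) := fun j => by
    rw [mul_comm, zpow_mul, zpow_natCast, Nat.cast_pow]; norm_num
  exact ⟨he (jl U z) ▸ Int.zpow_log_le_self hb hz,
    he (jl U z + 1) ▸ Int.lt_zpow_succ_log_self hb z⟩

/-- The phases with a window boundary near `z`. -/
noncomputable def badR (R U : ℕ) (z : ℝ) : Finset ℕ :=
  (Finset.Icc (-5 : ℤ) 5).image fun d => ((jl U z + d) % (R:ℤ)).toNat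

lemma card_badR (R U : ℕ) (z : ℝ) : (badR R U z).card ≤ 11 :=
  Finset.card_image_le.trans (by simp)

lemma lt_of_zpow_mul_lt {U : ℕ} {a b : ℤ} (h : (2:ℝ) ^ (a * U) < (2:ℝ) ^ (b * U)) : a < b := by
  have := (zpow_lt_zpow_iff_right₀ (by norm_num : (1:ℝ) < 2)).1 h
  exact lt_of_mul_lt_mul_right this (Int.natCast_nonneg U)

lemma away_of_notMem {R U : ℕ} (hU : 0 < U) {z : ℝ} (hz : 0 < z) {r W : ℕ} (hr : r < R) (k : ℤ)
    (h : r ∉ badR R U z) : Away ((k * R + r) * U) (R * U) U W z := by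
  intro i _
  by_contra hn
  push Not at hn
  obtain ⟨h1, h2⟩ := hn
  obtain ⟨hj1, hj2⟩ := jl_spec hU hz
  set q : ℤ := k * R + r + (i:ℤ) * R with hq
  have hb : bd ((k * R + r) * U) (R * U) i = q * U := by simp only [bd, hq]; push_cast; ring
  rw [hb, show q * U + 4 * (U:ℤ) = (q + 4) * U by ring] at h1
  rw [hb, show q * U - 4 * (U:ℤ) = (q - 4) * U by ring] at h2
  have c1 := lt_of_zpow_mul_lt (hj1.trans_lt h1)
  have c2 := lt_of_zpow_mul_lt (h2.trans_lt hj2)
  refine h (Finset.mem_image.2 ⟨q - jl U z, Finset.mem_Icc.2 ⟨by omega, by omega⟩, ?_⟩)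
  rw [show jl U z + (q - jl U z) = (r:ℤ) + (k + i) * R by rw [hq]; ring, Int.add_mul_emod_self_right,
    Int.emod_eq_of_lt (by omega) (by omega), Int.toNat_natCast]

/-- The window of a phase that contains the scale `j`. -/
lemma exists_window {R U M0 r : ℕ} (hR : 0 < R) (hr : r < R) {j : ℤ} (hj : j.natAbs ≤ M0) :
    ∃ i0 : ℕ, 2 ≤ i0 ∧ i0 + 1 < 2 * M0 + 6 ∧
      bd ((-((M0:ℤ) + 3) * R + r) * U) (R * U) i0 ≤ j * U ∧
      (j + 1) * U ≤ bd ((-((M0:ℤ) + 3) * R + r) * U) (R * U) (i0 + 1) := by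
  set k := (j - r) / (R:ℤ) with hk
  have hR' : (0:ℤ) < R := by exact_mod_cast hR
  have h1 : k * R ≤ j - r := Int.ediv_mul_le _ hR'.ne'
  have h2 : j - r < (k + 1) * R := Int.lt_ediv_add_one_mul_self _ hR'
  have hrR : (r:ℤ) < R := by exact_mod_cast hr
  have k1 : -(M0:ℤ) - 1 ≤ k := by
    by_contra hn
    have : (k + 2) * (R:ℤ) ≤ -(M0:ℤ) * R :=
      mul_le_mul_of_nonneg_right (by omega) hR'.le
    have : (M0:ℤ) * 1 ≤ M0 * R := mul_le_mul_of_nonneg_left (by omega) (Int.natCast_nonneg _)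
    have e1 : (k + 2) * (R:ℤ) = (k + 1) * R + R := by ring
    have e2 : -(M0:ℤ) * R = -((M0:ℤ) * R) := by ring
    omega
  have k2 : k ≤ M0 := by
    by_contra hn
    have : ((M0:ℤ) + 1) * 1 ≤ k * R := mul_le_mul (by omega) (by omega) (by norm_num) (by omega)
    omega
  obtain ⟨i0, hi0⟩ : ∃ i0 : ℕ, (i0:ℤ) = k + M0 + 3 := ⟨(k + M0 + 3).toNat, by omega⟩
  refine ⟨i0, by omega, by omega, ?_, ?_⟩
  · calc bd ((-((M0:ℤ) + 3) * R + r) * U) (R * U) i0 = (k * R + r) * U := by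
          simp only [bd, hi0]; push_cast; ring
      _ ≤ j * U := mul_le_mul_of_nonneg_right (by omega) (Int.natCast_nonneg _)
  · calc (j + 1) * (U:ℤ) ≤ ((k + 1) * R + r) * U :=
          mul_le_mul_of_nonneg_right (by omega) (Int.natCast_nonneg _)
      _ = _ := by simp only [bd, Nat.cast_add, hi0]; push_cast; ring

/-- Averaging the phases. -/
lemma phases_average {R : ℕ} (hR : 0 < R) (bad : Finset ℕ) (hbad : bad.card ≤ 33) (v : Fin R → ℝ)
    {T lo hi M L H : ℝ} (hT : 0 ≤ T) (hM : 1 ≤ M) (hlo0 : 0 ≤ lo) (hlo1 : lo ≤ 1) (hhi0 : 0 ≤ hi)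
    (hgapl : 33 * M ≤ R * (lo - L)) (hgaph : 33 * M ≤ R * (H - hi))
    (hv0 : ∀ r, 0 ≤ v r) (hall : ∀ r, v r ≤ M * T)
    (hgood : ∀ r : Fin R, (r:ℕ) ∉ bad → lo * T ≤ v r ∧ v r ≤ hi * T) :
    L * T ≤ (∑ r, v r) / R ∧ (∑ r, v r) / R ≤ H * T := by
  have hR0 : (0:ℝ) < R := by exact_mod_cast hR
  set Bd := Finset.univ.filter fun r : Fin R => (r:ℕ) ∈ bad with hBd
  have hc : (Bd.card : ℝ) ≤ 33 := by
    have : Bd.card ≤ bad.card := Finset.card_le_card_of_injOn (fun r : Fin R => (r:ℕ))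
      (fun r hr => by simpa [hBd] using hr) (fun a _ b _ h => Fin.ext h)
    exact_mod_cast this.trans hbad
  have hind : ∑ r : Fin R, (if r ∈ Bd then (1:ℝ) else 0) = Bd.card := by simp
  have hnm : ∀ r, r ∉ Bd → (r:ℕ) ∉ bad := fun r h => by simpa [hBd] using h
  constructor
  · rw [le_div_iff₀ hR0]
    have : ∑ r : Fin R, (lo * T - if r ∈ Bd then lo * T else 0) ≤ ∑ r, v r := by
      refine Finset.sum_le_sum fun r _ => ?_
      split_ifs with h
      · simpa using hv0 r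
      · simpa using (hgood r (hnm r h)).1
    have e : ∑ r : Fin R, (lo * T - if r ∈ Bd then lo * T else 0)
        = (R:ℝ) * (lo * T) - Bd.card * (lo * T) := by simp
    have := mul_le_mul_of_nonneg_right hc (mul_nonneg hlo0 hT)
    have := mul_le_mul_of_nonneg_right hlo1 hT
    have := mul_le_mul_of_nonneg_right hM hT
    have := mul_le_mul_of_nonneg_right hgapl hT
    linarith
  · rw [div_le_iff₀ hR0]
    have : ∑ r, v r ≤ ∑ r : Fin R, (hi * T + if r ∈ Bd then M * T else 0) := by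
      refine Finset.sum_le_sum fun r _ => ?_
      split_ifs with h
      · linarith [hall r, mul_nonneg hhi0 hT]
      · simpa using (hgood r (hnm r h)).2
    have e : ∑ r : Fin R, (hi * T + if r ∈ Bd then M * T else 0)
        = (R:ℝ) * (hi * T) + Bd.card * (M * T) := by simp [Finset.sum_add_distrib]
    have := mul_le_mul_of_nonneg_right hc (mul_nonneg (zero_le_one.trans hM) hT)
    have := mul_le_mul_of_nonneg_right hgaph hT
    linarith

variable {p : ℝ} [Fact (1 ≤ ENNReal.ofReal p)]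

lemma lp_sub_rpow (hp : 0 < p) {ι : Type*} [Fintype ι]
    (u v : PiLp (ENNReal.ofReal p) fun _ : ι => ℝ) :
    ‖u - v‖ ^ p = powDist p (WithLp.ofLp u) (WithLp.ofLp v) := by
  have := lpNorm_pow hp (WithLp.ofLp u) (WithLp.ofLp v)
  simp only [WithLp.toLp_ofLp] at this
  rw [this, ← Real.rpow_mul (powDist_nonneg _ _ _), one_div_mul_cancel hp.ne', Real.rpow_one]

lemma lp_rpow (hp : 0 < p) {ι : Type*} [Fintype ι] (u : PiLp (ENNReal.ofReal p) fun _ : ι => ℝ) :
    ‖u‖ ^ p = powDist p (WithLp.ofLp u) 0 := by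
  simpa using lp_sub_rpow hp u 0

/-- The map of one phase. -/
lemma phase_map (hp : 1 ≤ p) {n N dF ds : ℕ}
    {X : Fin n → PiLp (ENNReal.ofReal p) fun _ : Fin N => ℝ}
    {F : Fin n → PiLp (ENNReal.ofReal p) fun _ : Fin dF => ℝ}
    {t : Fin n → Fin n → ℝ} {ρ : Fin n → ℝ} {a : ℤ} {D U S W B m : ℕ} {η C0 K0 ε es : ℝ}
    (P : Phase X F t ρ a D U S W B m η C0 K0 ε) (hes : es ≤ 1)
    (hsk : ∀ g y τ : ℝ, 0 ≤ g → 0 ≤ y → 0 ≤ τ → y ≤ 2 * τ →
      |g ^ p - y ^ p| ≤ es * (τ ^ p + y ^ p) → |g - y| ≤ ε / 8 * τ)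
    (hS : ∀ s : ℝ, 0 < s → ∀ Y : Fin n → Fin N → ℝ,
      (∀ i, powDist p (Y i) 0 ≤ ((2:ℝ) ^ (D + U) * s) ^ p) →
        ∃ Φ : Fin n → Fin ds → ℝ,
          (∀ i j, |powDist p (Φ i) (Φ j) - powDist p (Y i) (Y j)|
            ≤ es * (s ^ p + powDist p (Y i) (Y j))) ∧
          ∀ i, |powDist p (Φ i) 0 - powDist p (Y i) 0| ≤ es * (s ^ p + powDist p (Y i) 0)) :
    ∃ f : Fin n → Fin ds ⊕ Fin dF → ℝ, ∀ x y, x ≠ y → ∀ i0 : ℕ,
      (2:ℝ) ^ bd a D i0 ≤ t x y → t x y < (2:ℝ) ^ bd a D (i0 + 1) → 2 ≤ i0 → i0 + 1 < W →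
      powDist p (f x) (f y) ≤ (1440 * C0 * t x y) ^ p ∧
      (Away a D U W (t x y) → Away a D U W (ρ x) → Away a D U W (ρ y) →
        ((1 - ε / 2) * t x y) ^ p ≤ powDist p (f x) (f y) ∧
          powDist p (f x) (f y) ≤ ((1 + ε / 2) * t x y) ^ p) := by
  have hp0 : 0 < p := by linarith
  have hY : ∀ i z, powDist p (WithLp.ofLp (remX t ρ a D U S i X z)) 0
      ≤ ((2:ℝ) ^ (D + U) * (2:ℝ) ^ bd a D i) ^ p := fun i z => by
    rw [← lp_rpow hp0]
    refine Real.rpow_le_rpow (norm_nonneg _) ((remX_norm P i z).trans (le_of_eq ?_)) hp0.le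
    rw [mul_comm, ← two_zpow_add_nat, bd_succ]; congr 1; push_cast; ring
  choose Φ hΦ1 hΦ2 using fun i =>
    hS _ (two_zpow_pos (bd a D i)) (fun z => WithLp.ofLp (remX t ρ a D U S i X z)) (hY i)
  set G : ℕ → Fin n → PiLp (ENNReal.ofReal p) fun _ : Fin ds => ℝ :=
    fun i z => WithLp.toLp (ENNReal.ofReal p) (Φ i z) with hGdef
  have hG : ∀ i < W, (∀ z z', |‖G i z - G i z'‖ ^ p
      - ‖remX t ρ a D U S i X z - remX t ρ a D U S i X z'‖ ^ p|
      ≤ es * (((2:ℝ) ^ bd a D i) ^ p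
        + ‖remX t ρ a D U S i X z - remX t ρ a D U S i X z'‖ ^ p)) ∧
    ∀ z, |‖G i z‖ ^ p - ‖remX t ρ a D U S i X z‖ ^ p|
      ≤ es * (((2:ℝ) ^ bd a D i) ^ p + ‖remX t ρ a D U S i X z‖ ^ p) := fun i _ =>
    ⟨fun z z' => by simp only [lp_sub_rpow hp0, hGdef]; exact hΦ1 i z z',
      fun z => by simp only [lp_rpow hp0, hGdef]; exact hΦ2 i z⟩
  refine ⟨fun y => Sum.elim (WithLp.ofLp (lowPart t ρ a D U S W G y))
    (WithLp.ofLp (topPart t ρ a D U S W F y)), fun x y hxy i0 h1 h2 hi0 hi0W => ?_⟩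
  set u := ‖lowPart t ρ a D U S W G x - lowPart t ρ a D U S W G y‖ with hu
  set v := ‖topPart t ρ a D U S W F x - topPart t ρ a D U S W F y‖ with hv
  have he : powDist p (Sum.elim (WithLp.ofLp (lowPart t ρ a D U S W G x))
        (WithLp.ofLp (topPart t ρ a D U S W F x)))
      (Sum.elim (WithLp.ofLp (lowPart t ρ a D U S W G y))
        (WithLp.ofLp (topPart t ρ a D U S W F y))) = u ^ p + v ^ p := by
    rw [hu, hv, lp_sub_rpow hp0, lp_sub_rpow hp0, powDist, Fintype.sum_sum_type]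
    rfl
  rw [he]
  have hu0 : 0 ≤ u := norm_nonneg _
  have hv0 : 0 ≤ v := norm_nonneg _
  have hτ := P.met.nonneg x y
  refine ⟨(Real.add_rpow_le_rpow_add hu0 hv0 hp).trans (Real.rpow_le_rpow (add_nonneg hu0 hv0)
    (phase_always P hp hes hG hxy h1 h2 hi0 hi0W) hp0.le), fun gt gx gy => ?_⟩
  obtain ⟨hlo, hhi⟩ := phase_good P hp hes hG hxy hsk h1 h2 hi0W gt gx gy
  refine ⟨?_, (Real.add_rpow_le_rpow_add hu0 hv0 hp).trans
    (Real.rpow_le_rpow (add_nonneg hu0 hv0) hhi hp0.le)⟩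
  have h0 : 0 ≤ (1 - ε / 2) * t x y := mul_nonneg (by linarith [P.ε1]) hτ
  rcases hlo with hl | hl
  · linarith [Real.rpow_le_rpow h0 hl hp0.le, Real.rpow_nonneg hv0 p]
  · linarith [Real.rpow_le_rpow h0 hl hp0.le, Real.rpow_nonneg hu0 p]

end Assembly

end Vale.Agent.P249.Full.GlueAux

namespace Vale.Agent.P249.Full

open Finset GlueAux

/-- M4b: the glued map. -/
theorem glue_full {p : ℝ} : 1 < p → SketchStmt p → GlueStmt p := by
  intro hp1 hSk C0 hC0 ε hε hε1 K0 hK0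
  have hp : 1 ≤ p := hp1.le
  have hp0 : 0 < p := by linarith
  have : Fact (1 ≤ ENNReal.ofReal p) := ⟨ENNReal.one_le_ofReal.2 hp⟩
  have hC00 : 0 < C0 := by linarith
  set es := (ε / 8) ^ p / (3 * 2 ^ p) with hesd
  have hes0 : 0 < es := div_pos (Real.rpow_pos_of_pos (by positivity) _) (by positivity)
  have hes1 : es ≤ 1 := by
    rw [hesd, div_le_one (by positivity)]
    linarith [Real.rpow_le_one (show 0 ≤ ε / 8 by positivity) (by linarith) hp0.le,
      Real.one_le_rpow (show (1:ℝ) ≤ 2 by norm_num) hp0.le]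
  obtain ⟨κs, hκs0, hκs1, n0, hsketch⟩ := hSk es hes0 hes1
  set M := 1440 * C0 with hMd
  have hM1 : 1 ≤ M := by linarith
  set gap := min ((1 - ε / 2) ^ p - (1 - ε) ^ p) ((1 + ε) ^ p - (1 + ε / 2) ^ p) with hgapd
  have hgap : 0 < gap := lt_min
    (sub_pos.2 (Real.rpow_lt_rpow (by linarith) (by linarith) hp0))
    (sub_pos.2 (Real.rpow_lt_rpow (by linarith) (by linarith) hp0))
  set R := max 2 ⌈33 * M ^ p / gap⌉₊ with hRd
  have hR2 : 2 ≤ R := le_max_left _ _
  have hR0 : 0 < R := by omega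
  have hRgap : 33 * M ^ p ≤ R * gap := by
    rw [← div_le_iff₀ hgap]
    exact (Nat.le_ceil _).trans (Nat.cast_le.2 (le_max_right _ _))
  set η := ε / (2000 * C0) with hηd
  have hη0 : 0 < η := by positivity
  have hη1 : η ≤ 1 := by
    rw [hηd, div_le_one (by positivity)]; linarith
  set g0 := ⌈3200 * C0 / ε + 2 * K0⌉₊ + 6 with hg0d
  have hlog2 : 0 < Real.log 2 := Real.log_pos (by norm_num)
  set CB := max 1 ((R + 3 : ℝ) * (54 / η + ((g0:ℝ) + 1) / Real.log 2)) with hCBd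
  have hCB1 : 1 ≤ CB := le_max_left _ _
  set κ := min (1 / 2 : ℝ) (κs / CB) with hκd
  have hκ0 : 0 < κ := lt_min (by norm_num) (by positivity)
  have hκCB : κ * CB ≤ κs := (le_div_iff₀ (by positivity)).1 (min_le_right _ _)
  have hκκs : κ ≤ κs := le_trans (le_mul_of_one_le_right hκ0.le hCB1) hκCB
  refine ⟨R, CB, κ, max n0 2, hCB1, hκ0, min_le_left _ _, fun n hn m hm2 hmn => ?_⟩
  have hn1 : (1:ℝ) ≤ n := by exact_mod_cast (by omega : 1 ≤ n)
  set lm := Real.log m with hlm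
  have hm0 : (0:ℝ) < m := by exact_mod_cast (by omega : 0 < m)
  have hlm2 : Real.log 2 ≤ lm := Real.log_le_log (by norm_num) (by exact_mod_cast hm2)
  set U := ⌈54 * lm / η⌉₊ + g0 with hUd
  have hUg : g0 ≤ U := Nat.le_add_left _ _
  have hU6 : 6 ≤ U := le_trans (Nat.le_add_left _ _) hUg
  have hU0 : 0 < U := by omega
  have hg0U : 3200 * C0 / ε + 2 * K0 ≤ (2:ℝ) ^ U := by
    refine le_trans (Nat.le_ceil _) (le_trans ?_ (nat_le_two_pow U))
    exact_mod_cast le_trans (Nat.le_add_right _ 6) hUg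
  have hUlog : 54 * lm ≤ η * U := by
    rw [mul_comm η, ← div_le_iff₀ hη0]
    refine (Nat.le_ceil _).trans ?_
    exact_mod_cast Nat.le_add_right _ g0
  have hB : (((R + 3) * U : ℕ) : ℝ) ≤ CB * lm := by
    have h1 : (U:ℝ) ≤ lm * (54 / η + ((g0:ℝ) + 1) / Real.log 2) := by
      have h54 : (0:ℝ) ≤ 54 * lm / η := div_nonneg (by linarith) hη0.le
      have hg : (g0:ℝ) + 1 ≤ lm * (((g0:ℝ) + 1) / Real.log 2) := by
        rw [← mul_div_assoc, le_div_iff₀ hlog2, mul_comm lm]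
        exact mul_le_mul_of_nonneg_left hlm2 (by positivity)
      have := Nat.ceil_lt_add_one h54
      rw [hUd, Nat.cast_add, mul_add, ← mul_div_assoc lm 54, mul_comm lm 54]
      linarith
    push_cast
    calc ((R:ℝ) + 3) * U ≤ ((R:ℝ) + 3) * (lm * (54 / η + ((g0:ℝ) + 1) / Real.log 2)) :=
          mul_le_mul_of_nonneg_left h1 (by positivity)
      _ = ((R:ℝ) + 3) * (54 / η + ((g0:ℝ) + 1) / Real.log 2) * lm := by ring
      _ ≤ CB * lm := mul_le_mul_of_nonneg_right (le_max_right _ _) (by linarith)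
  refine ⟨(R + 3) * U, hB, fun N hN X hX ρ hρ hlip hball dF F hFup hFacc => ?_⟩
  obtain ⟨ds, hds, hskN⟩ := hsketch n (by omega)
  have hΔ : (2:ℝ) ^ (R * U + U) ≤ (n:ℝ) ^ κs := by
    calc (2:ℝ) ^ (R * U + U) ≤ (2:ℝ) ^ ((R + 3) * U) :=
          pow_le_pow_right₀ (by norm_num) (by nlinarith)
      _ ≤ Real.exp (((R + 3) * U : ℕ) : ℝ) := two_pow_le_exp _
      _ ≤ Real.exp (CB * lm) := Real.exp_le_exp.2 hB
      _ = (m:ℝ) ^ CB := by rw [Real.rpow_def_of_pos hm0, mul_comm]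
      _ ≤ ((n:ℝ) ^ κ) ^ CB := Real.rpow_le_rpow hm0.le hmn (by linarith)
      _ = (n:ℝ) ^ (κ * CB) := (Real.rpow_mul (by linarith) _ _).symm
      _ ≤ (n:ℝ) ^ κs := Real.rpow_le_rpow_of_exponent_le hn1 hκCB
  have hS' : ∀ s : ℝ, 0 < s → ∀ Y : Fin n → Fin N → ℝ,
      (∀ i, powDist p (Y i) 0 ≤ ((2:ℝ) ^ (R * U + U) * s) ^ p) →
        ∃ Φ : Fin n → Fin ds → ℝ,
          (∀ i j, |powDist p (Φ i) (Φ j) - powDist p (Y i) (Y j)|
            ≤ es * (s ^ p + powDist p (Y i) (Y j))) ∧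
          ∀ i, |powDist p (Φ i) 0 - powDist p (Y i) 0| ≤ es * (s ^ p + powDist p (Y i) 0) := by
    intro s hs Y hY
    obtain ⟨Φ, -, h1, h2⟩ := hskN N (hN.trans (Real.rpow_le_rpow_of_exponent_le hn1 (by linarith)))
      _ (one_le_pow₀ (by norm_num)) hΔ s hs Y hY
    exact ⟨Φ, h1, h2⟩
  set t := lpD p X with htd
  have ht : FMetric t := fmetric_lpD hp hX
  set M0 := (univ : Finset (Fin n)).sup (fun x => max (jl U (ρ x)).natAbs
    (univ.sup fun y => (jl U (t x y)).natAbs)) with hM0d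
  have hMρ : ∀ x, (jl U (ρ x)).natAbs ≤ M0 := fun x =>
    le_trans (le_max_left _ _) (Finset.le_sup (f := fun x => max (jl U (ρ x)).natAbs
      (univ.sup fun y => (jl U (t x y)).natAbs)) (Finset.mem_univ x))
  have hMt : ∀ x y, (jl U (t x y)).natAbs ≤ M0 := fun x y =>
    le_trans (le_trans (Finset.le_sup (f := fun y => (jl U (t x y)).natAbs) (Finset.mem_univ y))
      (le_max_right _ _)) (Finset.le_sup (f := fun x => max (jl U (ρ x)).natAbs
      (univ.sup fun y => (jl U (t x y)).natAbs)) (Finset.mem_univ x))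
  set W := 2 * M0 + 6 with hWd
  set E := ((M0 + 4) * R + 1) * U with hEd
  set S := (univ : Finset (Fin n × Fin n)).sup (fun e => ⌈(2:ℝ) ^ E / t e.1 e.2⌉₊) + 1 with hSd
  set X' : Fin n → PiLp (ENNReal.ofReal p) (fun _ : Fin N => ℝ) :=
    fun x => WithLp.toLp (ENNReal.ofReal p) (X x) with hX'
  set F' : Fin n → PiLp (ENNReal.ofReal p) (fun _ : Fin dF => ℝ) :=
    fun x => WithLp.toLp (ENNReal.ofReal p) (F x) with hF'
  have hP : ∀ r : Fin R, Phase X' F' t ρ ((-((M0:ℤ) + 3) * R + (r:ℕ)) * U) (R * U) U S W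
      ((R + 3) * U) m η C0 K0 ε := by
    intro r
    have hr : ((r:ℕ):ℤ) < R := by exact_mod_cast r.isLt
    have hM0R : (M0:ℤ) * 1 ≤ M0 * R :=
      mul_le_mul_of_nonneg_left (by omega) (Int.natCast_nonneg _)
    refine ⟨ht, fun x y => lpNorm_pow hp0 (X x) (X y), hρ, hlip, hball, hU6,
      Nat.mul_le_mul_right U hR2, by nlinarith, Nat.succ_pos _, hη0, hη1, hUlog, hC0, by linarith,
      le_trans (by linarith [show 0 ≤ 3200 * C0 / ε by positivity]) hg0U, fun x y hxy => ?_,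
      fun y => ?_, fun y => ?_, fun x y => (lpNorm_pow hp0 (F x) (F y)).trans_le (hFup x y),
      fun x y h => ?_, ?_, hε1⟩
    · have htp := ht.pos x y hxy
      rw [div_le_iff₀ (by exact_mod_cast Nat.succ_pos _), mul_comm (t x y), ← div_le_iff₀ htp]
      refine le_trans ?_ (le_trans (Nat.le_ceil _) (Nat.cast_le.2 (le_trans
        (Finset.le_sup (f := fun e : Fin n × Fin n => ⌈(2:ℝ) ^ E / t e.1 e.2⌉₊)
          (Finset.mem_univ (x, y))) (Nat.le_succ _))))
      refine div_le_div_of_nonneg_right ?_ htp.le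
      rw [← zpow_natCast (2:ℝ) E]
      refine two_zpow_le ?_
      calc bd ((-((M0:ℤ) + 3) * R + (r:ℕ)) * U) (R * U) W + U
          = (((M0:ℤ) + 3) * R + (r:ℕ) + 1) * U := by simp only [bd, hWd]; push_cast; ring
        _ ≤ (((M0:ℤ) + 4) * R + 1) * U :=
          mul_le_mul_of_nonneg_right (by linarith) (Int.natCast_nonneg _)
        _ = (E:ℤ) := by simp [hEd]
    · refine le_trans (two_zpow_le ?_) (jl_spec hU0 (hρ y)).1
      have hj : -(M0:ℤ) ≤ jl U (ρ y) := by have := hMρ y; omega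
      calc (-((M0:ℤ) + 3) * R + (r:ℕ)) * U + U + 5 ≤ (-((M0:ℤ) + 3) * R + (r:ℕ) + 2) * U := by
            linarith [show (6:ℤ) ≤ U by exact_mod_cast hU6]
        _ ≤ jl U (ρ y) * U := mul_le_mul_of_nonneg_right (by
            linarith [show (2:ℤ) ≤ R by exact_mod_cast hR2]) (Int.natCast_nonneg _)
    · refine le_trans (jl_spec hU0 (hρ y)).2.le (two_zpow_le ?_)
      have hj : jl U (ρ y) ≤ M0 := by have := hMρ y; omega
      calc (jl U (ρ y) + 1) * U ≤ (((M0:ℤ) + 3) * R + (r:ℕ) + 1) * U :=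
            mul_le_mul_of_nonneg_right (by
              linarith [show (2:ℤ) ≤ R by exact_mod_cast hR2]) (Int.natCast_nonneg _)
        _ ≤ bd ((-((M0:ℤ) + 3) * R + (r:ℕ)) * U) (R * U) W + U + 4 := by
            simp only [bd, hWd]; push_cast; linarith
    · rw [show ‖F' x - F' y‖ = lpD p F x y from lpNorm_pow hp0 (F x) (F y)]
      exact hFacc x y h
    · have e1 : 100 * C0 * η = ε / 20 := by rw [hηd]; field_simp; ring
      have e2 : 200 * C0 / (2:ℝ) ^ U ≤ ε / 16 := by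
        have h3 : 3200 * C0 ≤ (2:ℝ) ^ U * ε := (div_le_iff₀ hε).1 (by linarith)
        rw [div_le_iff₀ (by positivity)]
        linarith
      linarith
  choose g hg using fun r => phase_map hp (hP r) hes1
    (fun g y τ => sketch_scale hp hε.le) hS'
  set e := Fintype.equivFin (Fin R × (Fin ds ⊕ Fin dF)) with hed
  set c := (1 / (R:ℝ)) ^ (1 / p) with hcd
  have hc0 : 0 ≤ c := Real.rpow_nonneg (by positivity) _
  have hcp : c ^ p = 1 / (R:ℝ) := by
    rw [hcd, ← Real.rpow_mul (by positivity), one_div_mul_cancel hp0.ne', Real.rpow_one]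
  refine ⟨Fintype.card (Fin R × (Fin ds ⊕ Fin dF)), ?_,
    fun x k => c * g (e.symm k).1 x (e.symm k).2, fun x y => ?_⟩
  · simp only [Fintype.card_prod, Fintype.card_sum, Fintype.card_fin, Nat.cast_mul, Nat.cast_add]
    refine mul_le_mul_of_nonneg_left ?_ (Nat.cast_nonneg _)
    linarith [hds.trans (Real.rpow_le_rpow_of_exponent_le hn1 (by linarith : 1 - κs ≤ 1 - κ))]
  set f : Fin n → Fin (Fintype.card (Fin R × (Fin ds ⊕ Fin dF))) → ℝ :=
    fun x k => c * g (e.symm k).1 x (e.symm k).2 with hfd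
  have hτ : 0 ≤ t x y := lpD_nonneg p X x y
  have hsum : powDist p (f x) (f y) = (∑ r, powDist p (g r x) (g r y)) / R := by
    simp only [powDist, hfd, ← mul_sub, abs_mul, abs_of_nonneg hc0,
      Real.mul_rpow hc0 (abs_nonneg _), hcp]
    rw [← Finset.mul_sum, Equiv.sum_comp e.symm (fun u => |g u.1 x u.2 - g u.1 y u.2| ^ p),
      Fintype.sum_prod_type]
    ring
  rcases eq_or_ne x y with rfl | hxy
  · simp [htd, lpD, lpN_zero hp0, hfd]
  have hρx := hρ x
  have hρy := hρ y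
  have hwin : ∀ r : Fin R, ∃ i0 : ℕ, (2:ℝ) ^ bd ((-((M0:ℤ) + 3) * R + (r:ℕ)) * U) (R * U) i0 ≤ t x y ∧
      t x y < (2:ℝ) ^ bd ((-((M0:ℤ) + 3) * R + (r:ℕ)) * U) (R * U) (i0 + 1) ∧
      2 ≤ i0 ∧ i0 + 1 < W := fun r => by
    obtain ⟨i0, a1, a2, a3, a4⟩ := exists_window (U := U) hR0 r.isLt (hMt x y)
    obtain ⟨b1, b2⟩ := jl_spec hU0 (ht.pos x y hxy)
    exact ⟨i0, (two_zpow_le a3).trans b1, b2.trans_le (two_zpow_le a4), a1, a2⟩
  have hall : ∀ r, powDist p (g r x) (g r y) ≤ M ^ p * t x y ^ p := fun r => by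
    obtain ⟨i0, a1, a2, a3, a4⟩ := hwin r
    refine ((hg r x y hxy i0 a1 a2 a3 a4).1).trans (le_of_eq ?_)
    rw [Real.mul_rpow (by positivity) hτ]
  have hgood : ∀ r : Fin R, (r:ℕ) ∉ badR R U (t x y) ∪ badR R U (ρ x) ∪ badR R U (ρ y) →
      (1 - ε / 2) ^ p * t x y ^ p ≤ powDist p (g r x) (g r y) ∧
        powDist p (g r x) (g r y) ≤ (1 + ε / 2) ^ p * t x y ^ p := fun r hr => by
    simp only [Finset.mem_union, not_or] at hr
    obtain ⟨i0, a1, a2, a3, a4⟩ := hwin r
    obtain ⟨e1, e2⟩ := (hg r x y hxy i0 a1 a2 a3 a4).2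
      (away_of_notMem hU0 (ht.pos x y hxy) r.isLt _ hr.1.1)
      (away_of_notMem hU0 hρx r.isLt _ hr.1.2) (away_of_notMem hU0 hρy r.isLt _ hr.2)
    rw [← Real.mul_rpow (by linarith) hτ, ← Real.mul_rpow (by positivity) hτ]
    exact ⟨e1, e2⟩
  have hcard : (badR R U (t x y) ∪ badR R U (ρ x) ∪ badR R U (ρ y)).card ≤ 33 := by
    have := card_badR R U (t x y)
    have := card_badR R U (ρ x)
    have := card_badR R U (ρ y)
    have := Finset.card_union_le (badR R U (t x y)) (badR R U (ρ x))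
    have := Finset.card_union_le (badR R U (t x y) ∪ badR R U (ρ x)) (badR R U (ρ y))
    omega
  obtain ⟨hl, hh⟩ := phases_average hR0 _ hcard (fun r => powDist p (g r x) (g r y))
    (L := (1 - ε) ^ p) (H := (1 + ε) ^ p) (Real.rpow_nonneg hτ p)
    (Real.one_le_rpow hM1 hp0.le) (Real.rpow_nonneg (by linarith) _)
    (Real.rpow_le_one (by linarith) (by linarith) hp0.le) (Real.rpow_nonneg (by positivity) _)
    (hRgap.trans (mul_le_mul_of_nonneg_left (min_le_left _ _) (Nat.cast_nonneg _)))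
    (hRgap.trans (mul_le_mul_of_nonneg_left (min_le_right _ _) (Nat.cast_nonneg _)))
    (fun r => powDist_nonneg _ _ _) hall hgood
  rw [← hsum, ← lpD_rpow hp0 f x y, ← Real.mul_rpow (by linarith) hτ] at hl
  rw [← hsum, ← lpD_rpow hp0 f x y, ← Real.mul_rpow (by positivity) hτ] at hh
  exact ⟨(Real.rpow_le_rpow_iff (mul_nonneg (by linarith) hτ) (lpD_nonneg _ _ _ _) hp0).1 hl,
    (Real.rpow_le_rpow_iff (lpD_nonneg _ _ _ _) (mul_nonneg (by linarith) hτ) hp0).1 hh⟩

end Vale.Agent.P249.Full
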