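import Mathlib
import Vale.Agent.P249.Full.Spec

/-! M1b: mixing ball weights with the kernel, scale by scale, and the total growth over a range. -/

namespace Vale.Agent.P249.Full

open Finset

variable {n : ℕ}

namespace Hyb

/-- Enough sample radii at scale `2 ^ k`. -/
noncomputable def samples (t : Fin n → Fin n → ℝ) (k : ℤ) : ℕ :=
  ⌈∑ x, ∑ y, |(2:ℝ) ^ k / t x y|⌉₊ + 1

lemma samples_pos (t : Fin n → Fin n → ℝ) (k : ℤ) : 0 < samples t k := Nat.succ_pos _

lemma samples_posR (t : Fin n → Fin n → ℝ) (k : ℤ) : (0:ℝ) < samples t k :=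
  Nat.cast_pos.2 (samples_pos t k)

lemma fine (t : Fin n → Fin n → ℝ) (k : ℤ) {x y : Fin n} (h : 0 < t x y) :
    (2:ℝ) ^ k / samples t k ≤ t x y := by
  have h1 : |(2:ℝ) ^ k / t x y| ≤ ∑ b, |(2:ℝ) ^ k / t x b| :=
    Finset.single_le_sum (f := fun b => |(2:ℝ) ^ k / t x b|) (fun b _ => abs_nonneg _)
      (Finset.mem_univ y)
  have h2 : ∑ b, |(2:ℝ) ^ k / t x b| ≤ ∑ a, ∑ b, |(2:ℝ) ^ k / t a b| :=
    Finset.single_le_sum (f := fun a => ∑ b, |(2:ℝ) ^ k / t a b|)
      (fun a _ => Finset.sum_nonneg fun b _ => abs_nonneg _) (Finset.mem_univ x)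
  have h3 : (2:ℝ) ^ k / t x y ≤ samples t k := by
    have := Nat.le_ceil (∑ a, ∑ b, |(2:ℝ) ^ k / t a b|)
    rw [samples, Nat.cast_add, Nat.cast_one]
    linarith [le_abs_self ((2:ℝ) ^ k / t x y)]
  rw [div_le_iff₀ h] at h3
  rw [div_le_iff₀ (samples_posR t k)]
  linarith

/-- The `s`-th sample radius at scale `2 ^ k`. -/
noncomputable def rad (t : Fin n → Fin n → ℝ) (k : ℤ) (s : ℕ) : ℝ :=
  (2:ℝ) ^ k + s * ((2:ℝ) ^ k / samples t k)

lemma le_rad (t : Fin n → Fin n → ℝ) (k : ℤ) (s : ℕ) : (2:ℝ) ^ k ≤ rad t k s :=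
  le_add_of_nonneg_right (by positivity)

lemma rad_le (t : Fin n → Fin n → ℝ) (k : ℤ) {s : ℕ} (hs : s ∈ range (samples t k)) :
    rad t k s ≤ (2:ℝ) ^ (k + 1) := by
  have h2 : (0:ℝ) < (2:ℝ) ^ k := zpow_pos (by norm_num) k
  have hs' : (s:ℝ) ≤ samples t k := by exact_mod_cast (Finset.mem_range.1 hs).le
  have := mul_le_mul_of_nonneg_right hs' (show 0 ≤ (2:ℝ) ^ k / samples t k by positivity)
  rw [mul_div_cancel₀ _ (samples_posR t k).ne'] at this
  rw [rad, zpow_add_one₀ (by norm_num : (2:ℝ) ≠ 0)]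
  linarith

lemma smoothAt_eq_sum (t : Fin n → Fin n → ℝ) (S : ℕ) (k : ℤ) (g : Fin n → ℝ) (y : Fin n) :
    smoothAt t S k g y
      = ∑ z, g z * smoothAt t S k (fun x => if x = z then (1:ℝ) else 0) y := by
  simp only [smoothAt, avgF, smul_eq_mul, Finset.mul_sum]
  conv_rhs => rw [Finset.sum_comm]
  refine Finset.sum_congr rfl fun s _ => ?_
  conv_rhs => rw [Finset.sum_comm]
  refine Finset.sum_congr rfl fun x _ => ?_
  rw [Finset.sum_eq_single x (fun z _ hz => by simp [Ne.symm hz])
    (fun h => absurd (Finset.mem_univ x) h), if_pos rfl]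
  ring

/-- Ball weights at scale `2 ^ k`. -/
noncomputable def ballW (t : Fin n → Fin n → ℝ) (k : ℤ) (y z : Fin n) : ℝ :=
  smoothAt t (samples t k) k (fun x => if x = z then (1:ℝ) else 0) y

lemma ballW_isW {t : Fin n → Fin n → ℝ} (ht : FMetric t) (k : ℤ) (y : Fin n) :
    IsW (ballW t k y) where
  nonneg z := by
    simp only [ballW, smoothAt, avgF, smul_eq_mul]
    exact mul_nonneg (by positivity) (Finset.sum_nonneg fun s _ => mul_nonneg (by positivity)
      (Finset.sum_nonneg fun x _ => by split_ifs <;> norm_num))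
  sum_one := by
    have h := smoothAt_eq_sum t (samples t k) k (fun _ => (1:ℝ)) y
    have h' := smoothAt_near ht (samples_pos t k) k (fun _ => (1:ℝ)) y 1 (δ := 0) (by simp)
    rw [norm_le_zero_iff, sub_eq_zero] at h'
    rw [h'] at h
    simpa [ballW] using h.symm

lemma ballW_support {t : Fin n → Fin n → ℝ} (ht : FMetric t) (k : ℤ) (y z : Fin n)
    (h : ballW t k y z ≠ 0) : t y z ≤ 2 * (2:ℝ) ^ k := by
  by_contra hc
  apply h
  have := smoothAt_near ht (samples_pos t k) k (fun x => if x = z then (1:ℝ) else 0) y 0 (δ := 0)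
    (fun x hx => by
      have hne : x ≠ z := fun e => hc (e ▸ hx)
      simp [hne])
  simpa [ballW] using this

lemma tv_ballW {t : Fin n → Fin n → ℝ} (ht : FMetric t) (k : ℤ) {x y : Fin n}
    (hpos : 0 < t x y) (hsmall : 2 * t x y ≤ (2:ℝ) ^ k) :
    tv (ballW t k x) (ballW t k y) ≤ 12 * (t x y / (2:ℝ) ^ k) *
      (logBall t x ((2:ℝ) ^ (k + 2)) - logBall t x ((2:ℝ) ^ (k - 1))) := by
  set g : Fin n → ℝ := fun z => if ballW t k y z ≤ ballW t k x z then 1 else -1 with hg
  have hb : ∀ z z', ‖g z - g z'‖ ≤ 2 := fun z z' => by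
    simp only [hg]
    split_ifs <;> norm_num
  have he : tv (ballW t k x) (ballW t k y)
      = smoothAt t (samples t k) k g x - smoothAt t (samples t k) k g y := by
    rw [smoothAt_eq_sum t _ k g x, smoothAt_eq_sum t _ k g y, ← Finset.sum_sub_distrib, tv]
    refine Finset.sum_congr rfl fun z _ => ?_
    simp only [ballW] at hg ⊢
    rcases le_or_gt (smoothAt t (samples t k) k (fun w => if w = z then (1:ℝ) else 0) y)
      (smoothAt t (samples t k) k (fun w => if w = z then (1:ℝ) else 0) x) with h | h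
    · have : g z = 1 := by simp [hg, h]
      rw [this, abs_of_nonneg (sub_nonneg.2 h)]; ring
    · have : g z = -1 := by simp [hg, not_le.2 h]
      rw [this, abs_of_neg (sub_neg.2 h)]; ring
  rw [he]
  refine ((le_abs_self _).trans (smoothAt_gradient ht (samples_pos t k) k x y hsmall
    (fine t k hpos) g (δ := 2) (by norm_num) fun z z' _ _ => hb z z')).trans (le_of_eq ?_)
  ring

lemma logBall_shift {t : Fin n → Fin n → ℝ} (ht : FMetric t) {y y' : Fin n} {R R' : ℝ}
    (h : t y y' + R ≤ R') : logBall t y' R ≤ logBall t y R' := by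
  rcases Nat.eq_zero_or_pos (ballF t y' R).card with h0 | h0
  · rw [logBall, h0, Nat.cast_zero, Real.log_zero]
    exact logBall_nonneg _ _ _
  · refine Real.log_le_log (by exact_mod_cast h0) (Nat.cast_le.2 (Finset.card_le_card fun z hz => ?_))
    simp only [ballF, Finset.mem_filter, Finset.mem_univ, true_and] at hz ⊢
    linarith [ht.tri y y' z]

/-- The averaged log ball size at scale `2 ^ k`. -/
noncomputable def ell (t : Fin n → Fin n → ℝ) (k : ℤ) (y : Fin n) : ℝ :=
  (samples t k : ℝ)⁻¹ * ∑ s ∈ range (samples t k), logBall t y (rad t k s)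

lemma le_ell (t : Fin n → Fin n → ℝ) (k : ℤ) (y : Fin n) :
    logBall t y ((2:ℝ) ^ k) ≤ ell t k y := by
  rw [ell, le_inv_mul_iff₀ (samples_posR t k)]
  have := Finset.card_nsmul_le_sum (range (samples t k)) (fun s => logBall t y (rad t k s))
    (logBall t y ((2:ℝ) ^ k)) fun s _ => logBall_mono t y (le_rad t k s)
  simpa using this

lemma ell_le (t : Fin n → Fin n → ℝ) (k : ℤ) (y : Fin n) :
    ell t k y ≤ logBall t y ((2:ℝ) ^ (k + 1)) := by
  rw [ell, inv_mul_le_iff₀ (samples_posR t k)]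
  have := Finset.sum_le_card_nsmul (range (samples t k)) (fun s => logBall t y (rad t k s))
    (logBall t y ((2:ℝ) ^ (k + 1))) fun s hs => logBall_mono t y (rad_le t k hs)
  simpa using this

lemma ell_lip {t : Fin n → Fin n → ℝ} (ht : FMetric t) (k : ℤ) {y y' : Fin n}
    (hpos : 0 < t y y') (hsmall : 2 * t y y' ≤ (2:ℝ) ^ k) :
    |ell t k y - ell t k y'| ≤ 3 * (t y y' / (2:ℝ) ^ k) *
      (logBall t y ((2:ℝ) ^ (k + 2)) - logBall t y ((2:ℝ) ^ (k - 1))) := by
  have hS := samples_posR t k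
  set S := samples t k
  have h2 : (0:ℝ) < (2:ℝ) ^ k := zpow_pos (by norm_num) k
  have hfine := fine t k hpos
  set τ := t y y'
  set η := (2:ℝ) ^ k / S with hη
  have hη0 : 0 < η := div_pos h2 hS
  set m := ⌈2 * τ / η⌉₊
  have hm1 : 2 * τ / η ≤ (m:ℝ) := Nat.le_ceil _
  have hm2 : (m:ℝ) ≤ 3 * τ / η := by
    have := Nat.ceil_lt_add_one (show 0 ≤ 2 * τ / η by positivity)
    have h1 : 1 ≤ τ / η := (one_le_div hη0).2 hfine
    have : 3 * τ / η = 2 * τ / η + τ / η := by ring
    linarith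
  rw [div_le_iff₀ hη0] at hm1
  have hm2' : (m:ℝ) * η ≤ 3 * τ := (le_div_iff₀ hη0).1 hm2
  have hSη : (S:ℝ) * η = (2:ℝ) ^ k := mul_div_cancel₀ _ hS.ne'
  set a : ℕ → ℝ := fun u => logBall t y ((2:ℝ) ^ k + u * η - τ) with ha
  have hterm : ∀ s : ℕ, |logBall t y (rad t k s) - logBall t y' (rad t k s)| ≤ a (s + m) - a s := by
    intro s
    have hr : rad t k s = (2:ℝ) ^ k + s * η := rfl
    have hup : logBall t y ((2:ℝ) ^ k + s * η + τ) ≤ a (s + m) := by
      refine logBall_mono t y ?_
      push_cast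
      rw [add_mul]
      linarith
    have e1 : logBall t y' (rad t k s) ≤ logBall t y ((2:ℝ) ^ k + s * η + τ) :=
      logBall_shift ht (by rw [hr]; linarith)
    have e2 : a s ≤ logBall t y' (rad t k s) :=
      logBall_shift ht (by rw [hr, ht.symm]; linarith)
    have e3 : logBall t y (rad t k s) ≤ logBall t y ((2:ℝ) ^ k + s * η + τ) :=
      logBall_mono t y (by rw [hr]; linarith)
    have e4 : a s ≤ logBall t y (rad t k s) := logBall_mono t y (by rw [hr]; linarith)
    rw [abs_le]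
    constructor <;> linarith
  have htop : (2:ℝ) ^ (k + 2) = 4 * (2:ℝ) ^ k := by
    rw [zpow_add₀ (by norm_num : (2:ℝ) ≠ 0)]; norm_num; ring
  have hbot : (2:ℝ) ^ (k - 1) = (2:ℝ) ^ k / 2 := by
    rw [zpow_sub₀ (by norm_num : (2:ℝ) ≠ 0)]; norm_num
  set Lk := logBall t y ((2:ℝ) ^ (k + 2)) - logBall t y ((2:ℝ) ^ (k - 1))
  have hsum : ∑ s ∈ range S, (a (s + m) - a s) ≤ (m:ℝ) * Lk := by
    rw [sum_shift]
    calc ∑ j ∈ range m, (a (S + j) - a j) ≤ ∑ _j ∈ range m, Lk := by
          refine Finset.sum_le_sum fun j hj => sub_le_sub (logBall_mono t y ?_) (logBall_mono t y ?_)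
          · have : (j:ℝ) * η ≤ (m:ℝ) * η :=
              mul_le_mul_of_nonneg_right (by exact_mod_cast (Finset.mem_range.1 hj).le) hη0.le
            push_cast
            rw [add_mul, htop]
            linarith
          · have : 0 ≤ (j:ℝ) * η := by positivity
            rw [hbot]
            linarith
      _ = _ := by simp
  have hLk : 0 ≤ Lk := by
    refine sub_nonneg.2 (logBall_mono t y ?_)
    rw [htop, hbot]; linarith
  rw [ell, ell, ← mul_sub, ← Finset.sum_sub_distrib, abs_mul, abs_of_pos (inv_pos.2 hS)]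
  calc (S:ℝ)⁻¹ * |∑ s ∈ range S, (logBall t y (rad t k s) - logBall t y' (rad t k s))|
      ≤ (S:ℝ)⁻¹ * ((m:ℝ) * Lk) := by
        refine mul_le_mul_of_nonneg_left ?_ (inv_nonneg.2 hS.le)
        exact (Finset.abs_sum_le_sum_abs _ _).trans
          ((Finset.sum_le_sum fun s _ => hterm s).trans hsum)
    _ ≤ (S:ℝ)⁻¹ * (3 * τ / η * Lk) := by gcongr
    _ = _ := by
        rw [hη]; field_simp

/-- The smoothed growth around scale `2 ^ i`. -/
noncomputable def ghat (t : Fin n → Fin n → ℝ) (i : ℤ) (y : Fin n) : ℝ :=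
  ell t (i + 2) y - ell t (i - 2) y

/-- The share of the ball weights at scale `2 ^ i`. -/
noncomputable def lam (t : Fin n → Fin n → ℝ) (β : ℝ) (i : ℤ) (y : Fin n) : ℝ :=
  max 0 (min 1 (2 - ghat t i y / β))

lemma lam_nonneg (t : Fin n → Fin n → ℝ) (β : ℝ) (i : ℤ) (y : Fin n) : 0 ≤ lam t β i y :=
  le_max_left _ _

lemma lam_le_one (t : Fin n → Fin n → ℝ) (β : ℝ) (i : ℤ) (y : Fin n) : lam t β i y ≤ 1 :=
  max_le zero_le_one (min_le_left _ _)

lemma abs_clamp_sub (a b : ℝ) : |max 0 (min 1 a) - max 0 (min 1 b)| ≤ |a - b| := by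
  refine (abs_max_sub_max_le_max _ _ _ _).trans (max_le (by simp) ?_)
  exact (abs_min_sub_min_le_max _ _ _ _).trans (max_le (by simp) le_rfl)

lemma tv_mix (a a' : ℝ) (W W' P P' : Fin n → ℝ) (ha0 : 0 ≤ a) (ha1 : a ≤ 1) :
    tv (fun z => a * W z + (1 - a) * P z) (fun z => a' * W' z + (1 - a') * P' z)
      ≤ a * tv W W' + (1 - a) * tv P P' + |a - a'| * tv W' P' := by
  simp only [tv, Finset.mul_sum, ← Finset.sum_add_distrib]
  refine Finset.sum_le_sum fun z _ => ?_
  have e : a * W z + (1 - a) * P z - (a' * W' z + (1 - a') * P' z)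
      = a * (W z - W' z) + (1 - a) * (P z - P' z) + (a - a') * (W' z - P' z) := by ring
  rw [e]
  refine (abs_add_three _ _ _).trans (le_of_eq ?_)
  rw [abs_mul, abs_mul, abs_mul, abs_of_nonneg ha0, abs_of_nonneg (sub_nonneg.2 ha1)]

lemma tv_self (w : Fin n → ℝ) : tv w w = 0 := by simp [tv]

end Hyb

open Hyb in
/-- M1b: the hybrid weights. -/
theorem hybrid : HybridStmt := by
  refine ⟨49, by norm_num, fun n t ht β hβ hlog hker => ?_⟩
  have hz2 : ∀ {i j : ℤ}, i ≤ j → (2:ℝ) ^ i ≤ (2:ℝ) ^ j := fun h =>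
    zpow_le_zpow_right₀ (by norm_num) h
  choose P hPw hPs hPt using fun i : ℤ => hker ((2:ℝ) ^ i) (zpow_pos (by norm_num) i)
  refine ⟨fun i y z => lam t β i y * ballW t i y z + (1 - lam t β i y) * P i y z,
    fun i y => (ballW_isW ht i y).comb (hPw i y) (lam_nonneg ..) (lam_le_one ..),
    fun i y z hne => ?_, fun i y y' => ?_⟩
  · rcases eq_or_ne (ballW t i y z) 0 with h0 | h0
    · refine hPs i y z fun hP => hne ?_
      simp [h0, hP]
    · have := ballW_support ht i y z h0
      have : (0:ℝ) < (2:ℝ) ^ i := zpow_pos (by norm_num) i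
      linarith
  · have hβ0 : 0 ≤ β := by linarith
    have hν := one_le_nuG t hβ0 5 i y
    rcases eq_or_ne y y' with rfl | hyy
    · rw [tv_self, ht.self]; simp
    have hpos := ht.pos y y' hyy
    have h2 : (0:ℝ) < (2:ℝ) ^ i := zpow_pos (by norm_num) i
    set u := t y y' / (2:ℝ) ^ i with hu
    have hu0 : 0 < u := div_pos hpos h2
    rcases lt_or_ge (1/8 : ℝ) u with hbig | hsm
    · refine (tv_le_two ((ballW_isW ht i y).comb (hPw i y) (lam_nonneg ..) (lam_le_one ..))
        ((ballW_isW ht i y').comb (hPw i y') (lam_nonneg ..) (lam_le_one ..))).trans ?_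
      have h1 : u ≤ nuG t β 5 i y * u := le_mul_of_one_le_left hu0.le hν
      rw [mul_assoc]
      linarith
    have hsm' : 8 * t y y' ≤ (2:ℝ) ^ i := by
      rw [hu, div_le_iff₀ h2] at hsm
      linarith
    have ha : (2:ℝ) ^ (i + 2) = 4 * (2:ℝ) ^ i := by
      rw [zpow_add₀ (by norm_num : (2:ℝ) ≠ 0)]; norm_num; ring
    have hb : (2:ℝ) ^ (i - 2) = (2:ℝ) ^ i / 4 := by
      rw [zpow_sub₀ (by norm_num : (2:ℝ) ≠ 0)]; norm_num
    -- growth bounds at the base point
    set G := logBall t y ((2:ℝ) ^ (i + 5)) - logBall t y ((2:ℝ) ^ (i - 5)) with hG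
    have hGnu : nuG t β 5 i y = 1 + min β G := by simp [nuG, hG]
    have hmono : ∀ {j k : ℤ}, j ≤ k → logBall t y ((2:ℝ) ^ j) ≤ logBall t y ((2:ℝ) ^ k) :=
      fun h => logBall_mono t y (hz2 h)
    have hG0 : 0 ≤ G := sub_nonneg.2 (hmono (by omega))
    have hm0 : 0 ≤ min β G := le_min hβ0 hG0
    have hgl : logBall t y ((2:ℝ) ^ (i + 2)) - logBall t y ((2:ℝ) ^ (i - 1)) ≤ ghat t i y := by
      have h1 := le_ell t (i + 2) y
      have h2' := ell_le t (i - 2) y
      rw [show i - 2 + 1 = i - 1 by ring] at h2'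
      rw [ghat]; linarith
    have hgh : ghat t i y ≤ G := by
      have h1 := ell_le t (i + 2) y
      have h2' := le_ell t (i - 2) y
      have := hmono (show i + 2 + 1 ≤ i + 5 by omega)
      have := hmono (show i - 5 ≤ i - 2 by omega)
      rw [ghat]; linarith
    have hdg : |ghat t i y - ghat t i y'| ≤ 12 * u * G := by
      have l1 := ell_lip ht (i + 2) hpos (by rw [ha]; linarith)
      have l2 := ell_lip ht (i - 2) hpos (by rw [hb]; linarith)
      have d1 : t y y' / (2:ℝ) ^ (i + 2) ≤ 4 * u := by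
        have : t y y' / (2:ℝ) ^ (i + 2) = u / 4 := by rw [ha, hu]; field_simp
        linarith
      have d2 : t y y' / (2:ℝ) ^ (i - 2) = 4 * u := by rw [hb, hu]; field_simp
      have n1 : 0 ≤ logBall t y ((2:ℝ) ^ (i + 2 + 2)) - logBall t y ((2:ℝ) ^ (i + 2 - 1)) :=
        sub_nonneg.2 (hmono (by omega))
      have hmid := hmono (show i - 2 + 2 ≤ i + 2 - 1 by omega)
      have htop := hmono (show i + 2 + 2 ≤ i + 5 by omega)
      have hbot := hmono (show i - 5 ≤ i - 2 - 1 by omega)
      have l1' := l1.trans (mul_le_mul_of_nonneg_right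
        (mul_le_mul_of_nonneg_left d1 (by norm_num : (0:ℝ) ≤ 3)) n1)
      rw [d2] at l2
      have htot : logBall t y ((2:ℝ) ^ (i + 2 + 2)) - logBall t y ((2:ℝ) ^ (i + 2 - 1))
          + (logBall t y ((2:ℝ) ^ (i - 2 + 2)) - logBall t y ((2:ℝ) ^ (i - 2 - 1))) ≤ G := by
        rw [hG]; linarith
      have hscale := mul_le_mul_of_nonneg_left htot (show 0 ≤ 12 * u by positivity)
      have e : ghat t i y - ghat t i y' = (ell t (i + 2) y - ell t (i + 2) y')
          - (ell t (i - 2) y - ell t (i - 2) y') := by rw [ghat, ghat]; ring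
      rw [e]
      refine (abs_sub _ _).trans ?_
      nlinarith
    -- the three terms
    have hgrow0 : 0 ≤ logBall t y ((2:ℝ) ^ (i + 2)) - logBall t y ((2:ℝ) ^ (i - 1)) :=
      sub_nonneg.2 (hmono (by omega))
    have t1 : lam t β i y * tv (ballW t i y) (ballW t i y') ≤ 24 * u * min β G := by
      rcases (lam_nonneg t β i y).eq_or_lt with h0 | h0
      · rw [← h0, zero_mul]; positivity
      have h1 : 0 < 2 - ghat t i y / β := by
        by_contra hc
        have hle : min 1 (2 - ghat t i y / β) ≤ 0 := (min_le_right _ _).trans (not_lt.1 hc)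
        have : lam t β i y ≤ 0 := max_le le_rfl hle
        linarith
      have h1' : ghat t i y < 2 * β := (div_lt_iff₀ (by linarith)).1 (by linarith)
      have hgm : logBall t y ((2:ℝ) ^ (i + 2)) - logBall t y ((2:ℝ) ^ (i - 1)) ≤ 2 * min β G := by
        rcases le_total β G with h | h
        · rw [min_eq_left h]; linarith
        · rw [min_eq_right h]; linarith
      calc lam t β i y * tv (ballW t i y) (ballW t i y')
          ≤ 1 * (12 * u * (logBall t y ((2:ℝ) ^ (i + 2)) - logBall t y ((2:ℝ) ^ (i - 1)))) :=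
            mul_le_mul (lam_le_one ..) (tv_ballW ht i hpos (by linarith)) (tv_nonneg _ _) zero_le_one
        _ ≤ 1 * (12 * u * (2 * min β G)) := by gcongr
        _ = _ := by ring
    have t2 : (1 - lam t β i y) * tv (P i y) (P i y') ≤ u * min β G := by
      rcases (lam_le_one t β i y).eq_or_lt with h0 | h0
      · rw [h0, sub_self, zero_mul]; positivity
      have h1 : 2 - ghat t i y / β < 1 := by
        by_contra hc
        have h' : (1:ℝ) ≤ lam t β i y := le_max_of_le_right (le_min le_rfl (not_lt.1 hc))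
        linarith
      have h1' : 1 * β < ghat t i y := (lt_div_iff₀ (by linarith)).1 (by linarith)
      rw [min_eq_left (by linarith : β ≤ G), mul_comm u]
      calc (1 - lam t β i y) * tv (P i y) (P i y') ≤ 1 * (β * u) :=
            mul_le_mul (by linarith [lam_nonneg t β i y]) (hPt i y y') (tv_nonneg _ _) zero_le_one
        _ = _ := by ring
    have hdiv : G / β ≤ min β G := by
      have hGn : G ≤ Real.log n :=
        (sub_le_self _ (logBall_nonneg _ _ _)).trans (logBall_le _ _ _)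
      refine le_min ?_ (div_le_self hG0 hβ)
      rw [div_le_iff₀ (by linarith)]
      nlinarith
    have t3 : |lam t β i y - lam t β i y'| * tv (ballW t i y') (P i y') ≤ 24 * u * min β G := by
      have h1 : |lam t β i y - lam t β i y'| ≤ 12 * u * min β G := by
        refine (abs_clamp_sub _ _).trans ?_
        have e : 2 - ghat t i y / β - (2 - ghat t i y' / β)
            = -((ghat t i y - ghat t i y') / β) := by ring
        rw [e, abs_neg, abs_div, abs_of_pos (by linarith : 0 < β)]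
        calc |ghat t i y - ghat t i y'| / β ≤ 12 * u * G / β :=
              div_le_div_of_nonneg_right hdg hβ0
          _ = 12 * u * (G / β) := by ring
          _ ≤ _ := by gcongr
      calc |lam t β i y - lam t β i y'| * tv (ballW t i y') (P i y') ≤ (12 * u * min β G) * 2 :=
            mul_le_mul h1 (tv_le_two (ballW_isW ht i y') (hPw i y')) (tv_nonneg _ _) (by positivity)
        _ = _ := by ring
    refine (tv_mix _ _ _ _ _ _ (lam_nonneg t β i y) (lam_le_one t β i y)).trans ?_
    rw [hGnu]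
    nlinarith

/-- The total capped growth over a range of scales. -/
lemma nuG_sum {p : ℝ} (hp : 1 ≤ p) (t : Fin n → Fin n → ℝ) {β : ℝ} (hβ : 0 ≤ β) (K : ℕ)
    (a b' : ℤ) (y : Fin n) :
    ∑ i ∈ Finset.Icc a b', nuG t β K i y ^ p
      ≤ (2:ℝ) ^ p * ((Finset.Icc a b').card + β ^ (p - 1) * (2 * K) * Real.log n) := by
  have hp0 : 0 ≤ p := by linarith
  set G : ℤ → ℝ := fun i => logBall t y ((2:ℝ) ^ (i + K)) - logBall t y ((2:ℝ) ^ (i - K)) with hG
  have hG0 : ∀ i, 0 ≤ G i := fun i => sub_nonneg.2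
    (logBall_mono t y (zpow_le_zpow_right₀ (by norm_num) (by omega)))
  have hterm : ∀ i, nuG t β K i y ^ p ≤ (2:ℝ) ^ p * (1 + β ^ (p - 1) * G i) := by
    intro i
    set x := min β (G i) with hx
    have hx0 : 0 ≤ x := le_min hβ (hG0 i)
    have h1 : x ^ p ≤ β ^ (p - 1) * G i := by
      calc x ^ p = x ^ (p - 1) * x := by
            have := Real.rpow_add_one' hx0 (y := p - 1) (by linarith)
            rwa [sub_add_cancel] at this
        _ ≤ β ^ (p - 1) * G i := mul_le_mul
            (Real.rpow_le_rpow hx0 (min_le_left _ _) (by linarith)) (min_le_right _ _) hx0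
            (Real.rpow_nonneg hβ _)
    have h2 : (1 + x) ^ p ≤ (2:ℝ) ^ p * (1 + x ^ p) := by
      rcases le_total x 1 with h | h
      · calc (1 + x) ^ p ≤ (2:ℝ) ^ p := Real.rpow_le_rpow (by linarith) (by linarith) hp0
          _ ≤ _ := le_mul_of_one_le_right (Real.rpow_nonneg zero_le_two _)
              (le_add_of_nonneg_right (Real.rpow_nonneg hx0 _))
      · calc (1 + x) ^ p ≤ (2 * x) ^ p := Real.rpow_le_rpow (by linarith) (by linarith) hp0
          _ = (2:ℝ) ^ p * x ^ p := Real.mul_rpow zero_le_two hx0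
          _ ≤ _ := mul_le_mul_of_nonneg_left (le_add_of_nonneg_left zero_le_one)
              (Real.rpow_nonneg zero_le_two _)
    exact h2.trans (mul_le_mul_of_nonneg_left (by linarith) (Real.rpow_nonneg zero_le_two _))
  have hsum : ∑ i ∈ Finset.Icc a b', G i ≤ (2 * K) * Real.log n := by
    rw [Int.Icc_eq_finset_map, Finset.sum_map]
    set f : ℕ → ℝ := fun j => logBall t y ((2:ℝ) ^ (a - K + j)) with hf
    calc ∑ j ∈ range (b' + 1 - a).toNat, G ((Nat.castEmbedding.trans (addLeftEmbedding a)) j)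
        = ∑ j ∈ range (b' + 1 - a).toNat, (f (j + 2 * K) - f j) := by
          refine Finset.sum_congr rfl fun j _ => ?_
          simp only [hG, hf, Function.Embedding.trans_apply, Nat.castEmbedding_apply,
            addLeftEmbedding_apply]
          push_cast
          ring_nf
      _ = ∑ j ∈ range (2 * K), (f ((b' + 1 - a).toNat + j) - f j) := sum_shift f _ _
      _ ≤ ∑ _j ∈ range (2 * K), Real.log n := Finset.sum_le_sum fun j _ =>
          (sub_le_self _ (logBall_nonneg _ _ _)).trans (logBall_le _ _ _)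
      _ = _ := by simp
  calc ∑ i ∈ Finset.Icc a b', nuG t β K i y ^ p
      ≤ ∑ i ∈ Finset.Icc a b', (2:ℝ) ^ p * (1 + β ^ (p - 1) * G i) :=
        Finset.sum_le_sum fun i _ => hterm i
    _ = (2:ℝ) ^ p * ((Finset.Icc a b').card + β ^ (p - 1) * ∑ i ∈ Finset.Icc a b', G i) := by
        rw [← Finset.mul_sum, Finset.sum_add_distrib, ← Finset.mul_sum]; simp
    _ ≤ _ := by
        refine mul_le_mul_of_nonneg_left ?_ (Real.rpow_nonneg zero_le_two _)
        rw [mul_assoc (β ^ (p - 1))]
        have := mul_le_mul_of_nonneg_left hsum (Real.rpow_nonneg hβ (p - 1))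
        linarith

end Vale.Agent.P249.Full
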