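import Vale.Agent.P249.Full.Spec

/-! Kernels with bounded support from separating weights, and separating weights for `2 ≤ p`. -/

namespace Vale.Agent.P249.Full

open Finset

namespace KernelMain

/-- The cut-off: one up to `2`, zero from `4` on. -/
noncomputable def chi (x : ℝ) : ℝ := min 1 (max 0 (2 - x / 2))

lemma chi_nonneg (x : ℝ) : 0 ≤ chi x := le_min zero_le_one (le_max_left _ _)

lemma chi_le_one (x : ℝ) : chi x ≤ 1 := min_le_left _ _

lemma chi_eq_one {x : ℝ} (h : x ≤ 2) : chi x = 1 :=
  min_eq_left (le_trans (by linarith) (le_max_right _ _))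

lemma chi_eq_zero {x : ℝ} (h : 4 ≤ x) : chi x = 0 := by
  rw [chi, max_eq_left (by linarith), min_eq_right zero_le_one]

lemma abs_chi_sub (x y : ℝ) : |chi x - chi y| ≤ |x - y| / 2 := by
  unfold chi
  refine (abs_min_sub_min_le_max _ _ _ _).trans ?_
  rw [sub_self, abs_zero, max_eq_right (abs_nonneg _)]
  refine (abs_max_sub_max_le_max _ _ _ _).trans ?_
  rw [sub_self, abs_zero, max_eq_right (abs_nonneg _),
    show 2 - x / 2 - (2 - y / 2) = (y - x) / 2 by ring, abs_div, abs_sub_comm y x]
  norm_num

lemma n_exp_le (n : ℕ) : (n:ℝ) * Real.exp (-(4 * logL n)) ≤ 1 / 2 := by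
  rcases Nat.eq_zero_or_pos n with rfl | hn
  · simp
  have hn' : (0:ℝ) < n := by exact_mod_cast hn
  calc (n:ℝ) * Real.exp (-(4 * logL n)) = Real.exp (-(3 * Real.log n + 4)) := by
        conv_lhs => rw [← Real.exp_log hn', ← Real.exp_add]
        congr 1
        unfold logL
        ring
    _ ≤ Real.exp (-1) := Real.exp_le_exp.2 (by linarith [Real.log_natCast_nonneg n])
    _ ≤ 1 / 2 := by
        rw [Real.exp_neg, one_div]
        exact inv_anti₀ two_pos (le_of_lt (by linarith [Real.add_one_lt_exp (one_ne_zero (α := ℝ))]))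

lemma exp_far_le {n : ℕ} (hn : 0 < n) : (n:ℝ) * Real.exp (-(2 * logL n)) ≤ 1 / logL n := by
  have hn' : (0:ℝ) < n := by exact_mod_cast hn
  have e : (n:ℝ) * Real.exp (-(2 * logL n)) = 1 / Real.exp (Real.log n + 2) := by
    rw [one_div, ← Real.exp_neg]
    conv_lhs => rw [← Real.exp_log hn', ← Real.exp_add]
    congr 1
    unfold logL
    ring
  rw [e]
  refine one_div_le_one_div_of_le (logL_pos n) ?_
  have := Real.add_one_le_exp (Real.log n + 2)
  unfold logL
  linarith

lemma abs_exp_sub (a b : ℝ) :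
    |Real.exp a - Real.exp b| ≤ |a - b| * (Real.exp a + Real.exp b) := by
  wlog hab : b ≤ a generalizing a b
  · rw [abs_sub_comm, abs_sub_comm a b, add_comm]
    exact this b a (le_of_lt (not_le.1 hab))
  rw [abs_of_nonneg (sub_nonneg.2 (Real.exp_le_exp.2 hab)), abs_of_nonneg (sub_nonneg.2 hab)]
  have h1 := Real.add_one_le_exp (b - a)
  rw [Real.exp_sub] at h1
  have h2 := (le_div_iff₀ (Real.exp_pos a)).1 h1
  nlinarith [Real.exp_pos b, mul_nonneg (sub_nonneg.2 hab) (Real.exp_pos b).le]

/-- Exponential ball weights. -/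
lemma exists_ball_weights {n : ℕ} {t : Fin n → Fin n → ℝ} (ht : FMetric t) {r : ℝ} (hr : 0 < r) :
    ∃ e : Fin n → Fin n → ℝ, (∀ y, IsW (e y)) ∧ (∀ y z, e y z ≠ 0 → t y z ≤ 4 * r) ∧
      ∀ y y', tv (e y) (e y') ≤ 12 * logL n * (t y y' / r) := by
  set L := logL n with hL
  have hL1 : 1 ≤ L := one_le_logL n
  set g : Fin n → Fin n → ℝ := fun y z => Real.exp (-(L * t y z / r)) with hg
  set a : Fin n → Fin n → ℝ := fun y z => max 0 (g y z - Real.exp (-(4 * L))) with ha
  have ha0 : ∀ y z, 0 ≤ a y z := fun y z => le_max_left _ _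
  set S : Fin n → ℝ := fun y => ∑ z, a y z with hS
  have hS1 : ∀ y, 1 / 2 ≤ S y := fun y => by
    have h1 : a y y ≤ S y := single_le_sum (fun z _ => ha0 y z) (mem_univ y)
    have h2 : 1 - Real.exp (-(4 * L)) ≤ a y y := by
      refine le_trans ?_ (le_max_right _ _)
      simp [hg, ht.self]
    have h3 : Real.exp (-(4 * L)) ≤ (n:ℝ) * Real.exp (-(4 * L)) :=
      le_mul_of_one_le_left (Real.exp_pos _).le (by exact_mod_cast y.pos)
    have := n_exp_le n
    linarith
  have hS0 : ∀ y, 0 < S y := fun y => by linarith [hS1 y]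
  have hgsum : ∀ y, ∑ z, g y z ≤ S y + 1 / 2 := fun y => by
    calc ∑ z, g y z ≤ ∑ z, (a y z + Real.exp (-(4 * L))) := sum_le_sum fun z _ => by
          have := le_max_right (0:ℝ) (g y z - Real.exp (-(4 * L)))
          simp only [ha]; linarith
      _ ≤ S y + 1 / 2 := by
          rw [sum_add_distrib]
          simp only [sum_const, card_univ, Fintype.card_fin, nsmul_eq_mul]
          have := n_exp_le n
          linarith
  refine ⟨fun y z => a y z / S y, fun y => ⟨fun z => div_nonneg (ha0 y z) (hS0 y).le, ?_⟩, ?_, ?_⟩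
  · rw [← sum_div]; exact div_self (hS0 y).ne'
  · intro y z h
    by_contra hlt
    apply h
    have h1 : g y z ≤ Real.exp (-(4 * L)) := by
      refine Real.exp_le_exp.2 (neg_le_neg ?_)
      rw [le_div_iff₀ hr]
      nlinarith [not_le.1 hlt]
    simp [ha, max_eq_left (sub_nonpos.2 h1)]
  · intro y y'
    have hu : 0 ≤ t y y' / r := div_nonneg (ht.nonneg y y') hr.le
    have hD : ∑ z, |a y z - a y' z| ≤ L * (t y y' / r) * (S y + S y' + 1) := by
      calc ∑ z, |a y z - a y' z| ≤ ∑ z, L * (t y y' / r) * (g y z + g y' z) := by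
            refine sum_le_sum fun z _ => ?_
            refine (abs_max_sub_max_le_max _ _ _ _).trans ?_
            rw [sub_self, abs_zero, max_eq_right (abs_nonneg _), sub_sub_sub_cancel_right]
            refine (abs_exp_sub _ _).trans (mul_le_mul_of_nonneg_right ?_ (by positivity))
            rw [show -(L * t y z / r) - -(L * t y' z / r) = L * ((t y' z - t y z) / r) by ring,
              abs_mul, abs_of_pos (by linarith), abs_div, abs_of_pos hr]
            refine mul_le_mul_of_nonneg_left (div_le_div_of_nonneg_right ?_ hr.le) (by linarith)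
            have h1 := ht.tri y y' z
            have h2 := ht.tri y' y z
            rw [ht.symm y' y] at h2
            exact abs_le.2 ⟨by linarith, by linarith⟩
        _ ≤ _ := by
            rw [← mul_sum, sum_add_distrib]
            exact mul_le_mul_of_nonneg_left (by linarith [hgsum y, hgsum y']) (by positivity)
    have key : ∀ x x' : Fin n, tv (fun z => a x z / S x) (fun z => a x' z / S x')
        ≤ 2 * (∑ z, |a x z - a x' z|) / S x := by
      intro x x'
      calc tv (fun z => a x z / S x) (fun z => a x' z / S x')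
          ≤ ∑ z, (|a x z - a x' z| / S x + a x' z / S x' * (|S x' - S x| / S x)) := by
            refine sum_le_sum fun z _ => ?_
            simp only
            have e : a x z / S x - a x' z / S x'
                = (a x z - a x' z) / S x + a x' z / S x' * ((S x' - S x) / S x) := by
              field_simp [(hS0 x).ne', (hS0 x').ne']
              ring
            rw [e]
            refine (abs_add_le _ _).trans_eq ?_
            rw [abs_mul, abs_div, abs_div, abs_div, abs_of_pos (hS0 x), abs_of_pos (hS0 x'),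
              abs_of_nonneg (ha0 x' z)]
        _ ≤ _ := by
            rw [sum_add_distrib, ← sum_div, ← sum_mul, ← sum_div, div_self (hS0 x').ne', one_mul]
            rw [← add_div]
            refine div_le_div_of_nonneg_right ?_ (hS0 x).le
            have : |S x' - S x| ≤ ∑ z, |a x z - a x' z| := by
              rw [abs_sub_comm, hS]; simp only
              rw [← sum_sub_distrib]; exact abs_sum_le_sum_abs _ _
            linarith
    rcases le_total (S y') (S y) with hle | hle
    · refine (key y y').trans ((div_le_iff₀ (hS0 y)).2 ?_)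
      calc 2 * ∑ z, |a y z - a y' z| ≤ 2 * (L * (t y y' / r) * (S y + S y' + 1)) := by linarith
        _ ≤ 2 * (L * (t y y' / r) * (6 * S y)) := by gcongr; linarith [hS1 y]
        _ = _ := by ring
    · rw [tv_comm]
      refine (key y' y).trans ((div_le_iff₀ (hS0 y')).2 ?_)
      have hsw : ∑ z, |a y' z - a y z| = ∑ z, |a y z - a y' z| :=
        sum_congr rfl fun z _ => abs_sub_comm _ _
      rw [hsw]
      calc 2 * ∑ z, |a y z - a y' z| ≤ 2 * (L * (t y y' / r) * (S y + S y' + 1)) := by linarith
        _ ≤ 2 * (L * (t y y' / r) * (6 * S y')) := by gcongr; linarith [hS1 y']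
        _ = _ := by ring

/-- The odd power map. -/
noncomputable def oddPow (q x : ℝ) : ℝ := if 0 ≤ x then x ^ q else -((-x) ^ q)

lemma oddPow_neg {q : ℝ} (hq : 0 < q) (x : ℝ) : oddPow q (-x) = -oddPow q x := by
  unfold oddPow
  rcases lt_trichotomy x 0 with h | rfl | h
  · rw [if_pos (by linarith), if_neg (not_le.2 h), neg_neg]
  · simp [Real.zero_rpow hq.ne']
  · rw [if_neg (by linarith), if_pos h.le, neg_neg]

lemma oddPow_of_nonneg {q x : ℝ} (hx : 0 ≤ x) : oddPow q x = x ^ q := if_pos hx

lemma oddPow_bounds_core {q : ℝ} (hq : 1 ≤ q) {a b : ℝ} (ha : 0 ≤ a) (hab : |b| ≤ a) :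
    oddPow q a - oddPow q b ≤ q * (a - b) * a ^ (q - 1) ∧
      (a - b) ^ q / 2 ^ q ≤ oddPow q a - oddPow q b := by
  have hq0 : 0 < q := by linarith
  obtain ⟨hb1, hb2⟩ := abs_le.1 hab
  rw [oddPow_of_nonneg ha]
  rcases le_or_gt 0 b with hb | hb
  · rw [oddPow_of_nonneg hb]
    constructor
    · rcases ha.eq_or_lt with rfl | hapos
      · have : b = 0 := by linarith
        subst this; simp
      have hB := one_add_mul_self_le_rpow_one_add (s := b / a - 1)
        (by linarith [div_nonneg hb ha]) hq
      rw [show 1 + (b / a - 1) = b / a by ring, Real.div_rpow hb ha,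
        le_div_iff₀ (Real.rpow_pos_of_pos hapos q)] at hB
      have e : a ^ q = a * a ^ (q - 1) := by
        conv_rhs => arg 1; rw [← Real.rpow_one a]
        rw [← Real.rpow_add hapos, add_sub_cancel]
      have e2 : q * (b / a - 1) * a ^ q = q * (b - a) * a ^ (q - 1) := by
        rw [e]; field_simp
      nlinarith
    · have h1 : (a - b) ^ q + b ^ q ≤ ((a - b) + b) ^ q :=
        Real.add_rpow_le_rpow_add (by linarith) hb hq
      rw [sub_add_cancel] at h1
      have h2 : (a - b) ^ q / 2 ^ q ≤ (a - b) ^ q :=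
        div_le_self (Real.rpow_nonneg (by linarith) q) (Real.one_le_rpow one_le_two hq0.le)
      linarith
  · have hapos : 0 < a := by linarith
    rw [show oddPow q b = -((-b) ^ q) from if_neg (not_le.2 hb), sub_neg_eq_add]
    have e : ∀ x : ℝ, 0 < x → x ^ q = x * x ^ (q - 1) := fun x hx => by
      conv_rhs => arg 1; rw [← Real.rpow_one x]
      rw [← Real.rpow_add hx, add_sub_cancel]
    constructor
    · have h1 : (-b) ^ (q - 1) ≤ a ^ (q - 1) :=
        Real.rpow_le_rpow (by linarith) (by linarith) (by linarith)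
      have h2 : a ^ q + (-b) ^ q ≤ (a - b) * a ^ (q - 1) := by
        rw [e a hapos, e (-b) (by linarith)]
        nlinarith
      have h3 : 0 ≤ (a - b) * a ^ (q - 1) :=
        mul_nonneg (by linarith) (Real.rpow_nonneg ha _)
      nlinarith [mul_le_mul_of_nonneg_right hq h3]
    · have h1 : (a - b) ^ q ≤ 2 ^ q * a ^ q := by
        rw [← Real.mul_rpow zero_le_two ha]
        exact Real.rpow_le_rpow (by linarith) (by linarith) hq0.le
      rw [div_le_iff₀ (Real.rpow_pos_of_pos two_pos q)]
      nlinarith [Real.rpow_nonneg (show 0 ≤ -b by linarith) q, Real.rpow_pos_of_pos (two_pos (α := ℝ)) q]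

lemma oddPow_bounds {q : ℝ} (hq : 1 ≤ q) (a b : ℝ) :
    |oddPow q a - oddPow q b| ≤ q * |a - b| * max |a| |b| ^ (q - 1) ∧
      |a - b| ^ q / 2 ^ q ≤ |oddPow q a - oddPow q b| := by
  have hq0 : 0 < q := by linarith
  wlog hab : |b| ≤ |a| generalizing a b
  · rw [abs_sub_comm, abs_sub_comm a b, max_comm]
    exact this b a (le_of_lt (not_le.1 hab))
  wlog ha : 0 ≤ a generalizing a b
  · have := this (-a) (-b) (by simpa using hab) (by linarith [not_le.1 ha])
    rw [oddPow_neg hq0, oddPow_neg hq0, show -oddPow q a - -oddPow q b = -(oddPow q a - oddPow q b)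
      by ring, show -a - -b = -(a - b) by ring, abs_neg, abs_neg, abs_neg, abs_neg] at this
    exact this
  rw [abs_of_nonneg ha] at hab
  obtain ⟨h1, h2⟩ := oddPow_bounds_core hq ha hab
  have hba : b ≤ a := (abs_le.1 hab).2
  have h0 : 0 ≤ oddPow q a - oddPow q b :=
    le_trans (div_nonneg (Real.rpow_nonneg (sub_nonneg.2 hba) q)
      (Real.rpow_nonneg zero_le_two q)) h2
  rw [abs_of_nonneg h0, abs_of_nonneg (sub_nonneg.2 hba), abs_of_nonneg ha, max_eq_left hab]
  exact ⟨h1, h2⟩

/-- The Mazur map is Lipschitz on the unit ball. -/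
lemma mazur_lip {p : ℝ} (hp : 2 ≤ p) {N : ℕ} (a b : Fin N → ℝ)
    (ha : ∑ k, |a k| ^ p ≤ 1) (hb : ∑ k, |b k| ^ p ≤ 1) :
    ∑ k, (oddPow (p / 2) (a k) - oddPow (p / 2) (b k)) ^ 2
      ≤ 3 * (p / 2) ^ 2 * lpN p (fun k => a k - b k) ^ 2 := by
  have hp0 : 0 < p := by linarith
  set δ := lpN p (fun k => a k - b k) with hδ
  have hδ0 : 0 ≤ δ := lpN_nonneg _ _
  have hsum : ∑ k, |a k - b k| ^ p = δ ^ p := (lpN_rpow hp0 _).symm
  rcases hδ0.eq_or_lt with h | hδpos
  · have heq : ∀ k, a k = b k := fun k => by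
      have h1 : |a k - b k| ^ p ≤ δ ^ p :=
        hsum ▸ single_le_sum (f := fun k => |a k - b k| ^ p)
          (fun k _ => Real.rpow_nonneg (abs_nonneg _) _) (mem_univ k)
      rw [← h, Real.zero_rpow hp0.ne'] at h1
      have h2 := (Real.rpow_eq_zero (abs_nonneg _) hp0.ne').1
        (le_antisymm h1 (Real.rpow_nonneg (abs_nonneg _) _))
      linarith [abs_eq_zero.1 h2]
    simp only [heq, sub_self, ne_eq, OfNat.ofNat_ne_zero, not_false_eq_true, zero_pow, sum_const_zero]
    positivity
  have hterm : ∀ k, (oddPow (p / 2) (a k) - oddPow (p / 2) (b k)) ^ 2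
      ≤ (p / 2) ^ 2 * δ ^ 2 * ((|a k - b k| / δ) ^ p + |a k| ^ p + |b k| ^ p) := by
    intro k
    have h := (oddPow_bounds (q := p / 2) (by linarith) (a k) (b k)).1
    set x := |a k - b k| / δ with hx
    set m := max |a k| |b k| with hm
    have hx0 : 0 ≤ x := by positivity
    have hm0 : 0 ≤ m := le_trans (abs_nonneg _) (le_max_left _ _)
    have hkey : (x * m ^ (p / 2 - 1)) ^ 2 ≤ x ^ p + |a k| ^ p + |b k| ^ p := by
      have hA := Real.rpow_nonneg (abs_nonneg (a k)) p
      have hB := Real.rpow_nonneg (abs_nonneg (b k)) p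
      have e2 : ∀ y : ℝ, 0 ≤ y → (y * y ^ (p / 2 - 1)) ^ 2 = y ^ p := fun y hy => by
        rcases hy.eq_or_lt with rfl | hy'
        · simp [Real.zero_rpow hp0.ne']
        rw [← Real.rpow_natCast]
        conv_lhs => arg 1; arg 1; rw [← Real.rpow_one y]
        rw [← Real.rpow_add hy', ← Real.rpow_mul hy]
        congr 1; push_cast; ring
      rcases le_total x m with hxm | hxm
      · have h1 : (x * m ^ (p / 2 - 1)) ^ 2 ≤ m ^ p := by
          rw [← e2 m hm0]; gcongr
        have h2 : m ^ p ≤ |a k| ^ p + |b k| ^ p := by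
          rcases max_choice |a k| |b k| with e | e <;> rw [hm, e] <;> linarith
        linarith [Real.rpow_nonneg hx0 p]
      · have h1 : (x * m ^ (p / 2 - 1)) ^ 2 ≤ x ^ p := by
          rw [← e2 x hx0]
          have : m ^ (p / 2 - 1) ≤ x ^ (p / 2 - 1) := Real.rpow_le_rpow hm0 hxm (by linarith)
          gcongr
        linarith
    have e : p / 2 * |a k - b k| * m ^ (p / 2 - 1) = p / 2 * δ * (x * m ^ (p / 2 - 1)) := by
      rw [hx]; field_simp
    rw [e] at h
    calc (oddPow (p / 2) (a k) - oddPow (p / 2) (b k)) ^ 2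
        = |oddPow (p / 2) (a k) - oddPow (p / 2) (b k)| ^ 2 := (sq_abs _).symm
      _ ≤ (p / 2 * δ * (x * m ^ (p / 2 - 1))) ^ 2 := by gcongr
      _ = (p / 2) ^ 2 * δ ^ 2 * (x * m ^ (p / 2 - 1)) ^ 2 := by ring
      _ ≤ _ := mul_le_mul_of_nonneg_left hkey (by positivity)
  have hx1 : ∑ k, (|a k - b k| / δ) ^ p = 1 := by
    simp only [Real.div_rpow (abs_nonneg _) hδ0, ← sum_div, hsum]
    exact div_self (Real.rpow_pos_of_pos hδpos p).ne'
  calc _ ≤ ∑ k, (p / 2) ^ 2 * δ ^ 2 * ((|a k - b k| / δ) ^ p + |a k| ^ p + |b k| ^ p) :=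
        sum_le_sum fun k _ => hterm k
    _ = (p / 2) ^ 2 * δ ^ 2 * (1 + ∑ k, |a k| ^ p + ∑ k, |b k| ^ p) := by
        rw [← mul_sum, sum_add_distrib, sum_add_distrib, hx1]
    _ ≤ (p / 2) ^ 2 * δ ^ 2 * 3 := mul_le_mul_of_nonneg_left (by linarith) (by positivity)
    _ = _ := by ring

/-- The Mazur map separates. -/
lemma mazur_sep {p : ℝ} (hp : 2 ≤ p) {N : ℕ} (a b : Fin N → ℝ) :
    (∑ k, |a k - b k| ^ p) / 2 ^ p
      ≤ ∑ k, (oddPow (p / 2) (a k) - oddPow (p / 2) (b k)) ^ 2 := by
  rw [sum_div]
  refine sum_le_sum fun k _ => ?_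
  have h := (oddPow_bounds (q := p / 2) (by linarith) (a k) (b k)).2
  have h0 : 0 ≤ |a k - b k| ^ (p / 2) / 2 ^ (p / 2) := by positivity
  have e : ∀ y : ℝ, 0 ≤ y → y ^ p = (y ^ (p / 2)) ^ 2 := fun y hy => by
    rw [← Real.rpow_natCast (y ^ (p / 2)), ← Real.rpow_mul hy]
    congr 1; push_cast; ring
  rw [e _ (abs_nonneg _), e 2 zero_le_two, ← div_pow, ← sq_abs (oddPow _ _ - _)]
  gcongr

end KernelMain

open KernelMain

/-- Weights with little mass far away give a kernel of bounded support. -/
theorem kernel_of_sep {p : ℝ} (hp : 1 ≤ p) (h : SepStmt p) : KernelStmt p := by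
  obtain ⟨ϑ, C, h1, h2, hC, h⟩ := h
  refine ⟨ϑ, 2 * C + 14, h1, h2, by linarith, fun n hn N X hX r hr => ?_⟩
  obtain ⟨w, hw, hwtv, hfar⟩ := h n hn N X hX r hr
  have ht := fmetric_lpD hp hX
  set t := lpD p X with htdef
  obtain ⟨e, he, hesupp, hetv⟩ := exists_ball_weights ht hr
  set L := logL n with hL
  have hL0 : 0 < L := logL_pos n
  set kept : Fin n → ℝ := fun y => ∑ z, chi (t y z / r) * w y z with hkept
  have hlost0 : ∀ y, kept y ≤ 1 := fun y => by
    rw [← (hw y).sum_one]
    exact sum_le_sum fun z _ => mul_le_of_le_one_left ((hw y).nonneg z) (chi_le_one _)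
  have hlost : ∀ y, 1 - kept y ≤ 1 / L := fun y => by
    refine le_trans ?_ (hfar y)
    rw [← (hw y).sum_one, hkept]
    simp only
    rw [← sum_sub_distrib, sum_filter]
    refine sum_le_sum fun z _ => ?_
    split_ifs with hz
    · linarith [mul_nonneg (chi_nonneg (t y z / r)) ((hw y).nonneg z)]
    · rw [chi_eq_one ((div_le_iff₀ hr).2 (by linarith [not_lt.1 hz]))]; simp
  refine ⟨fun y z => chi (t y z / r) * w y z + (1 - kept y) * e y z, fun y => ⟨fun z => ?_, ?_⟩,
    fun y z hyz => ?_, fun y y' => ?_⟩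
  · exact add_nonneg (mul_nonneg (chi_nonneg _) ((hw y).nonneg z))
      (mul_nonneg (sub_nonneg.2 (hlost0 y)) ((he y).nonneg z))
  · rw [sum_add_distrib, ← mul_sum, (he y).sum_one, mul_one, hkept]
    ring
  · by_contra hlt
    apply hyz
    have e1 : chi (t y z / r) = 0 := chi_eq_zero ((le_div_iff₀ hr).2 (not_le.1 hlt).le)
    have e2 : e y z = 0 := by_contra fun hne => hlt (hesupp y z hne)
    simp [e1, e2]
  · set u := t y y' / r with hu
    have hu0 : 0 ≤ u := div_nonneg (ht.nonneg y y') hr.le
    have hchi : ∀ z, |chi (t y z / r) - chi (t y' z / r)| ≤ u / 2 := fun z => by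
      refine (abs_chi_sub _ _).trans (div_le_div_of_nonneg_right ?_ two_pos.le)
      rw [← sub_div, abs_div, abs_of_pos hr, hu]
      refine div_le_div_of_nonneg_right ?_ hr.le
      have h1 := ht.tri y y' z
      have h2 := ht.tri y' y z
      rw [ht.symm y' y] at h2
      exact abs_le.2 ⟨by linarith, by linarith⟩
    have hA : ∑ z, |chi (t y z / r) * w y z - chi (t y' z / r) * w y' z|
        ≤ u / 2 + tv (w y) (w y') := by
      calc _ ≤ ∑ z, (u / 2 * w y z + |w y z - w y' z|) := sum_le_sum fun z _ => by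
            rw [show chi (t y z / r) * w y z - chi (t y' z / r) * w y' z
              = (chi (t y z / r) - chi (t y' z / r)) * w y z
                + chi (t y' z / r) * (w y z - w y' z) by ring]
            refine (abs_add_le _ _).trans (add_le_add ?_ ?_)
            · rw [abs_mul, abs_of_nonneg ((hw y).nonneg z)]
              exact mul_le_mul_of_nonneg_right (hchi z) ((hw y).nonneg z)
            · rw [abs_mul, abs_of_nonneg (chi_nonneg _)]
              exact mul_le_of_le_one_left (abs_nonneg _) (chi_le_one _)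
        _ = _ := by rw [sum_add_distrib, ← mul_sum, (hw y).sum_one, mul_one]; rfl
    have hK : |kept y - kept y'| ≤ u / 2 + tv (w y) (w y') := by
      refine le_trans ?_ hA
      rw [hkept]; simp only
      rw [← sum_sub_distrib]
      exact abs_sum_le_sum_abs _ _
    have hB : ∑ z, |(1 - kept y) * e y z - (1 - kept y') * e y' z|
        ≤ |kept y - kept y'| + 12 * u := by
      calc _ ≤ ∑ z, (|kept y - kept y'| * e y z + 1 / L * |e y z - e y' z|) :=
            sum_le_sum fun z _ => by
            rw [show (1 - kept y) * e y z - (1 - kept y') * e y' z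
              = (kept y' - kept y) * e y z + (1 - kept y') * (e y z - e y' z) by ring]
            refine (abs_add_le _ _).trans (add_le_add ?_ ?_)
            · rw [abs_mul, abs_sub_comm, abs_of_nonneg ((he y).nonneg z)]
            · rw [abs_mul, abs_of_nonneg (sub_nonneg.2 (hlost0 y'))]
              exact mul_le_mul_of_nonneg_right (hlost y') (abs_nonneg _)
        _ ≤ _ := by
            rw [sum_add_distrib, ← mul_sum, ← mul_sum, (he y).sum_one, mul_one]
            refine add_le_add le_rfl ?_
            calc 1 / L * ∑ z, |e y z - e y' z| ≤ 1 / L * (12 * L * u) :=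
                  mul_le_mul_of_nonneg_left (hetv y y') (by positivity)
              _ = 12 * u := by field_simp
    have h1L : 1 ≤ L ^ ϑ := Real.one_le_rpow (one_le_logL n) (by linarith)
    have hLu : u ≤ L ^ ϑ * u := le_mul_of_one_le_left hu0 h1L
    calc tv _ _ ≤ ∑ z, (|chi (t y z / r) * w y z - chi (t y' z / r) * w y' z|
          + |(1 - kept y) * e y z - (1 - kept y') * e y' z|) := sum_le_sum fun z _ => by
            refine le_trans (le_of_eq ?_) (abs_add_le _ _)
            simp only; congr 1; ring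
      _ ≤ 2 * tv (w y) (w y') + 14 * u := by rw [sum_add_distrib]; linarith
      _ ≤ 2 * (C * L ^ ϑ * u) + 14 * (L ^ ϑ * u) := by linarith [hwtv y y']
      _ = _ := by ring

/-- Separating weights for `2 ≤ p`, from tilted bits. -/
theorem sep_large {p : ℝ} (hp : 2 ≤ p) (hT : TiltedStmt) : SepStmt p := by
  obtain ⟨c, hc, hT⟩ := hT
  have hp0 : 0 < p := by linarith
  have hp1 : 1 ≤ p := by linarith
  set K : ℝ := 2 * (4:ℝ) ^ p / c with hK
  have hK0 : 0 < K := by positivity
  refine ⟨1 - 1 / (2 * p), 12 + Real.sqrt K * p, ?_, ?_, by positivity, fun n hn N X hX r hr => ?_⟩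
  · have : 1 / (2 * p) ≤ 1 / 4 := one_div_le_one_div_of_le (by norm_num) (by linarith)
    linarith
  · have : 0 < 1 / (2 * p) := by positivity
    linarith
  have ht := fmetric_lpD hp1 hX
  set t := lpD p X with htdef
  set L := logL n with hL
  have hL0 : 0 < L := logL_pos n
  set A : ℝ := L ^ (1 / (2 * p)) with hA
  have hA0 : 0 < A := Real.rpow_pos_of_pos hL0 _
  obtain ⟨μ, hμ, hμsupp, hμtv⟩ := exists_ball_weights ht (mul_pos hA0 hr)
  set S := 4 * A * r with hS
  have hS0 : 0 < S := by positivity
  set lam := Real.sqrt (K * L) * A ^ (p / 2) with hlam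
  have hlam0 : 0 ≤ lam := by positivity
  set a : Fin n → Fin n → Fin N → ℝ := fun c y k => (X y k - X c k) / S with ha
  have hnorm : ∀ (g : Fin N → ℝ), lpN p (fun k => g k / S) = lpN p g / S := fun g => by
    have := lpN_mul hp0 S⁻¹ g
    simpa [div_eq_inv_mul, abs_of_pos hS0] using this
  have hdiff : ∀ c y y', lpN p (fun k => a c y k - a c y' k) = t y y' / S := fun c y y' => by
    rw [show (fun k => a c y k - a c y' k) = fun k => (X y k - X y' k) / S by
      funext k; simp only [ha]; ring, hnorm]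
    rfl
  choose W hW hWtv hWfar using fun ctr : Fin n =>
    hT n N (by omega) fun y k => lam * oddPow (p / 2) (a ctr y k)
  refine ⟨fun y z => ∑ ctr, μ y ctr * W ctr y z, fun y => ⟨fun z => ?_, ?_⟩, fun y y' => ?_,
    fun y => ?_⟩
  · exact sum_nonneg fun i _ => mul_nonneg ((hμ y).nonneg i) ((hW i y).nonneg z)
  · rw [sum_comm]
    simp only [← mul_sum, (hW _ y).sum_one, mul_one, (hμ y).sum_one]
  · set u := t y y' / r with hu
    have hu0 : 0 ≤ u := div_nonneg (ht.nonneg y y') hr.le
    have hmin : ∀ i, min (μ y i) (μ y' i) * tv (W i y) (W i y')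
        ≤ min (μ y i) (μ y' i) * (lam * (p * (t y y' / S))) := by
      intro i
      rcases eq_or_ne (min (μ y i) (μ y' i)) 0 with h | h
      · simp [h]
      have hpos : 0 < min (μ y i) (μ y' i) :=
        lt_of_le_of_ne (le_min ((hμ y).nonneg i) ((hμ y').nonneg i)) (Ne.symm h)
      have hball : ∀ x, 0 < μ x i → ∑ k, |a i x k| ^ p ≤ 1 := fun x hx => by
        rw [← lpN_rpow hp0]
        refine Real.rpow_le_one (lpN_nonneg _ _) ?_ hp0.le
        simp only [ha, hnorm]
        rw [div_le_one hS0]
        have := hμsupp x i hx.ne'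
        show t x i ≤ S
        rw [hS]; linarith
      refine mul_le_mul_of_nonneg_left ((hWtv i y y').trans ?_) hpos.le
      rw [Real.sqrt_le_left (by have := ht.nonneg y y'; positivity)]
      have h3 := mazur_lip hp (a i y) (a i y')
        (hball y (lt_of_lt_of_le hpos (min_le_left _ _)))
        (hball y' (lt_of_lt_of_le hpos (min_le_right _ _)))
      rw [hdiff] at h3
      simp only [← mul_sub, mul_pow, ← mul_sum]
      refine mul_le_mul_of_nonneg_left (h3.trans ?_) (sq_nonneg _)
      nlinarith [mul_nonneg (sq_nonneg p) (sq_nonneg (t y y' / S))]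
    have hmix : tv (fun z => ∑ ctr, μ y ctr * W ctr y z) (fun z => ∑ ctr, μ y' ctr * W ctr y' z)
        ≤ tv (μ y) (μ y') + ∑ i, min (μ y i) (μ y' i) * tv (W i y) (W i y') := by
      calc _ ≤ ∑ z, ∑ i, |μ y i * W i y z - μ y' i * W i y' z| := sum_le_sum fun z _ => by
            rw [← sum_sub_distrib]; exact abs_sum_le_sum_abs _ _
        _ = ∑ i, ∑ z, |μ y i * W i y z - μ y' i * W i y' z| := sum_comm
        _ ≤ ∑ i, (|μ y i - μ y' i| + min (μ y i) (μ y' i) * tv (W i y) (W i y')) :=
            sum_le_sum fun i _ => ?_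
        _ = _ := by rw [sum_add_distrib]; rfl
      set m := min (μ y i) (μ y' i) with hm
      have h1 : m ≤ μ y i := min_le_left _ _
      have h2 : m ≤ μ y' i := min_le_right _ _
      have h3 : μ y i - m + (μ y' i - m) = |μ y i - μ y' i| := by
        rcases le_total (μ y i) (μ y' i) with h | h
        · rw [hm, min_eq_left h, abs_of_nonpos (by linarith)]; ring
        · rw [hm, min_eq_right h, abs_of_nonneg (by linarith)]; ring
      have hm0 : 0 ≤ m := le_min ((hμ y).nonneg i) ((hμ y').nonneg i)
      calc ∑ z, |μ y i * W i y z - μ y' i * W i y' z|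
          ≤ ∑ z, ((μ y i - m) * W i y z + (μ y' i - m) * W i y' z
              + m * |W i y z - W i y' z|) := sum_le_sum fun z _ => by
            have p1 := mul_nonneg (sub_nonneg.2 h1) ((hW i y).nonneg z)
            have p2 := mul_nonneg (sub_nonneg.2 h2) ((hW i y').nonneg z)
            have p3 := mul_le_mul_of_nonneg_left (le_abs_self (W i y z - W i y' z)) hm0
            have p4 := mul_le_mul_of_nonneg_left (neg_abs_le (W i y z - W i y' z)) hm0
            exact abs_le.2 ⟨by nlinarith, by nlinarith⟩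
        _ = _ := by
            rw [sum_add_distrib, sum_add_distrib, ← mul_sum, ← mul_sum, ← mul_sum,
              (hW i y).sum_one, (hW i y').sum_one, ← h3]
            simp only [tv]; ring
    have hsum : ∑ i, min (μ y i) (μ y' i) * (lam * (p * (t y y' / S)))
        ≤ 1 * (lam * (p * (t y y' / S))) := by
      rw [← sum_mul, ← (hμ y).sum_one]
      refine mul_le_mul_of_nonneg_right (sum_le_sum fun i _ => min_le_left _ _) ?_
      have := ht.nonneg y y'
      positivity
    have eA : L / A = L ^ (1 - 1 / (2 * p)) := by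
      rw [hA, Real.rpow_sub hL0, Real.rpow_one]
    have e1 : L * (t y y' / (A * r)) = L ^ (1 - 1 / (2 * p)) * u := by
      rw [← eA, hu]; field_simp
    have e2 : lam * (p * (t y y' / S)) ≤ Real.sqrt K * p * (L ^ (1 - 1 / (2 * p)) * u) := by
      have hexp : Real.sqrt L * A ^ (p / 2) / A ≤ L ^ (1 - 1 / (2 * p)) := by
        rw [Real.sqrt_eq_rpow, hA, ← Real.rpow_mul hL0.le, ← Real.rpow_add hL0,
          ← Real.rpow_sub hL0]
        refine Real.rpow_le_rpow_of_exponent_le (one_le_logL n) ?_
        field_simp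
        nlinarith
      have e : lam * (p * (t y y' / S))
          = Real.sqrt K * p / 4 * (Real.sqrt L * A ^ (p / 2) / A * u) := by
        rw [hlam, Real.sqrt_mul hK0.le, hS, hu]; field_simp
      rw [e]
      refine mul_le_mul ?_ (mul_le_mul_of_nonneg_right hexp hu0) (by positivity) (by positivity)
      linarith [mul_nonneg (Real.sqrt_nonneg K) hp0.le]
    calc _ ≤ tv (μ y) (μ y') + ∑ i, min (μ y i) (μ y' i) * tv (W i y) (W i y') := hmix
      _ ≤ 12 * L * (t y y' / (A * r)) + 1 * (lam * (p * (t y y' / S))) :=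
          add_le_add (hμtv y y') ((sum_le_sum fun i _ => hmin i).trans hsum)
      _ ≤ _ := by rw [mul_assoc 12, e1]; linarith
  · calc ∑ z ∈ univ.filter (fun z => 2 * r < t y z), ∑ ctr, μ y ctr * W ctr y z
        ≤ ∑ _z ∈ univ.filter (fun z => 2 * r < t y z), Real.exp (-(2 * L)) := ?_
      _ ≤ (n:ℝ) * Real.exp (-(2 * L)) := by
          rw [sum_const, nsmul_eq_mul]
          refine mul_le_mul_of_nonneg_right ?_ (Real.exp_pos _).le
          exact_mod_cast le_trans (card_le_univ _) (Fintype.card_fin n).le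
      _ ≤ 1 / L := exp_far_le (by omega)
    refine sum_le_sum fun z hz => ?_
    have hz : 2 * r < t y z := (mem_filter.1 hz).2
    calc ∑ ctr, μ y ctr * W ctr y z ≤ ∑ ctr, μ y ctr * Real.exp (-(2 * L)) := by
          refine sum_le_sum fun i _ => mul_le_mul_of_nonneg_left ?_ ((hμ y).nonneg i)
          refine (hWfar i y z).trans (Real.exp_le_exp.2 (neg_le_neg ?_))
          simp only [← mul_sub, mul_pow, ← mul_sum]
          have h1 := mazur_sep hp (a i y) (a i z)
          rw [← lpN_rpow hp0, hdiff] at h1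
          have h2 : (1 / (2 * A)) ^ p / 2 ^ p ≤ (t y z / S) ^ p / 2 ^ p := by
            refine div_le_div_of_nonneg_right (Real.rpow_le_rpow (by positivity) ?_ hp0.le)
              (by positivity)
            rw [hS, div_le_div_iff₀ (by positivity) (by positivity)]
            nlinarith [mul_pos hA0 hr]
          have e3 : lam ^ 2 * ((1 / (2 * A)) ^ p / 2 ^ p) = 2 * L / c := by
            have hsq : (A ^ (p / 2)) ^ 2 = A ^ p := by
              rw [← Real.rpow_natCast, ← Real.rpow_mul hA0.le]; congr 1; push_cast; ring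
            rw [hlam, mul_pow, Real.sq_sqrt (by positivity), hsq, one_div,
              Real.inv_rpow (by positivity), Real.mul_rpow zero_le_two hA0.le, hK,
              show (4:ℝ) = 2 * 2 by norm_num, Real.mul_rpow zero_le_two zero_le_two]
            field_simp
          have h3 := mul_le_mul_of_nonneg_left (h2.trans h1) (sq_nonneg lam)
          rw [e3, div_le_iff₀' hc] at h3
          exact h3
      _ = Real.exp (-(2 * L)) := by rw [← sum_mul, (hμ y).sum_one, one_mul]

end Vale.Agent.P249.Full
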