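import Mathlib
import Vale.Agent.P249.Full.SplitSpec

/-! Properties of majority means. -/

namespace Vale.Agent.P249.Full.Majority

open Finset

variable {n : ℕ}

lemma gtInd_nonneg (θ x : ℝ) : 0 ≤ gtInd θ x := by unfold gtInd; split_ifs <;> norm_num

lemma gtInd_le_one (θ x : ℝ) : gtInd θ x ≤ 1 := by unfold gtInd; split_ifs <;> norm_num

lemma abs_gtInd (θ x : ℝ) : |gtInd θ x| ≤ 1 := by
  rw [abs_of_nonneg (gtInd_nonneg _ _)]; exact gtInd_le_one _ _

lemma gtInd_eq_zero {θ x : ℝ} (h : x ≤ θ) : gtInd θ x = 0 := if_neg (not_lt.2 h)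

lemma gtInd_eq_one {θ x : ℝ} (h : θ < x) : gtInd θ x = 1 := if_pos h

lemma phiAt_nonneg (θ : ℝ) (u : Fin n → ℝ) {w : Fin n → ℝ} (hw : IsW w) (z : Fin n) :
    0 ≤ phiAt θ u w z :=
  Finset.sum_nonneg fun z' _ => mul_nonneg (hw.nonneg z') (gtInd_nonneg _ _)

lemma phiAt_le_one (θ : ℝ) (u : Fin n → ℝ) {w : Fin n → ℝ} (hw : IsW w) (z : Fin n) :
    phiAt θ u w z ≤ 1 := by
  calc phiAt θ u w z ≤ ∑ z', w z' := Finset.sum_le_sum fun z' _ =>
        mul_le_of_le_one_right (hw.nonneg z') (gtInd_le_one _ _)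
    _ = 1 := hw.sum_one

lemma phiAt_lip (θ : ℝ) (u w w' : Fin n → ℝ) (z : Fin n) :
    |phiAt θ u w z - phiAt θ u w' z| ≤ tv w w' := by
  simpa [phiAt] using abs_sum_sub_le_tv (w := w) (w' := w') (c := 1)
    (g := fun z' => gtInd θ |u z - u z'|) fun z' => abs_gtInd _ _

lemma crossStat_eq (θ : ℝ) (u w w' : Fin n → ℝ) :
    crossStat θ u w w' = ∑ z, w z * phiAt θ u w' z := by
  simp only [crossStat, phiAt, Finset.mul_sum, mul_assoc]

lemma crossStat_nonneg (θ : ℝ) (u : Fin n → ℝ) {w w' : Fin n → ℝ} (hw : IsW w) (hw' : IsW w') :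
    0 ≤ crossStat θ u w w' := by
  rw [crossStat_eq]
  exact Finset.sum_nonneg fun z _ => mul_nonneg (hw.nonneg z) (phiAt_nonneg θ u hw' z)

lemma crossStat_lip (θ : ℝ) (u : Fin n → ℝ) {w' a : Fin n → ℝ} (w b : Fin n → ℝ)
    (hw' : IsW w') (ha : IsW a) :
    |crossStat θ u w w' - crossStat θ u a b| ≤ tv w a + tv w' b := by
  have h1 : |crossStat θ u w w' - crossStat θ u a w'| ≤ tv w a := by
    rw [crossStat_eq, crossStat_eq]
    simpa using abs_sum_sub_le_tv (w := w) (w' := a) (c := 1) (g := phiAt θ u w') fun z => by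
      rw [abs_of_nonneg (phiAt_nonneg θ u hw' z)]; exact phiAt_le_one θ u hw' z
  have h2 : |crossStat θ u a w' - crossStat θ u a b| ≤ tv w' b := by
    rw [crossStat_eq, crossStat_eq, ← Finset.sum_sub_distrib]
    calc |∑ z, (a z * phiAt θ u w' z - a z * phiAt θ u b z)|
        ≤ ∑ z, |a z * phiAt θ u w' z - a z * phiAt θ u b z| := Finset.abs_sum_le_sum_abs _ _
      _ ≤ ∑ z, a z * tv w' b := Finset.sum_le_sum fun z _ => by
          rw [← mul_sub, abs_mul, abs_of_nonneg (ha.nonneg z)]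
          exact mul_le_mul_of_nonneg_left (phiAt_lip θ u w' b z) (ha.nonneg z)
      _ = tv w' b := by rw [← Finset.sum_mul, ha.sum_one, one_mul]
  exact (abs_sub_le _ _ _).trans (add_le_add h1 h2)

lemma ramp_nonneg (x : ℝ) : 0 ≤ ramp01 x := le_max_left _ _

lemma ramp_le_one (x : ℝ) : ramp01 x ≤ 1 := max_le zero_le_one (min_le_left _ _)

lemma ramp_lip (a b : ℝ) : |ramp01 a - ramp01 b| ≤ |a - b| := by
  refine (abs_max_sub_max_le_max _ _ _ _).trans (max_le (by simp) ?_)
  exact (abs_min_sub_min_le_max _ _ _ _).trans (max_le (by simp) le_rfl)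

lemma ramp_eq_zero {x : ℝ} (h : x ≤ 0) : ramp01 x = 0 :=
  max_eq_left ((min_le_right _ _).trans h)

lemma ramp_eq_one {x : ℝ} (h : 1 ≤ x) : ramp01 x = 1 := by
  rw [ramp01, min_eq_left h, max_eq_right zero_le_one]

lemma chi_nonneg (θ : ℝ) (u w : Fin n → ℝ) (z : Fin n) : 0 ≤ chiAt θ u w z := ramp_nonneg _

lemma chi_le_one (θ : ℝ) (u w : Fin n → ℝ) (z : Fin n) : chiAt θ u w z ≤ 1 := ramp_le_one _

lemma chi_lip (θ : ℝ) (u w w' : Fin n → ℝ) (z : Fin n) :
    |chiAt θ u w z - chiAt θ u w' z| ≤ 8 * tv w w' := by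
  refine (ramp_lip _ _).trans ?_
  rw [show 8 * (3 / 8 - phiAt θ u w z) - 8 * (3 / 8 - phiAt θ u w' z)
      = 8 * (phiAt θ u w' z - phiAt θ u w z) by ring, abs_mul, abs_sub_comm,
    abs_of_pos (show (0:ℝ) < 8 by norm_num)]
  exact mul_le_mul_of_nonneg_left (phiAt_lip θ u w w' z) (by norm_num)

lemma phi_lt_of_chi {θ : ℝ} {u w : Fin n → ℝ} {z : Fin n} (h : chiAt θ u w z ≠ 0) :
    phiAt θ u w z < 3 / 8 := by
  by_contra hc
  exact h (ramp_eq_zero (by linarith [not_lt.1 hc]))

lemma chi_ge (θ : ℝ) (u : Fin n → ℝ) {w : Fin n → ℝ} (hw : IsW w) (z : Fin n) :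
    1 - 4 * phiAt θ u w z ≤ chiAt θ u w z := by
  rcases le_or_gt (phiAt θ u w z) (1 / 4) with h | h
  · rw [chiAt, ramp_eq_one (by linarith)]
    linarith [phiAt_nonneg θ u hw z]
  · linarith [chi_nonneg θ u w z]

lemma majMass_ge (θ : ℝ) (u : Fin n → ℝ) {w : Fin n → ℝ} (hw : IsW w) :
    1 - 4 * crossStat θ u w w ≤ majMass θ u w := by
  calc 1 - 4 * crossStat θ u w w = ∑ z, w z * (1 - 4 * phiAt θ u w z) := by
        simp only [mul_sub, mul_one, Finset.sum_sub_distrib, hw.sum_one, crossStat_eq,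
          Finset.mul_sum, mul_left_comm]
    _ ≤ majMass θ u w := Finset.sum_le_sum fun z _ =>
        mul_le_mul_of_nonneg_left (chi_ge θ u hw z) (hw.nonneg z)

lemma majMass_ge_of_stat {θ : ℝ} {u w : Fin n → ℝ} (hw : IsW w)
    (h : crossStat θ u w w ≤ 3 * eta0) : 13 / 16 ≤ majMass θ u w := by
  have := majMass_ge θ u hw
  norm_num [eta0] at h
  linarith

lemma majMass_nonneg (θ : ℝ) (u : Fin n → ℝ) {w : Fin n → ℝ} (hw : IsW w) :
    0 ≤ majMass θ u w :=
  Finset.sum_nonneg fun z _ => mul_nonneg (hw.nonneg z) (chi_nonneg θ u w z)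

lemma majC_isW (θ : ℝ) (u : Fin n → ℝ) {w : Fin n → ℝ} (hw : IsW w) : IsW (majC θ u w) where
  nonneg z := mul_nonneg (hw.nonneg z) (add_nonneg (div_nonneg (chi_nonneg θ u w z)
    (le_trans (by norm_num) (le_max_right _ _))) (le_max_left _ _))
  sum_one := by
    have e : ∑ z, majC θ u w z = majMass θ u w / max (majMass θ u w) (1 / 2)
        + max 0 (1 - 2 * majMass θ u w) := by
      simp only [majC, mul_add, Finset.sum_add_distrib, ← Finset.sum_mul, hw.sum_one, one_mul]
      congr 1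
      rw [majMass, Finset.sum_div]
      exact Finset.sum_congr rfl fun z _ => (mul_div_assoc _ _ _).symm
    rw [e]
    rcases le_total (majMass θ u w) (1 / 2) with h | h
    · rw [max_eq_right h, max_eq_right (by linarith)]; ring
    · rw [max_eq_left h, max_eq_left (by linarith), div_self (by linarith), add_zero]

lemma majC_le (θ : ℝ) (u : Fin n → ℝ) {w : Fin n → ℝ} (hw : IsW w) (z : Fin n) :
    majC θ u w z ≤ 3 * w z := by
  rw [majC, mul_comm 3]
  refine mul_le_mul_of_nonneg_left ?_ (hw.nonneg z)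
  have h1 : chiAt θ u w z / max (majMass θ u w) (1 / 2) ≤ 2 := by
    rw [div_le_iff₀ (lt_of_lt_of_le (by norm_num) (le_max_right _ _))]
    linarith [chi_le_one θ u w z, le_max_right (majMass θ u w) (1 / 2)]
  have h2 : max 0 (1 - 2 * majMass θ u w) ≤ 1 :=
    max_le zero_le_one (by linarith [majMass_nonneg θ u hw])
  linarith

lemma majC_eq {θ : ℝ} {u w : Fin n → ℝ} (h : 1 / 2 ≤ majMass θ u w) (z : Fin n) :
    majC θ u w z = w z * chiAt θ u w z / majMass θ u w := by
  rw [majC, max_eq_left h, max_eq_left (by linarith), add_zero, mul_div_assoc]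

lemma majMean_sub (θ : ℝ) (u : Fin n → ℝ) {w : Fin n → ℝ} (hw : IsW w) (v : ℝ) :
    majMean θ u w - v = ∑ z, majC θ u w z * (u z - v) := by
  simp only [majMean, mul_sub, Finset.sum_sub_distrib, ← Finset.sum_mul,
    (majC_isW θ u hw).sum_one, one_mul]

lemma majMean_mean_le (θ : ℝ) (u : Fin n → ℝ) {w : Fin n → ℝ} (hw : IsW w) (v : ℝ) :
    |majMean θ u w - v| ≤ 3 * ∑ z, w z * |u z - v| := by
  rw [majMean_sub θ u hw, Finset.mul_sum]
  refine (Finset.abs_sum_le_sum_abs _ _).trans (Finset.sum_le_sum fun z _ => ?_)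
  rw [abs_mul, abs_of_nonneg ((majC_isW θ u hw).nonneg z), ← mul_assoc]
  exact mul_le_mul_of_nonneg_right (majC_le θ u hw z) (abs_nonneg _)

lemma close_of_phi {θ : ℝ} {u w : Fin n → ℝ} (hw : IsW w) {z₁ z₂ : Fin n}
    (h₁ : phiAt θ u w z₁ < 1 / 2) (h₂ : phiAt θ u w z₂ < 1 / 2) :
    |u z₁ - u z₂| ≤ 2 * θ := by
  by_contra hc
  have key : ∀ z, w z ≤ w z * gtInd θ |u z₁ - u z| + w z * gtInd θ |u z₂ - u z| := by
    intro z
    rw [← mul_add]
    refine le_mul_of_one_le_right (hw.nonneg z) ?_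
    rcases le_or_gt |u z₁ - u z| θ with a | a
    · rcases le_or_gt |u z₂ - u z| θ with b | b
      · exfalso
        have := abs_sub_le (u z₁) (u z) (u z₂)
        rw [abs_sub_comm (u z) (u z₂)] at this
        exact hc (by linarith)
      · rw [gtInd_eq_one b]; linarith [gtInd_nonneg θ |u z₁ - u z|]
    · rw [gtInd_eq_one a]; linarith [gtInd_nonneg θ |u z₂ - u z|]
  have := Finset.sum_le_sum fun z (_ : z ∈ univ) => key z
  rw [Finset.sum_add_distrib, hw.sum_one] at this
  rw [phiAt] at h₁ h₂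
  linarith

lemma majMean_near {θ : ℝ} {u w : Fin n → ℝ} (hw : IsW w) (hM : 1 / 2 ≤ majMass θ u w) {v R : ℝ}
    (h : ∀ z, phiAt θ u w z < 3 / 8 → |u z - v| ≤ R) : |majMean θ u w - v| ≤ R := by
  have hc := majC_isW θ u hw
  rw [majMean_sub θ u hw]
  calc |∑ z, majC θ u w z * (u z - v)| ≤ ∑ z, |majC θ u w z * (u z - v)| :=
        Finset.abs_sum_le_sum_abs _ _
    _ ≤ ∑ z, majC θ u w z * R := Finset.sum_le_sum fun z _ => by
        rw [abs_mul, abs_of_nonneg (hc.nonneg z)]
        by_cases hz : chiAt θ u w z = 0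
        · simp [majC_eq hM, hz]
        · exact mul_le_mul_of_nonneg_left (h z (phi_lt_of_chi hz)) (hc.nonneg z)
    _ = R := by rw [← Finset.sum_mul, hc.sum_one, one_mul]

lemma exists_chi_ne {θ : ℝ} {u w : Fin n → ℝ} (hM : 0 < majMass θ u w) :
    ∃ z, chiAt θ u w z ≠ 0 := by
  by_contra hc
  push Not at hc
  simp [majMass, hc] at hM

lemma majC_tv {θ : ℝ} {u w w' : Fin n → ℝ} (hw' : IsW w')
    (hM : 13 / 16 ≤ majMass θ u w) (hM' : 13 / 16 ≤ majMass θ u w') :
    ∑ z, |majC θ u w z - majC θ u w' z| ≤ 25 * tv w w' := by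
  set M := majMass θ u w with hMdef
  set M' := majMass θ u w' with hMdef'
  set a : Fin n → ℝ := fun z => w z * chiAt θ u w z with ha
  set b : Fin n → ℝ := fun z => w' z * chiAt θ u w' z with hb
  have hT := tv_nonneg w w'
  have hab : ∑ z, |a z - b z| ≤ 9 * tv w w' := by
    calc ∑ z, |a z - b z| ≤ ∑ z, (|w z - w' z| + w' z * (8 * tv w w')) := by
          refine Finset.sum_le_sum fun z _ => ?_
          have e : a z - b z = (w z - w' z) * chiAt θ u w z
              + w' z * (chiAt θ u w z - chiAt θ u w' z) := by simp only [ha, hb]; ring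
          rw [e]
          refine (abs_add_le _ _).trans (add_le_add ?_ ?_)
          · rw [abs_mul, abs_of_nonneg (chi_nonneg θ u w z)]
            exact mul_le_of_le_one_right (abs_nonneg _) (chi_le_one θ u w z)
          · rw [abs_mul, abs_of_nonneg (hw'.nonneg z)]
            exact mul_le_mul_of_nonneg_left (chi_lip θ u w w' z) (hw'.nonneg z)
      _ = 9 * tv w w' := by
          rw [Finset.sum_add_distrib, ← Finset.sum_mul, hw'.sum_one, tv]; ring
  have hMM : |M' - M| ≤ 9 * tv w w' := by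
    rw [abs_sub_comm]
    refine le_trans ?_ hab
    rw [hMdef, hMdef', majMass, majMass, ← Finset.sum_sub_distrib]
    exact Finset.abs_sum_le_sum_abs _ _
  have hbM : ∑ z, b z = M' := rfl
  calc ∑ z, |majC θ u w z - majC θ u w' z|
      ≤ ∑ z, (|a z - b z| / M + b z * (|M' - M| / (M * M'))) := by
        refine Finset.sum_le_sum fun z _ => ?_
        have e : majC θ u w z - majC θ u w' z
            = (a z - b z) / M + b z * ((M' - M) / (M * M')) := by
          rw [majC_eq (by linarith), majC_eq (by linarith)]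
          simp only [ha, hb, ← hMdef, ← hMdef']
          have : M ≠ 0 := by linarith
          have : M' ≠ 0 := by linarith
          field_simp
          ring
        rw [e]
        refine (abs_add_le _ _).trans (le_of_eq ?_)
        rw [abs_div, abs_of_nonneg (show 0 ≤ M by linarith), abs_mul,
          abs_of_nonneg (show 0 ≤ b z from mul_nonneg (hw'.nonneg z) (chi_nonneg θ u w' z)),
          abs_div, abs_of_nonneg (show 0 ≤ M * M' by nlinarith)]
    _ = (∑ z, |a z - b z|) / M + |M' - M| / M := by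
        rw [Finset.sum_add_distrib, ← Finset.sum_div, ← Finset.sum_mul, hbM]
        have : M ≠ 0 := by linarith
        have : M' ≠ 0 := by linarith
        field_simp
    _ ≤ 18 * tv w w' / M := by
        rw [← add_div]
        exact div_le_div_of_nonneg_right (by linarith) (by linarith)
    _ ≤ 25 * tv w w' := by
        rw [div_le_iff₀ (by linarith)]
        nlinarith

lemma majMean_lip {θ : ℝ} {u w w' : Fin n → ℝ} (hw : IsW w) (hw' : IsW w') (hθ : 0 ≤ θ)
    (h : crossStat θ u w' w' ≤ eta0) (ht : tv w w' ≤ 1 / 64) :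
    |majMean θ u w - majMean θ u w'| ≤ 200 * tv w w' * θ := by
  have h0 : crossStat θ u w w ≤ 3 * eta0 := by
    have := (abs_le.1 (crossStat_lip θ u w w' hw hw')).2
    norm_num [eta0] at h ⊢
    linarith
  have hM := majMass_ge_of_stat hw h0
  have hM' := majMass_ge_of_stat hw' (h.trans (by norm_num [eta0]))
  obtain ⟨z₀, hz₀⟩ := exists_chi_ne (θ := θ) (u := u) (w := w') (by linarith)
  have hp₀ := phi_lt_of_chi hz₀
  have hd : majMean θ u w - majMean θ u w'
      = ∑ z, (majC θ u w z - majC θ u w' z) * (u z - u z₀) := by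
    have h1 := majMean_sub θ u hw (u z₀)
    have h2 := majMean_sub θ u hw' (u z₀)
    simp only [sub_mul, Finset.sum_sub_distrib]
    linarith
  calc |majMean θ u w - majMean θ u w'|
      ≤ ∑ z, |(majC θ u w z - majC θ u w' z) * (u z - u z₀)| := by
        rw [hd]; exact Finset.abs_sum_le_sum_abs _ _
    _ ≤ ∑ z, |majC θ u w z - majC θ u w' z| * (2 * θ) := Finset.sum_le_sum fun z _ => by
        rw [abs_mul]
        by_cases hz : chiAt θ u w z = 0 ∧ chiAt θ u w' z = 0
        · have hz1 : 1 / 2 ≤ majMass θ u w := by linarith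
          have hz2 : 1 / 2 ≤ majMass θ u w' := by linarith
          simp [majC_eq hz1, majC_eq hz2, hz.1, hz.2]
        · refine mul_le_mul_of_nonneg_left (close_of_phi hw' ?_ (by linarith)) (abs_nonneg _)
          rcases not_and_or.1 hz with a | a
          · have := (abs_le.1 (phiAt_lip θ u w w' z)).1
            linarith [phi_lt_of_chi a]
          · linarith [phi_lt_of_chi a]
    _ ≤ 25 * tv w w' * (2 * θ) := by
        rw [← Finset.sum_mul]
        exact mul_le_mul_of_nonneg_right (majC_tv hw' hM hM') (by linarith)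
    _ ≤ 200 * tv w w' * θ := by nlinarith [mul_nonneg (tv_nonneg w w') hθ]

lemma majMean_cross {θ θ' : ℝ} {u w w' : Fin n → ℝ} (hw : IsW w) (hw' : IsW w')
    (h : crossStat θ u w w ≤ 3 * eta0) (h' : crossStat θ' u w' w' ≤ 3 * eta0)
    (hx : crossStat θ' u w w' ≤ 3 * eta0) :
    |majMean θ u w - majMean θ' u w'| ≤ 2 * θ + 3 * θ' := by
  have hM := majMass_ge_of_stat hw h
  have hM' := majMass_ge_of_stat hw' h'
  obtain ⟨a, b, ha, hb, hab⟩ : ∃ a b, chiAt θ u w a ≠ 0 ∧ chiAt θ' u w' b ≠ 0 ∧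
      |u a - u b| ≤ θ' := by
    by_contra hc
    push Not at hc
    have : majMass θ u w * majMass θ' u w' ≤ crossStat θ' u w w' := by
      rw [majMass, majMass, Finset.sum_mul_sum, crossStat]
      refine Finset.sum_le_sum fun z _ => Finset.sum_le_sum fun z' _ => ?_
      by_cases hz : chiAt θ u w z = 0 ∨ chiAt θ' u w' z' = 0
      · have h0 : 0 ≤ w z * w' z' * gtInd θ' |u z - u z'| :=
          mul_nonneg (mul_nonneg (hw.nonneg z) (hw'.nonneg z')) (gtInd_nonneg _ _)
        rcases hz with e | e <;> simpa [e] using h0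
      · rw [gtInd_eq_one (hc z z' (fun e => hz (Or.inl e)) (fun e => hz (Or.inr e))), mul_one,
          mul_mul_mul_comm]
        exact mul_le_of_le_one_right (mul_nonneg (hw.nonneg z) (hw'.nonneg z'))
          (mul_le_one₀ (chi_le_one θ u w z) (chi_nonneg θ' u w' z') (chi_le_one θ' u w' z'))
    norm_num [eta0] at hx
    nlinarith
  have h1 : |majMean θ u w - u a| ≤ 2 * θ := majMean_near hw (by linarith) fun z hz =>
    close_of_phi hw (by linarith) (by linarith [phi_lt_of_chi ha])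
  have h2 : |majMean θ' u w' - u b| ≤ 2 * θ' := majMean_near hw' (by linarith) fun z hz =>
    close_of_phi hw' (by linarith) (by linarith [phi_lt_of_chi hb])
  have h3 := abs_sub_le (majMean θ u w) (u a) (majMean θ' u w')
  have h4 := abs_sub_le (u a) (u b) (majMean θ' u w')
  rw [abs_sub_comm (u b)] at h4
  linarith

lemma majMean_eq_mean {θ : ℝ} {u w : Fin n → ℝ} (hw : IsW w)
    (h : ∀ z z', w z ≠ 0 → w z' ≠ 0 → |u z - u z'| ≤ θ) :
    majMean θ u w = ∑ z, w z * u z := by
  have hchi : ∀ z, w z * chiAt θ u w z = w z := fun z => by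
    by_cases hz : w z = 0
    · simp [hz]
    have hp : phiAt θ u w z = 0 := Finset.sum_eq_zero fun z' _ => by
      by_cases hz' : w z' = 0
      · simp [hz']
      · rw [gtInd_eq_zero (h z z' hz hz'), mul_zero]
    rw [chiAt, hp, ramp_eq_one (by norm_num), mul_one]
  have hM : majMass θ u w = 1 := by simp only [majMass, hchi]; exact hw.sum_one
  refine Finset.sum_congr rfl fun z _ => ?_
  rw [majC_eq (by rw [hM]; norm_num), hchi, hM, div_one]

lemma crossStat_eq_zero {θ : ℝ} {u w w' : Fin n → ℝ}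
    (h : ∀ z z', w z ≠ 0 → w' z' ≠ 0 → |u z - u z'| ≤ θ) : crossStat θ u w w' = 0 :=
  Finset.sum_eq_zero fun z _ => Finset.sum_eq_zero fun z' _ => by
    by_cases hz : w z = 0
    · simp [hz]
    by_cases hz' : w' z' = 0
    · simp [hz']
    rw [gtInd_eq_zero (h z z' hz hz'), mul_zero]

lemma geom_energy {θ x p : ℝ} (hθ : 0 ≤ θ) (hx : 0 ≤ x) (hp : 1 ≤ p) (J : ℕ) :
    ∑ l ∈ range J, (θ * 2 ^ l) ^ p * gtInd (θ * 2 ^ l) x ≤ 2 * x ^ p ∧
      ∑ l ∈ range J, (θ * 2 ^ l) ^ p * gtInd (θ * 2 ^ l) x ≤ (θ * 2 ^ J) ^ p := by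
  induction J with
  | zero => simp [Real.rpow_nonneg hx, Real.rpow_nonneg hθ]
  | succ J ih =>
    rw [Finset.sum_range_succ]
    have hT0 : 0 ≤ θ * 2 ^ J := by positivity
    have hT : (θ * 2 ^ J) ^ p * gtInd (θ * 2 ^ J) x ≤ (θ * 2 ^ J) ^ p :=
      mul_le_of_le_one_right (Real.rpow_nonneg hT0 _) (gtInd_le_one _ _)
    constructor
    · rcases lt_or_ge (θ * 2 ^ J) x with h | h
      · linarith [Real.rpow_le_rpow hT0 h.le (show 0 ≤ p by linarith)]
      · rw [gtInd_eq_zero h, mul_zero, add_zero]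
        exact ih.1
    · have e : (θ * 2 ^ (J + 1)) ^ p = (θ * 2 ^ J) ^ p * (2:ℝ) ^ p := by
        rw [pow_succ, ← mul_assoc, Real.mul_rpow hT0 (by norm_num)]
      rw [e]
      nlinarith [Real.self_le_rpow_of_one_le (show (1:ℝ) ≤ 2 by norm_num) hp,
        Real.rpow_nonneg hT0 p]

lemma energy {θ p : ℝ} {u w w' : Fin n → ℝ} (hw : IsW w) (hw' : IsW w') (hθ : 0 ≤ θ)
    (hp : 1 ≤ p) (J : ℕ) :
    ∑ l ∈ range J, (θ * 2 ^ l) ^ p * crossStat (θ * 2 ^ l) u w w'
      ≤ 2 * ∑ z, ∑ z', w z * w' z' * |u z - u z'| ^ p := by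
  simp only [crossStat, Finset.mul_sum]
  rw [Finset.sum_comm]
  refine Finset.sum_le_sum fun z _ => ?_
  rw [Finset.sum_comm]
  refine Finset.sum_le_sum fun z' _ => ?_
  calc ∑ l ∈ range J, (θ * 2 ^ l) ^ p * (w z * w' z' * gtInd (θ * 2 ^ l) |u z - u z'|)
      = w z * w' z' * ∑ l ∈ range J, (θ * 2 ^ l) ^ p * gtInd (θ * 2 ^ l) |u z - u z'| := by
        rw [Finset.mul_sum]; exact Finset.sum_congr rfl fun l _ => by ring
    _ ≤ w z * w' z' * (2 * |u z - u z'| ^ p) :=
        mul_le_mul_of_nonneg_left (geom_energy hθ (abs_nonneg _) hp J).1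
          (mul_nonneg (hw.nonneg z) (hw'.nonneg z'))
    _ = 2 * (w z * w' z' * |u z - u z'| ^ p) := by ring

end Vale.Agent.P249.Full.Majority

namespace Vale.Agent.P249.Full

open Majority in
/-- Properties of majority means. -/
theorem majority : MajorityStmt := by
  intro n u w w' hw hw' θ θ' hθ _
  exact ⟨⟨majC_isW θ u hw, majC_le θ u hw⟩, majMean_mean_le θ u hw,
    majMean_lip hw hw' hθ, majMean_cross hw hw', majMean_eq_mean hw, crossStat_eq_zero,
    ⟨crossStat_nonneg θ u hw hw', fun a b ha _ => crossStat_lip θ u w b hw' ha⟩,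
    fun p hp J => energy hw hw' hθ hp J⟩

end Vale.Agent.P249.Full
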