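import Mathlib
import Vale.Agent.P249.Full.SplitEnv
import Vale.Agent.P249.Full.Chain
import Vale.Agent.P249.Full.Hybrid

/-!
The difference of two level functions at a pair: an exact part with probability `P`,
a short remainder `e`, and a part `D` controlled by the energy of the bad scales.
-/

namespace Vale.Agent.P249.Full.Pair

open Finset

variable {p Cx : ℝ} {n N : ℕ} (V : SplitEnv p Cx n N)

lemma r_pos (i : ℕ) : 0 < V.r i := zpow_pos two_pos _

lemma r_add (i m : ℕ) : V.r (i + m) = V.r i * 2 ^ m := by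
  rw [SplitEnv.r, SplitEnv.r, Nat.cast_add, ← add_assoc, zpow_add₀ two_ne_zero, zpow_natCast]

lemma r_succ (i : ℕ) : V.r (i + 1) = 2 * V.r i := by rw [r_add, pow_one, mul_comm]

lemma r_mono {i j : ℕ} (h : i ≤ j) : V.r i ≤ V.r j := by
  obtain ⟨m, rfl⟩ := Nat.exists_eq_add_of_le h
  rw [r_add]
  exact le_mul_of_one_le_right (r_pos V i).le (one_le_pow₀ one_le_two)

lemma zero_lt_q : 0 < V.q := lt_of_lt_of_le two_pos (le_max_left _ _)

lemma omega_le_one (y : Fin n) (i : ℕ) : 0 ≤ V.ω y i ∧ V.ω y i ≤ 1 :=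
  ⟨le_max_left _ _, max_le zero_le_one (min_le_left _ _)⟩

lemma omega_one {y : Fin n} {i : ℕ} (h : 2 * V.ρ y / 2 ^ V.B ≤ V.r i) : V.ω y i = 1 := by
  have h0 := V.ρ_pos y
  rw [div_le_iff₀ (by positivity)] at h
  have h1 : (1:ℝ) ≤ V.r i * 2 ^ V.B / V.ρ y - 1 := by
    rw [le_sub_iff_add_le, le_div_iff₀ h0]; linarith
  rw [SplitEnv.ω, ramp01, min_eq_left h1, max_eq_right zero_le_one]

/-- The scales below `a`. -/
noncomputable def rem (a : ℕ) (k : Fin N) (l : ℕ) (y : Fin n) : ℝ :=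
  ∑ i ∈ range a, V.ω y i * piW V.q (V.φ k l y) i V.T
    * clipTo (16 * V.θ k l i) (V.M k l y i - V.M k l y (i + 1))

/-- The top of a level function is constant and the scales above `b` are absent. -/
lemma levelVal_split (hsc : ScaleStmt p) {a b : ℕ} (hab : a ≤ b) (hb : b ≤ V.T)
    (k : Fin N) (l : ℕ) (y : Fin n) (hω : ∀ i, a ≤ i → V.ω y i = 1) (hpure : V.ρ y ≤ V.r b) :
    V.levelVal k l y = rem V a k l y
      + chainVal V.q (V.θ k l) (V.φ k l y) (V.M k l y) a b := by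
  have hflat : ∀ i, b ≤ i → V.φ k l y i = 0 ∧ V.M k l y (i + 1) = V.M k l y i := fun i hi =>
    ⟨((hsc Cx n N V k l y y i).2.2.1 (hpure.trans (r_mono V hi))).1,
      ((hsc Cx n N V k l y y i).2.2.1 (hpure.trans (r_mono V hi))).2.1⟩
  have htop : ∀ j, b ≤ j → V.M k l y j = V.M k l y b := by
    intro j hj
    induction j, hj using Nat.le_induction with
    | base => rfl
    | succ j hj ih => rw [(hflat j hj).2, ih]
  have hpi : ∀ i, i ≤ b →
      piW V.q (V.φ k l y) i V.T = piW V.q (V.φ k l y) i b := by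
    intro i hi
    rw [piW, piW, ← Finset.prod_Ico_consecutive _ hi hb,
      Finset.prod_eq_one (s := Ico b V.T) fun j hj => by
        rw [(hflat j (mem_Ico.1 hj).1).1,
          Chain.psiOf_good (zero_lt_q V).ne' (by norm_num [eta0]), sub_zero], mul_one]
  rw [SplitEnv.levelVal, rem, chainVal, htop _ hb,
    ← Finset.sum_range_add_sum_Ico _ (hab.trans hb), ← Finset.sum_Ico_consecutive _ hab hb,
    Finset.sum_eq_zero (s := Ico b V.T) fun i hi => by
      rw [(hflat i (mem_Ico.1 hi).1).2, sub_self, clipTo, min_eq_right, max_eq_right, mul_zero]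
      · have := (hsc Cx n N V k l y y i).1.1; linarith
      · have := (hsc Cx n N V k l y y i).1.1; linarith, add_zero,
    Finset.sum_congr (s₁ := Ico a b) rfl fun i hi => by
      rw [hω i (mem_Ico.1 hi).1, one_mul, hpi i (mem_Ico.1 hi).2.le]]
  ring

lemma lpN_sub_le {ι : Type*} [Fintype ι] (hp : 1 ≤ p) (u v : ι → ℝ) :
    lpN p (fun k => u k - v k) ≤ lpN p u + lpN p v := by
  have h := lpN_mul (by linarith : 0 < p) (-1) v
  rw [abs_neg, abs_one, one_mul] at h
  have h2 := lpN_add_le hp u (fun k => -1 * v k)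
  rw [h] at h2
  simpa [sub_eq_add_neg] using h2

lemma lpN_mono {ι : Type*} [Fintype ι] (hp : 0 < p) (u v : ι → ℝ) (h : ∀ k, |u k| ≤ |v k|) :
    lpN p u ≤ lpN p v :=
  Real.rpow_le_rpow (Finset.sum_nonneg fun _ _ => Real.rpow_nonneg (abs_nonneg _) _)
    (Finset.sum_le_sum fun k _ => Real.rpow_le_rpow (abs_nonneg _) (h k) hp.le) (by positivity)

lemma lpN_empty {ι : Type*} [Fintype ι] [IsEmpty ι] (hp : 0 < p) (u : ι → ℝ) : lpN p u = 0 := by
  rw [lpN, Finset.univ_eq_empty, Finset.sum_empty, Real.zero_rpow (one_div_pos.2 hp).ne']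

lemma sum_r_le : ∀ a : ℕ, ∑ i ∈ range a, V.r i ≤ V.r a
  | 0 => by simpa using (r_pos V 0).le
  | a + 1 => by
    rw [Finset.sum_range_succ, r_succ]
    linarith [sum_r_le a]

lemma lpN_rem_le (hsc : ScaleStmt p) (a l : ℕ) (y : Fin n) :
    lpN p (fun k => rem V a k l y) ≤ 9 * Cx * V.r a := by
  have hp := V.one_le_p
  refine (lpN_sum_le hp (range a) fun i k => V.ω y i * piW V.q (V.φ k l y) i V.T
    * clipTo (16 * V.θ k l i) (V.M k l y i - V.M k l y (i + 1))).trans ?_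
  refine (Finset.sum_le_sum (g := fun i => 9 * Cx * V.r i) fun i _ => ?_).trans ?_
  · refine (lpN_mono (by linarith) _ (fun k => V.M k l y i - V.M k l y (i + 1)) fun k => ?_).trans ?_
    · obtain ⟨hω0, hω1⟩ := omega_le_one V y i
      obtain ⟨hπ0, hπ1⟩ := Chain.piW_mem V.q (V.φ k l y) i V.T
      rw [abs_mul, abs_of_nonneg (mul_nonneg hω0 hπ0)]
      refine (mul_le_of_le_one_left (abs_nonneg _) (mul_le_one₀ hω1 hπ0 hπ1)).trans ?_
      have h0 := (hsc Cx n N V k l y y i).1.1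
      exact abs_le.2 ⟨by
          unfold clipTo
          rcases le_total (V.M k l y i - V.M k l y (i + 1)) 0 with h | h
          · rw [abs_of_nonpos h, neg_neg, min_eq_right (h.trans (by linarith))]
            exact le_max_right _ _
          · exact le_trans (by linarith [abs_nonneg (V.M k l y i - V.M k l y (i + 1))])
              (le_trans (le_min (by linarith : (0:ℝ) ≤ 16 * V.θ k l i) h) (le_max_right _ _)),
        max_le (le_trans (by linarith) (abs_nonneg _))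
          ((min_le_right _ _).trans (le_abs_self _))⟩
    · rcases isEmpty_or_nonempty (Fin N) with hN | hN
      · rw [lpN_empty (by linarith)]
        exact mul_nonneg (mul_nonneg (by norm_num) (by linarith [V.one_le_Cx])) (r_pos V i).le
      obtain ⟨k0⟩ := hN
      have h1 := (hsc Cx n N V k0 l y y i).2.2.2.2.2.2.2.1
      have h2 := (hsc Cx n N V k0 l y y (i + 1)).2.2.2.2.2.2.2.1
      have h3 := lpN_sub_le hp (fun k => V.M k l y i - V.X y k)
        (fun k => V.M k l y (i + 1) - V.X y k)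
      simp only [sub_sub_sub_cancel_right] at h3
      rw [r_succ] at h2
      linarith
  · rw [← Finset.mul_sum]
    exact mul_le_mul_of_nonneg_left (sum_r_le V a) (by linarith [V.one_le_Cx])

lemma tv_le_nu (y y' : Fin n) {i j : ℕ} (hij : i ≤ j) (hji : j ≤ i + 1)
    (hj : V.r j ≤ 128 * max (V.ρ y) (V.ρ y')) :
    tv (V.W j y) (V.W j y') ≤ Cx * nuG (lpD p V.X) V.β 26 (V.base + i) y
      * (lpD p V.X y y' / V.r i) := by
  have hb : 0 ≤ V.β := by linarith [V.one_le_β]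
  have hC : 0 ≤ Cx := by linarith [V.one_le_Cx]
  refine (V.tv_le j y y' hj).trans (mul_le_mul ?_ ?_ ?_ ?_)
  · refine mul_le_mul_of_nonneg_left (nuG_mono _ _ y ?_ ?_) hC <;> push_cast <;> omega
  · exact div_le_div_of_nonneg_left (lpD_nonneg _ _ _ _) (r_pos V i) (r_mono V hij)
  · exact div_nonneg (lpD_nonneg _ _ _ _) (zpow_pos two_pos _).le
  · exact mul_nonneg hC (zero_le_one.trans (one_le_nuG _ hb _ _ _))

lemma rpow_qnorm_le {q : ℕ} (hp : 0 < p) (hq : 0 < q) (hpq : p ≤ q) (s : Finset ℕ) (ν : ℕ → ℝ)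
    (hν : ∀ i, 0 ≤ ν i) :
    ((∑ i ∈ s, ν i ^ q) ^ (1 / (q:ℝ))) ^ p ≤ ∑ i ∈ s, ν i ^ p := by
  have hq' : (0:ℝ) < q := by exact_mod_cast hq
  rw [← Real.rpow_mul (Finset.sum_nonneg fun i _ => pow_nonneg (hν i) _)]
  have hle : ∀ s : Finset ℕ, (∑ i ∈ s, ν i ^ q) ^ (1 / (q:ℝ) * p) ≤ ∑ i ∈ s, ν i ^ p := by
    intro s
    induction s using Finset.induction with
    | empty => rw [Finset.sum_empty, Finset.sum_empty, Real.zero_rpow (mul_pos (one_div_pos.2 hq') hp).ne']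
    | @insert a s ha ih =>
      rw [Finset.sum_insert ha, Finset.sum_insert ha]
      refine (Real.rpow_add_le_add_rpow (pow_nonneg (hν a) _)
        (Finset.sum_nonneg fun i _ => pow_nonneg (hν i) _) (by positivity) ?_).trans
          (add_le_add (le_of_eq ?_) ih)
      · rw [one_div_mul_eq_div, div_le_one hq']; exact hpq
      · rw [← Real.rpow_natCast, ← Real.rpow_mul (hν a)]
        congr 1
        field_simp
  exact hle s

lemma qnorm_le_sum {q : ℕ} (hq : 0 < q) (s : Finset ℕ) (ν : ℕ → ℝ) (hν : ∀ i, 0 ≤ ν i) :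
    (∑ i ∈ s, ν i ^ q) ^ (1 / (q:ℝ)) ≤ ∑ i ∈ s, ν i := by
  have := rpow_qnorm_le (p := 1) one_pos hq (by exact_mod_cast hq) s ν hν
  simpa using this

lemma card_scales {a b : ℕ} {x K : ℝ} (hx : 0 < x) (hK : 1 ≤ K) (ha : x ≤ V.r a)
    (hb : ∀ i, a ≤ i → i < b → V.r i < K * x) :
    ((b - a : ℕ) : ℝ) ≤ 1 + Real.logb 2 K := by
  rcases Nat.eq_zero_or_pos (b - a) with h | h
  · rw [h, Nat.cast_zero]
    linarith [Real.logb_nonneg one_lt_two hK]
  · obtain ⟨m, hm⟩ : ∃ m, b - a = m + 1 := ⟨b - a - 1, by omega⟩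
    have h1 := hb (a + m) (by omega) (by omega)
    rw [r_add] at h1
    have h2 : (2:ℝ) ^ (m:ℝ) < K := by
      rw [Real.rpow_natCast]
      exact lt_of_mul_lt_mul_left (lt_of_le_of_lt (mul_le_mul_of_nonneg_right ha (by positivity))
        (by linarith)) hx.le
    rw [hm, Nat.cast_succ]
    linarith [((Real.lt_logb_iff_rpow_lt one_lt_two (by linarith)).2 h2).le]

/-- The cut scales of a pair: below `a` the sum is short, from `s` on the two sets of weights
are close, from `b` on both are weights on centres. -/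
structure Scales (y y' : Fin n) (δ0 : ℝ) where
  a : ℕ
  s : ℕ
  b : ℕ
  a_le_s : a ≤ s
  s_le_b : s ≤ b
  b_le_T : b ≤ V.T
  low_t : δ0 * lpD p V.X y y' ≤ V.r a
  low_ρ : 4 * max (V.ρ y) (V.ρ y') / 2 ^ V.B ≤ V.r a
  a_upper : V.r a ≤ 2 * max (δ0 * lpD p V.X y y') (4 * max (V.ρ y) (V.ρ y') / 2 ^ V.B)
  top : 32 * max (V.ρ y) (V.ρ y') ≤ V.r b
  below : ∀ i, a ≤ i → i < b → V.r i < 32 * max (V.ρ y) (V.ρ y')
  near : ∀ i, a ≤ i → i < s → V.r i < 128 * Cx * V.β * lpD p V.X y y'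
  far : ∀ i, s ≤ i → i < b → 128 * Cx * V.β * lpD p V.X y y' ≤ V.r i

lemma exists_scales {y y' : Fin n} {δ0 : ℝ} (hy : y ≠ y') (hδ0 : 0 < δ0) (hδ1 : δ0 ≤ 1) :
    Nonempty (Scales V y y' δ0) := by
  have hCx := V.one_le_Cx
  have hβ := V.one_le_β
  obtain ⟨t, ht⟩ : ∃ t, t = lpD p V.X y y' := ⟨_, rfl⟩
  have ht0 : 0 < t := ht ▸ (fmetric_lpD V.one_le_p V.injX).pos y y' hy
  obtain ⟨ρm, hρm⟩ : ∃ ρm, ρm = max (V.ρ y) (V.ρ y') := ⟨_, rfl⟩
  have hρ0 : 0 < ρm := lt_of_lt_of_le (V.ρ_pos y) (hρm ▸ le_max_left _ _)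
  have hρy : V.ρ y ≤ ρm := hρm ▸ le_max_left _ _
  have h2B : (1:ℝ) ≤ 2 ^ V.B := one_le_pow₀ one_le_two
  have hρT : 128 * ρm ≤ V.r V.T := by
    rcases max_cases (V.ρ y) (V.ρ y') with ⟨h, -⟩ | ⟨h, -⟩ <;> rw [hρm, h]
    · exact V.top_ρ y
    · exact V.top_ρ y'
  -- the bottom scale
  obtain ⟨x0, hx0⟩ : ∃ x0, x0 = max (δ0 * t) (4 * ρm / 2 ^ V.B) := ⟨_, rfl⟩
  have hx0T : x0 ≤ V.r V.T := by
    rw [hx0, max_le_iff]
    refine ⟨le_trans ?_ (ht ▸ V.top_t y y'), le_trans (div_le_self (by positivity) h2B)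
      (le_trans (by linarith) hρT)⟩
    exact mul_le_of_le_one_left ht0.le hδ1
  classical
  have hex0 : ∃ i, x0 ≤ V.r i := ⟨V.T, hx0T⟩
  obtain ⟨a, ha⟩ : ∃ a, a = Nat.find hex0 := ⟨_, rfl⟩
  have haT : a ≤ V.T := ha ▸ Nat.find_le hx0T
  have hxa : x0 ≤ V.r a := ha ▸ Nat.find_spec hex0
  have haup : V.r a ≤ 2 * x0 := by
    rcases Nat.eq_zero_or_pos a with h | h
    · have hb := V.base_le y
      have : V.r a ≤ 4 * ρm / 2 ^ V.B := by
        rw [h, SplitEnv.r, Nat.cast_zero, add_zero, le_div_iff₀ (by positivity)]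
        have : 0 < (2:ℝ) ^ V.base * 2 ^ V.B := mul_pos (zpow_pos two_pos _) (by positivity)
        linarith
      have h2 : 4 * ρm / 2 ^ V.B ≤ x0 := hx0 ▸ le_max_right _ _
      have : 0 ≤ x0 := le_trans (by positivity) h2
      linarith
    · have := Nat.find_min hex0 (m := a - 1) (by omega)
      rw [show a = a - 1 + 1 by omega, r_succ]
      linarith
  -- the pure scale
  have hex1 : ∃ i, a ≤ i ∧ 32 * ρm ≤ V.r i := ⟨V.T, haT, by linarith⟩
  obtain ⟨b, hb⟩ : ∃ b, b = Nat.find hex1 := ⟨_, rfl⟩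
  have hbT : b ≤ V.T := hb ▸ Nat.find_le ⟨haT, by linarith⟩
  obtain ⟨hab, hrb⟩ : a ≤ b ∧ 32 * ρm ≤ V.r b := hb ▸ Nat.find_spec hex1
  have hbelow : ∀ i, a ≤ i → i < b → V.r i < 32 * ρm := by
    intro i h1 h2
    by_contra hc
    exact Nat.find_min hex1 (hb ▸ h2) ⟨h1, not_lt.1 hc⟩
  -- the far scales
  obtain ⟨K, hK⟩ : ∃ K, K = 128 * Cx * V.β := ⟨_, rfl⟩
  have hK1 : 1 ≤ K := by rw [hK]; nlinarith
  have hex2 : ∃ i, a ≤ i ∧ (K * t ≤ V.r i ∨ b ≤ i) := ⟨b, hab, Or.inr le_rfl⟩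
  obtain ⟨s, hs⟩ : ∃ s, s = Nat.find hex2 := ⟨_, rfl⟩
  have has : a ≤ s := hs ▸ (Nat.find_spec hex2).1
  have hsb : s ≤ b := hs ▸ Nat.find_le ⟨hab, Or.inr le_rfl⟩
  have hnear : ∀ i, a ≤ i → i < s → V.r i < K * t := by
    intro i h1 h2
    by_contra hc
    exact Nat.find_min hex2 (hs ▸ h2) ⟨h1, Or.inl (not_lt.1 hc)⟩
  have hfar : ∀ i, s ≤ i → i < b → K * t ≤ V.r i := by
    intro i h1 h2
    rcases (hs ▸ (Nat.find_spec hex2).2 : K * t ≤ V.r s ∨ b ≤ s) with h | h
    · exact h.trans (r_mono V h1)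
    · omega
  subst hρm ht hK
  exact ⟨⟨a, s, b, has, hsb, hbT, le_trans (hx0 ▸ le_max_left _ _) hxa,
    le_trans (hx0 ▸ le_max_right _ _) hxa, hx0 ▸ haup, hrb, hbelow, hnear, hfar⟩⟩

variable {V} {y y' : Fin n} {δ0 : ℝ} (S : Scales V y y' δ0)

lemma Scales.omega_eq_one {i : ℕ} (hi : S.a ≤ i) {z : Fin n} (hz : V.ρ z ≤ max (V.ρ y) (V.ρ y')) :
    V.ω z i = 1 :=
  omega_one V ((le_trans ((div_le_div_iff_of_pos_right (by positivity)).2
    (by linarith [V.ρ_pos z])) S.low_ρ).trans (r_mono V hi))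

/-- The growth of balls at the scales of a pair. -/
noncomputable def nu26 (V : SplitEnv p Cx n N) (y : Fin n) (i : ℕ) : ℝ :=
  nuG (lpD p V.X) V.β 26 (V.base + i) y

lemma one_le_nu26 (i : ℕ) : 1 ≤ nu26 V y i :=
  one_le_nuG _ (by linarith [V.one_le_β]) _ _ _

lemma nu26_le (i : ℕ) : nu26 V y i ≤ 2 * V.β := by
  have := nuG_le (lpD p V.X) V.β 26 (V.base + i) y
  have := V.one_le_β
  rw [nu26]; linarith

/-- The weights of the bad scales. -/
noncomputable def Scales.ν (i : ℕ) : ℝ := 1024 * Cx * if i < S.s then V.β else nu26 V y i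

lemma Scales.one_le_ν (i : ℕ) : 1 ≤ S.ν i := by
  have := V.one_le_Cx; have := V.one_le_β
  have := one_le_nu26 (V := V) (y := y) i
  rw [Scales.ν]
  split_ifs <;> nlinarith

lemma Scales.ν_nonneg (i : ℕ) : 0 ≤ S.ν i := zero_le_one.trans (S.one_le_ν i)

lemma Scales.ν_le (i : ℕ) : S.ν i ≤ 2048 * Cx * V.β := by
  have := V.one_le_Cx; have := V.one_le_β
  have := nu26_le (V := V) (y := y) i
  rw [Scales.ν]
  split_ifs <;> nlinarith

/-- The change of the statistics at one scale. -/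
noncomputable def chg (V : SplitEnv p Cx n N) (y y' : Fin n) (i : ℕ) : ℝ :=
  3 * (tv (V.W i y) (V.W i y') + tv (V.W (i + 1) y) (V.W (i + 1) y'))

lemma chg_nonneg (i : ℕ) : 0 ≤ chg V y y' i :=
  mul_nonneg (by norm_num) (add_nonneg (tv_nonneg _ _) (tv_nonneg _ _))

lemma Scales.tv_le {i j : ℕ} (hai : S.a ≤ i) (hib : i < S.b) (hij : i ≤ j) (hji : j ≤ i + 1) :
    tv (V.W j y) (V.W j y') ≤ Cx * nu26 V y i * (lpD p V.X y y' / V.r i) := by
  refine tv_le_nu V y y' hij hji ?_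
  have h1 := r_mono V hji
  rw [r_succ] at h1
  linarith [S.below i hai hib, V.ρ_pos y, le_max_left (V.ρ y) (V.ρ y')]

lemma Scales.tv_small {i j : ℕ} (hsi : S.s ≤ i) (hib : i < S.b) (hij : i ≤ j) (hji : j ≤ i + 1) :
    tv (V.W j y) (V.W j y') ≤ 1 / 64 := by
  have := V.one_le_Cx
  have ht0 := lpD_nonneg p V.X y y'
  refine (S.tv_le (S.a_le_s.trans hsi) hib hij hji).trans ?_
  rw [mul_div, div_le_iff₀ (r_pos V i)]
  calc Cx * nu26 V y i * lpD p V.X y y' ≤ Cx * (2 * V.β) * lpD p V.X y y' := by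
        gcongr; exact nu26_le i
    _ = 1 / 64 * (128 * Cx * V.β * lpD p V.X y y') := by ring
    _ ≤ 1 / 64 * V.r i := mul_le_mul_of_nonneg_left (S.far i hsi hib) (by norm_num)

lemma Scales.chg_le {i : ℕ} (hsi : S.s ≤ i) (hib : i < S.b) :
    chg V y y' i ≤ 6 * Cx * nu26 V y i * (lpD p V.X y y' / V.r i) := by
  have := S.tv_le (S.a_le_s.trans hsi) hib le_rfl (Nat.le_succ i)
  have := S.tv_le (S.a_le_s.trans hsi) hib (Nat.le_succ i) le_rfl
  rw [chg]; linarith

lemma Scales.sum_chg_le : ∑ i ∈ Ico S.s S.b, chg V y y' i ^ V.q ≤ 1 := by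
  have hCx := V.one_le_Cx
  have ht0 := lpD_nonneg p V.X y y'
  have hgeo : ∀ i ∈ Ico S.s S.b, chg V y y' i ^ V.q ≤ 1 / 4 * (1 / 2) ^ (i - S.s) := by
    intro i hi
    obtain ⟨h1, h2⟩ := mem_Ico.1 hi
    have e1 : chg V y y' i ≤ 1 / 4 * (1 / 2) ^ (i - S.s) := by
      refine (S.chg_le h1 h2).trans ?_
      obtain ⟨m, rfl⟩ := Nat.exists_eq_add_of_le h1
      have h4 := S.far S.s le_rfl (by omega)
      rw [Nat.add_sub_cancel_left, r_add, one_div_pow, mul_div, div_le_iff₀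
        (mul_pos (r_pos V S.s) (by positivity))]
      calc 6 * Cx * nu26 V y (S.s + m) * lpD p V.X y y'
          ≤ 6 * Cx * (2 * V.β) * lpD p V.X y y' := by gcongr; exact nu26_le _
        _ ≤ 1 / 4 * (128 * Cx * V.β * lpD p V.X y y') := by
            have : 0 ≤ Cx * V.β * lpD p V.X y y' :=
              mul_nonneg (mul_nonneg (by linarith) (by linarith [V.one_le_β])) ht0
            linarith
        _ ≤ 1 / 4 * V.r S.s := by linarith
        _ = _ := by field_simp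
    have : chg V y y' i ≤ 1 := e1.trans (by
      have : ((1:ℝ) / 2) ^ (i - S.s) ≤ 1 := pow_le_one₀ (by norm_num) (by norm_num)
      linarith)
    exact (pow_le_of_le_one (chg_nonneg i) this (zero_lt_q V).ne').trans e1
  refine (Finset.sum_le_sum hgeo).trans ?_
  rw [Finset.sum_Ico_eq_sum_range]
  simp only [Nat.add_sub_cancel_left, ← Finset.mul_sum]
  linarith [sum_geometric_two_le (S.b - S.s)]

/-- The unit of level `l` at coordinate `k`. -/
noncomputable def unitZ (V : SplitEnv p Cx n N) (y y' : Fin n) (k : Fin N) (l : ℕ) : ℝ :=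
  (4 * Cx + 1) * 2 ^ l * V.s k * lpD p V.X y y'

lemma unitZ_nonneg (k : Fin N) (l : ℕ) : 0 ≤ unitZ V y y' k l := by
  have := V.one_le_Cx
  exact mul_nonneg (mul_nonneg (by positivity) (V.s_nonneg k)) (lpD_nonneg _ _ _ _)

lemma theta_eq (hy : y ≠ y') (k : Fin N) (l i : ℕ) :
    V.θ k l i = unitZ V y y' k l * (V.r i / lpD p V.X y y') := by
  have := ((fmetric_lpD V.one_le_p V.injX).pos y y' hy).ne'
  rw [SplitEnv.θ, unitZ]; field_simp

lemma Scales.theta_s_le (hy : y ≠ y') (k : Fin N) (l : ℕ) (has : S.a < S.s) :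
    V.θ k l S.s ≤ unitZ V y y' k l * (256 * Cx * V.β) := by
  rw [theta_eq hy]
  refine mul_le_mul_of_nonneg_left ?_ (unitZ_nonneg k l)
  rw [div_le_iff₀ ((fmetric_lpD V.one_le_p V.injX).pos y y' hy)]
  have hlt := S.near (S.s - 1) (by omega) (by omega)
  rw [show S.s = S.s - 1 + 1 by omega, r_succ]
  linarith

/-- Both means at the pure scale are within `t + θ` of each other. -/
lemma Scales.pure_diff (hsc : ScaleStmt p) (k : Fin N) (l : ℕ) (hsb : S.s = S.b) :
    |V.M k l y S.s - V.M k l y' S.s| ≤ unitZ V y y' k l + V.θ k l S.s := by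
  have hCx := V.one_le_Cx
  obtain ⟨ρm, hρm⟩ : ∃ ρm, ρm = max (V.ρ y) (V.ρ y') := ⟨_, rfl⟩
  have hρy : V.ρ y ≤ ρm := hρm ▸ le_max_left _ _
  have hρy' : V.ρ y' ≤ ρm := hρm ▸ le_max_right _ _
  have hρ0 : 0 < ρm := lt_of_lt_of_le (V.ρ_pos y) hρy
  have hrs : 32 * ρm ≤ V.r S.s := by rw [hsb, hρm]; exact S.top
  rw [((hsc Cx n N V k l y y S.s).2.2.1 (by linarith)).2.2,
    ((hsc Cx n N V k l y' y' S.s).2.2.1 (by linarith)).2.2]
  have hdiff : ∀ z z', V.W S.s y z ≠ 0 → V.W S.s y' z' ≠ 0 →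
      |V.X z k - V.X z' k| ≤ V.s k * (lpD p V.X y y' + 2 * Cx * ρm) := by
    intro z z' hz hz'
    obtain ⟨hzC, hzd⟩ := V.pure S.s y (by rw [← SplitEnv.r]; linarith) z hz
    obtain ⟨hzC', hzd'⟩ := V.pure S.s y' (by rw [← SplitEnv.r]; linarith) z' hz'
    refine (V.sens k z hzC z' hzC').trans (mul_le_mul_of_nonneg_left ?_ (V.s_nonneg k))
    have hm := fmetric_lpD V.one_le_p V.injX
    have h1 := hm.tri z y z'
    have h2 := hm.tri y y' z'
    rw [hm.symm z y] at h1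
    nlinarith
  have hw := V.isW S.s y
  have hw' := V.isW S.s y'
  have e1 : ∑ z, V.W S.s y z * V.X z k - ∑ z, V.W S.s y' z * V.X z k
      = ∑ z, ∑ z', V.W S.s y z * V.W S.s y' z' * (V.X z k - V.X z' k) := by
    simp only [mul_sub, Finset.sum_sub_distrib]
    congr 1
    · refine Finset.sum_congr rfl fun z _ => ?_
      rw [← Finset.sum_mul, ← Finset.mul_sum, hw'.sum_one, mul_one]
    · rw [Finset.sum_comm]
      refine Finset.sum_congr rfl fun z' _ => ?_
      rw [← Finset.sum_mul, ← Finset.sum_mul, hw.sum_one, one_mul]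
  rw [e1]
  refine (Finset.abs_sum_le_sum_abs _ _).trans ?_
  calc ∑ z, |∑ z', V.W S.s y z * V.W S.s y' z' * (V.X z k - V.X z' k)|
      ≤ ∑ z, ∑ z', V.W S.s y z * V.W S.s y' z' *
          (V.s k * (lpD p V.X y y' + 2 * Cx * ρm)) := by
        refine Finset.sum_le_sum fun z _ => (Finset.abs_sum_le_sum_abs _ _).trans
          (Finset.sum_le_sum fun z' _ => ?_)
        rw [abs_mul, abs_of_nonneg (mul_nonneg (hw.nonneg z) (hw'.nonneg z'))]
        by_cases hz : V.W S.s y z = 0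
        · simp [hz]
        by_cases hz' : V.W S.s y' z' = 0
        · simp [hz']
        exact mul_le_mul_of_nonneg_left (hdiff z z' hz hz')
          (mul_nonneg (hw.nonneg z) (hw'.nonneg z'))
    _ = V.s k * lpD p V.X y y' + 2 * Cx * V.s k * ρm := by
        simp_rw [← Finset.sum_mul, ← Finset.mul_sum, hw'.sum_one, mul_one, hw.sum_one, one_mul]
        ring
    _ ≤ unitZ V y y' k l + V.θ k l S.s := by
        have h6 : (1:ℝ) ≤ 2 ^ l := one_le_pow₀ one_le_two
        refine add_le_add ?_ ?_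
        · exact mul_le_mul_of_nonneg_right (le_mul_of_one_le_left (V.s_nonneg k) (by nlinarith))
            (lpD_nonneg _ _ _ _)
        · exact mul_le_mul (mul_le_mul_of_nonneg_right (by nlinarith) (V.s_nonneg k))
            (by linarith) hρ0.le (mul_nonneg (by positivity) (V.s_nonneg k))

lemma Scales.chain_at (hy : y ≠ y') (hsc : ScaleStmt p) {C0 : ℝ}
    (hchain : ∀ (T i0 is : ℕ) (θ ν e φ φ' M M' : ℕ → ℝ) (Z E : ℝ), i0 ≤ is → is ≤ T → 0 ≤ Z →
      0 ≤ E → (∀ i, 0 ≤ θ i) → (∀ i, θ (i + 1) = 2 * θ i) → (∀ i, 0 ≤ ν i) → (∀ i, 0 ≤ e i) →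
      (∀ i ∈ Ico i0 T, φ i < eta0 → |M i - M (i + 1)| ≤ 16 * θ i) →
      (∀ i ∈ Ico i0 T, φ' i < eta0 → |M' i - M' (i + 1)| ≤ 16 * θ i) →
      (∀ i ∈ Ico is T, φ' i < eta0 → |M i - M (i + 1)| ≤ 16 * θ i) →
      (∀ i ∈ Ico is T, (i + 1 = T ∨ φ' (i + 1) < eta0) → |M (i + 1) - M' (i + 1)| ≤ Z * ν i) →
      (∀ i ∈ Ico is T, |φ i - φ' i| ≤ e i ∧ e i * θ i ≤ Z * ν i) →
      (∑ i ∈ Ico is T, e i ^ V.q ≤ E) →
      (∀ i ∈ Ico i0 is, θ is ≤ Z * ν i ∧
        ((is = T ∨ φ' is < eta0) → |M is - M' is| ≤ Z * ν i)) →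
      ∃ P : ℝ, 0 ≤ P ∧ P ≤ 1 ∧
        ((∀ i ∈ Ico i0 T, φ i ≤ eta0 / 2 ∧ φ' i ≤ eta0 / 2) → P = 1) ∧
        |chainVal V.q θ φ M i0 T - chainVal V.q θ φ' M' i0 T - P * (M i0 - M' i0)|
          ≤ C0 * (1 + E) * Z *
            (∑ i ∈ (Ico i0 T).filter (fun i => eta0 / 2 < φ i ∨ eta0 / 2 < φ' i),
              ν i ^ V.q) ^ (1 / (V.q:ℝ)))
    (k : Fin N) (l : ℕ) :
    ∃ P : ℝ, 0 ≤ P ∧ P ≤ 1 ∧
      ((∀ i ∈ Ico S.a S.b, V.φ k l y i ≤ eta0 / 2 ∧ V.φ k l y' i ≤ eta0 / 2) → P = 1) ∧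
      |chainVal V.q (V.θ k l) (V.φ k l y) (V.M k l y) S.a S.b
          - chainVal V.q (V.θ k l) (V.φ k l y') (V.M k l y') S.a S.b
          - P * (V.M k l y S.a - V.M k l y' S.a)|
        ≤ C0 * (1 + 1) * unitZ V y y' k l *
          (∑ i ∈ (Ico S.a S.b).filter
            (fun i => eta0 / 2 < V.φ k l y i ∨ eta0 / 2 < V.φ k l y' i),
            S.ν i ^ V.q) ^ (1 / (V.q:ℝ)) := by
  have hCx := V.one_le_Cx
  have hβ := V.one_le_β
  have hG0 := unitZ_nonneg (V := V) (y := y) (y' := y') k l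
  have hsc' := fun z z' i => hsc Cx n N V k l z z' i
  refine hchain S.b S.a S.s (V.θ k l) S.ν (chg V y y') _ _ _ _ (unitZ V y y' k l) 1 S.a_le_s
    S.s_le_b hG0 zero_le_one (fun i => (hsc' y y i).1.1) (fun i => (hsc' y y i).1.2) S.ν_nonneg
    chg_nonneg (fun i _ => (hsc' y y i).2.2.2.1) (fun i _ => (hsc' y' y' i).2.2.2.1)
    ?_ ?_ ?_ S.sum_chg_le ?_
  · intro i hi hφ
    obtain ⟨h1, h2⟩ := mem_Ico.1 hi
    exact (hsc' y y' i).2.2.2.2.1 hφ (S.tv_small h1 h2 le_rfl (Nat.le_succ i))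
      (S.tv_small h1 h2 (Nat.le_succ i) le_rfl)
  · intro i hi hor
    obtain ⟨h1, h2⟩ := mem_Ico.1 hi
    have hφ : V.φ k l y' (i + 1) < eta0 := by
      rcases hor with h | h
      · rw [h, ((hsc' y' y' S.b).2.2.1 (by
          linarith [S.top, le_max_right (V.ρ y) (V.ρ y'), V.ρ_pos y'])).1]
        norm_num [eta0]
      · exact h
    refine ((hsc' y y' (i + 1)).2.2.2.2.2.1 hφ
      (S.tv_small h1 h2 (Nat.le_succ i) le_rfl)).trans ?_
    rw [(hsc' y y i).1.2, Scales.ν, if_neg (not_lt.2 h1), theta_eq hy]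
    calc 200 * tv (V.W (i + 1) y) (V.W (i + 1) y')
          * (2 * (unitZ V y y' k l * (V.r i / lpD p V.X y y')))
        ≤ 200 * (Cx * nu26 V y i * (lpD p V.X y y' / V.r i))
          * (2 * (unitZ V y y' k l * (V.r i / lpD p V.X y y'))) := by
          have := (r_pos V i).le
          have := lpD_nonneg p V.X y y'
          gcongr
          exact S.tv_le (S.a_le_s.trans h1) h2 (Nat.le_succ i) le_rfl
      _ = unitZ V y y' k l * (400 * Cx * nu26 V y i) := by
          have := (r_pos V i).ne'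
          have := ((fmetric_lpD V.one_le_p V.injX).pos y y' hy).ne'
          field_simp
          ring
      _ ≤ _ := by
          refine mul_le_mul_of_nonneg_left ?_ hG0
          nlinarith [one_le_nu26 (V := V) (y := y) i]
  · intro i hi
    obtain ⟨h1, h2⟩ := mem_Ico.1 hi
    refine ⟨(hsc' y y' i).2.2.2.2.2.2.1, ?_⟩
    rw [Scales.ν, if_neg (not_lt.2 h1), theta_eq hy]
    calc chg V y y' i * (unitZ V y y' k l * (V.r i / lpD p V.X y y'))
        ≤ 6 * Cx * nu26 V y i * (lpD p V.X y y' / V.r i)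
          * (unitZ V y y' k l * (V.r i / lpD p V.X y y')) := by
          have := (r_pos V i).le
          have := lpD_nonneg p V.X y y'
          gcongr
          exact S.chg_le h1 h2
      _ = unitZ V y y' k l * (6 * Cx * nu26 V y i) := by
          have := (r_pos V i).ne'
          have := ((fmetric_lpD V.one_le_p V.injX).pos y y' hy).ne'
          field_simp
      _ ≤ _ := by
          refine mul_le_mul_of_nonneg_left ?_ hG0
          nlinarith [one_le_nu26 (V := V) (y := y) i]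
  · intro i hi
    obtain ⟨h1, h2⟩ := mem_Ico.1 hi
    have hθs := S.theta_s_le hy k l (by omega)
    rw [Scales.ν, if_pos h2]
    have hle : ∀ c : ℝ, c ≤ 1024 * Cx * V.β →
        unitZ V y y' k l * c ≤ unitZ V y y' k l * (1024 * Cx * V.β) :=
      fun c hc => mul_le_mul_of_nonneg_left hc hG0
    refine ⟨hθs.trans (hle _ (by nlinarith)), fun hor => ?_⟩
    rcases S.s_le_b.eq_or_lt with hsb | hsb
    · calc |V.M k l y S.s - V.M k l y' S.s| ≤ unitZ V y y' k l + V.θ k l S.s :=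
            S.pure_diff hsc k l hsb
        _ ≤ unitZ V y y' k l + unitZ V y y' k l * (256 * Cx * V.β) := by linarith
        _ = unitZ V y y' k l * (1 + 256 * Cx * V.β) := by ring
        _ ≤ _ := hle _ (by nlinarith)
    · have hφ : V.φ k l y' S.s < eta0 := by
        rcases hor with h | h
        · omega
        · exact h
      have hs64 := S.tv_small le_rfl hsb le_rfl (Nat.le_succ S.s)
      refine ((hsc' y y' S.s).2.2.2.2.2.1 hφ hs64).trans ?_
      calc 200 * tv (V.W S.s y) (V.W S.s y') * V.θ k l S.s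
          ≤ 200 * (1 / 64) * (unitZ V y y' k l * (256 * Cx * V.β)) := by
            have := (hsc' y y S.s).1.1
            gcongr
        _ = unitZ V y y' k l * (200 * (1 / 64) * (256 * Cx * V.β)) := by ring
        _ ≤ _ := hle _ (by nlinarith)

lemma Scales.card_le : ((S.b - S.a : ℕ) : ℝ) ≤ (V.B:ℝ) + 4 := by
  have hρ := lt_of_lt_of_le (V.ρ_pos y) (le_max_left (V.ρ y) (V.ρ y'))
  have h2B : (1:ℝ) ≤ 2 ^ V.B := one_le_pow₀ one_le_two
  refine (card_scales V (x := 4 * max (V.ρ y) (V.ρ y') / 2 ^ V.B) (K := 8 * 2 ^ V.B)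
    (by positivity) (by linarith) S.low_ρ fun i h1 h2 => ?_).trans (le_of_eq ?_)
  · refine lt_of_lt_of_le (S.below i h1 h2) (le_of_eq ?_)
    field_simp
    ring
  · rw [show (8:ℝ) * 2 ^ V.B = 2 ^ (V.B + 3) by ring, Real.logb_pow,
      Real.logb_self_eq_one one_lt_two]
    push_cast; ring

lemma Scales.qnorm_le (F : ℕ → Prop) [DecidablePred F] :
    (∑ i ∈ (Ico S.a S.b).filter F, S.ν i ^ V.q) ^ (1 / (V.q:ℝ))
      ≤ ((V.B:ℝ) + 4) * (2048 * Cx * V.β) := by
  have := V.one_le_Cx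
  have := V.one_le_β
  refine (qnorm_le_sum (zero_lt_q V) _ S.ν S.ν_nonneg).trans ?_
  refine (Finset.sum_le_sum fun i _ => S.ν_le i).trans ?_
  rw [Finset.sum_const, nsmul_eq_mul]
  refine mul_le_mul_of_nonneg_right (le_trans ?_ S.card_le) (by positivity)
  exact_mod_cast (Finset.card_filter_le _ _).trans (Nat.card_Ico _ _).le

lemma Scales.sum_ν_le (hy : y ≠ y') (hp : 1 ≤ p) (hδ0 : 0 < δ0) (hδ1 : δ0 ≤ 1) :
    ∑ i ∈ Ico S.a S.b, S.ν i ^ p ≤ (1024 * |Cx|) ^ p
      * (2 + Real.logb 2 (128 * |Cx| + 1) + (2:ℝ) ^ p * 57)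
      * (V.β ^ p * (1 + Real.logb 2 (V.β / δ0)) + ((V.B:ℝ) + 1)
          + V.β ^ (p - 1) * Real.log n) := by
  have hCx := V.one_le_Cx
  have hβ := V.one_le_β
  have ht0 := (fmetric_lpD V.one_le_p V.injX).pos y y' hy
  have hlogβ : 0 ≤ Real.logb 2 (V.β / δ0) := by
    refine Real.logb_nonneg one_lt_two ((one_le_div hδ0).2 ?_)
    linarith
  have hnearc : ((S.s - S.a : ℕ) : ℝ) ≤
      (2 + Real.logb 2 (128 * |Cx| + 1)) * (1 + Real.logb 2 (V.β / δ0)) := by
    have h1 := card_scales V (x := δ0 * lpD p V.X y y') (K := 128 * Cx * (V.β / δ0)) (b := S.s)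
      (by positivity) (one_le_mul_of_one_le_of_one_le (by linarith)
        ((one_le_div hδ0).2 (by linarith))) S.low_t fun i h1 h2 => by
        refine lt_of_lt_of_le (S.near i h1 h2) (le_of_eq ?_)
        field_simp
    rw [Real.logb_mul (by positivity) (by positivity)] at h1
    have h2 : Real.logb 2 (128 * Cx) ≤ Real.logb 2 (128 * |Cx| + 1) :=
      Real.logb_le_logb_of_le one_lt_two (by positivity) (by linarith [le_abs_self Cx])
    have h3 : 0 ≤ Real.logb 2 (128 * |Cx| + 1) :=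
      Real.logb_nonneg one_lt_two (by linarith [abs_nonneg Cx])
    nlinarith
  have hfars : ∑ i ∈ Ico S.s S.b, nu26 V y i ^ p
      ≤ (2:ℝ) ^ p * (((V.B:ℝ) + 4) + V.β ^ (p - 1) * (2 * 26) * Real.log n) := by
    rcases Nat.lt_or_ge S.s S.b with hsb | hsb
    · refine le_trans (le_trans ?_ (nuG_sum hp (lpD p V.X) (by linarith : (0:ℝ) ≤ V.β) 26
          (V.base + S.s) (V.base + S.b - 1) y)) ?_
      · simp only [nu26]
        rw [← Finset.sum_image (s := Ico S.s S.b) (g := fun i : ℕ => V.base + (i:ℤ))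
          (f := fun z => nuG (lpD p V.X) V.β 26 z y ^ p) fun i _ j _ h => by simpa using h]
        refine Finset.sum_le_sum_of_subset_of_nonneg ?_ fun z _ _ => Real.rpow_nonneg
          (zero_le_one.trans (one_le_nuG _ (by linarith) _ _ _)) _
        intro z hz
        obtain ⟨i, hi, rfl⟩ := Finset.mem_image.1 hz
        simp only [mem_Ico] at hi
        simp only [Finset.mem_Icc]
        omega
      · push_cast
        gcongr
        refine le_trans ?_ S.card_le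
        rw [Int.card_Icc]
        have := S.a_le_s
        exact_mod_cast (by omega :
          (V.base + S.b - 1 + 1 - (V.base + S.s)).toNat ≤ S.b - S.a)
    · rw [Finset.Ico_eq_empty (by omega), Finset.sum_empty]
      have := Real.log_natCast_nonneg n
      positivity
  have hsum : ∑ i ∈ Ico S.a S.b, S.ν i ^ p = (1024 * Cx) ^ p
      * (((S.s - S.a : ℕ) : ℝ) * V.β ^ p + ∑ i ∈ Ico S.s S.b, nu26 V y i ^ p) := by
    rw [← Finset.sum_Ico_consecutive _ S.a_le_s S.s_le_b, mul_add, Finset.mul_sum]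
    congr 1
    · rw [Finset.sum_congr rfl fun i hi => by
        rw [Scales.ν, if_pos (mem_Ico.1 hi).2, Real.mul_rpow (by positivity) (by linarith)],
        Finset.sum_const, nsmul_eq_mul, Nat.card_Ico]
      ring
    · refine Finset.sum_congr rfl fun i hi => ?_
      rw [Scales.ν, if_neg (not_lt.2 (mem_Ico.1 hi).1),
        Real.mul_rpow (by positivity) (zero_le_one.trans (one_le_nu26 i))]
  have h3 : 0 ≤ V.β ^ p * (1 + Real.logb 2 (V.β / δ0)) := by positivity
  have h4 : 0 ≤ V.β ^ (p - 1) * Real.log n :=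
    mul_nonneg (by positivity) (Real.log_natCast_nonneg n)
  have h5 : 0 ≤ Real.logb 2 (128 * |Cx| + 1) :=
    Real.logb_nonneg one_lt_two (by linarith [abs_nonneg Cx])
  rw [hsum, abs_of_nonneg (by linarith : (0:ℝ) ≤ Cx), mul_assoc _ (_ + _) (_ + _)]
  refine mul_le_mul_of_nonneg_left ?_ (by positivity)
  refine (add_le_add (mul_le_mul_of_nonneg_right hnearc (by positivity)) hfars).trans ?_
  rw [abs_of_nonneg (by linarith : (0:ℝ) ≤ Cx)] at *
  have h6 : (1:ℝ) ≤ 2 ^ p := Real.one_le_rpow one_le_two (by linarith)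
  have hB0 : (0:ℝ) ≤ V.B := Nat.cast_nonneg _
  nlinarith [mul_nonneg h5 h4, mul_nonneg h5 hB0, mul_nonneg (le_trans zero_le_one h6) h3,
    mul_nonneg (le_trans zero_le_one h6) hB0, mul_nonneg (le_trans zero_le_one h6) h4]

lemma energy_bad (hy : y ≠ y') (hsc : ScaleStmt p) {CE : ℝ} (i J : ℕ)
    (henergy : ∀ z : Fin n, ∑ k, ∑ l ∈ range J,
      (if eta0 / 2 < V.φ k l z i then V.θ k l i ^ p else 0) ≤ CE * V.r i ^ p) :
    ∑ k, ∑ l ∈ range J,
      (if eta0 / 2 < V.φ k l y i ∨ eta0 / 2 < V.φ k l y' i then unitZ V y y' k l ^ p else 0)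
        ≤ 2 * CE * lpD p V.X y y' ^ p := by
  have hr := r_pos V i
  have ht0 := (fmetric_lpD V.one_le_p V.injX).pos y y' hy
  have hre : ∀ k l, unitZ V y y' k l ^ p
      = (lpD p V.X y y' / V.r i) ^ p * V.θ k l i ^ p := fun k l => by
    rw [← Real.mul_rpow (by positivity) (hsc Cx n N V k l y y i).1.1, theta_eq hy]
    congr 1
    field_simp
  calc _ ≤ ∑ k, ∑ l ∈ range J,
        ((lpD p V.X y y' / V.r i) ^ p * (if eta0 / 2 < V.φ k l y i then V.θ k l i ^ p else 0)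
          + (lpD p V.X y y' / V.r i) ^ p
            * (if eta0 / 2 < V.φ k l y' i then V.θ k l i ^ p else 0)) := by
        refine Finset.sum_le_sum fun k _ => Finset.sum_le_sum fun l _ => ?_
        have h0 : 0 ≤ (lpD p V.X y y' / V.r i) ^ p := Real.rpow_nonneg (by positivity) _
        have h1 : 0 ≤ V.θ k l i ^ p := Real.rpow_nonneg (hsc Cx n N V k l y y i).1.1 _
        rw [hre]
        split_ifs <;> simp_all <;> nlinarith
    _ ≤ (lpD p V.X y y' / V.r i) ^ p * (CE * V.r i ^ p)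
        + (lpD p V.X y y' / V.r i) ^ p * (CE * V.r i ^ p) := by
        simp_rw [Finset.sum_add_distrib, ← Finset.mul_sum]
        exact add_le_add (mul_le_mul_of_nonneg_left (henergy y) (by positivity))
          (mul_le_mul_of_nonneg_left (henergy y') (by positivity))
    _ = _ := by
        rw [Real.div_rpow ht0.le hr.le]
        field_simp
        ring

lemma Scales.norm_e_le (hsc : ScaleStmt p) (l : ℕ) (P : Fin N → ℝ) (hP : ∀ k, 0 ≤ P k ∧ P k ≤ 1) :
    lpN p (fun k => P k * ((V.M k l y S.a - V.X y k) - (V.M k l y' S.a - V.X y' k))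
      + (rem V S.a k l y - rem V S.a k l y')) ≤ 24 * Cx * V.r S.a := by
  have hp := V.one_le_p
  refine (lpN_add_le hp (fun k => P k * ((V.M k l y S.a - V.X y k)
    - (V.M k l y' S.a - V.X y' k))) (fun k => rem V S.a k l y - rem V S.a k l y')).trans ?_
  have h1 := (lpN_sub_le hp (fun k => rem V S.a k l y) (fun k => rem V S.a k l y')).trans
    (add_le_add (lpN_rem_le V hsc S.a l y) (lpN_rem_le V hsc S.a l y'))
  have h2 : lpN p (fun k => P k * ((V.M k l y S.a - V.X y k) - (V.M k l y' S.a - V.X y' k)))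
      ≤ 6 * Cx * V.r S.a := by
    refine (lpN_mono (by linarith) _
      (fun k => (V.M k l y S.a - V.X y k) - (V.M k l y' S.a - V.X y' k)) fun k => ?_).trans ?_
    · rw [abs_mul, abs_of_nonneg (hP k).1]
      exact mul_le_of_le_one_left (abs_nonneg _) (hP k).2
    rcases isEmpty_or_nonempty (Fin N) with hN | hN
    · rw [lpN_empty (by linarith)]
      exact mul_nonneg (by linarith [V.one_le_Cx]) (r_pos V S.a).le
    refine (lpN_sub_le hp _ _).trans ?_
    obtain ⟨k0⟩ := hN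
    linarith [(hsc Cx n N V k0 l y y' S.a).2.2.2.2.2.2.2.1,
      (hsc Cx n N V k0 l y' y S.a).2.2.2.2.2.2.2.1]
  linarith

lemma Scales.delta_le (hδ : 0 ≤ δ0) : 24 * Cx * V.r S.a
    ≤ 192 * Cx * (δ0 * lpD p V.X y y' + (V.ρ y + V.ρ y') / 2 ^ V.B) := by
  have hCx := V.one_le_Cx
  have := V.ρ_pos y
  have := V.ρ_pos y'
  have ht0 : 0 ≤ δ0 * lpD p V.X y y' := mul_nonneg hδ (lpD_nonneg _ _ _ _)
  have hx : max (δ0 * lpD p V.X y y') (4 * max (V.ρ y) (V.ρ y') / 2 ^ V.B)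
      ≤ δ0 * lpD p V.X y y' + 4 * (V.ρ y + V.ρ y') / 2 ^ V.B := by
    refine max_le (le_add_of_nonneg_right (by positivity))
      (le_trans ?_ (le_add_of_nonneg_left ht0))
    gcongr
    exact max_le (by linarith) (by linarith)
  calc 24 * Cx * V.r S.a
      ≤ 24 * Cx * (2 * (δ0 * lpD p V.X y y' + 4 * (V.ρ y + V.ρ y') / 2 ^ V.B)) := by
        gcongr; linarith [S.a_upper]
    _ = 48 * Cx * (δ0 * lpD p V.X y y') + 192 * Cx * ((V.ρ y + V.ρ y') / 2 ^ V.B) := by ring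
    _ ≤ _ := by
        rw [mul_add]
        exact add_le_add (mul_le_mul_of_nonneg_right (by linarith) ht0) le_rfl

end Pair

open Finset Pair

theorem pair {p : ℝ} (hp : 1 < p) (hsc : ScaleStmt p) (hen : EnergyStmt p) (hch : ChainStmt) :
    PairStmt p := by
  intro Cx
  obtain ⟨C0, hC0, hchain⟩ := hch (max 2 ⌈p⌉₊) (le_max_left _ _)
  obtain ⟨CE, hCE, henergy⟩ := hen Cx
  obtain ⟨Cb, hCb⟩ : ∃ Cb, Cb = max 1 (max (192 * Cx) (max (2 * (C0 + 1) * (1024 * Cx) * 20)
    (max (10 * CE) ((2 * (C0 + 1)) ^ p * (2 * CE) * (1024 * |Cx|) ^ p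
      * (2 + Real.logb 2 (128 * |Cx| + 1) + (2:ℝ) ^ p * 57))))) := ⟨_, rfl⟩
  have hc1 : 1 ≤ Cb := hCb ▸ le_max_left _ _
  have hc2 : 192 * Cx ≤ Cb := hCb ▸ (le_max_left _ _).trans (le_max_right _ _)
  have hc3 : 2 * (C0 + 1) * (1024 * Cx) * 20 ≤ Cb :=
    hCb ▸ (le_max_left _ _).trans ((le_max_right _ _).trans (le_max_right _ _))
  have hc4 : 10 * CE ≤ Cb := hCb ▸ (le_max_left _ _).trans
    ((le_max_right _ _).trans ((le_max_right _ _).trans (le_max_right _ _)))
  have hc5 : (2 * (C0 + 1)) ^ p * (2 * CE) * (1024 * |Cx|) ^ p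
      * (2 + Real.logb 2 (128 * |Cx| + 1) + (2:ℝ) ^ p * 57) ≤ Cb := hCb ▸ (le_max_right _ _).trans
    ((le_max_right _ _).trans ((le_max_right _ _).trans (le_max_right _ _)))
  clear hCb
  refine ⟨Cb, hc1, fun n N V δ0 hδ0 hδ1 J y y' hy => ?_⟩
  have hCx := V.one_le_Cx
  have hβ := V.one_le_β
  have ht0 : 0 < lpD p V.X y y' := (fmetric_lpD hp.le V.injX).pos y y' hy
  obtain ⟨S⟩ := exists_scales V hy hδ0 hδ1
  choose P hP0 hP1 hPgood hPD using S.chain_at hy hsc hchain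
  set A : Fin N → ℕ → ℝ := fun k l => 2 * (C0 + 1) *
    (∑ i ∈ (Ico S.a S.b).filter (fun i => eta0 / 2 < V.φ k l y i ∨ eta0 / 2 < V.φ k l y' i),
      S.ν i ^ V.q) ^ (1 / (V.q:ℝ)) with hA
  have hS0 : ∀ k l, 0 ≤ (∑ i ∈ (Ico S.a S.b).filter
      (fun i => eta0 / 2 < V.φ k l y i ∨ eta0 / 2 < V.φ k l y' i),
      S.ν i ^ V.q) ^ (1 / (V.q:ℝ)) := fun k l =>
    Real.rpow_nonneg (Finset.sum_nonneg fun i _ => pow_nonneg (S.ν_nonneg i) _) _
  have hbadE : ∀ i, ∑ k, ∑ l ∈ range J,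
      (if eta0 / 2 < V.φ k l y i ∨ eta0 / 2 < V.φ k l y' i then unitZ V y y' k l ^ p else 0)
        ≤ 2 * CE * lpD p V.X y y' ^ p :=
    fun i => energy_bad hy hsc i J fun z => henergy n N V z i J
  refine ⟨P, fun k l => P k l * ((V.M k l y S.a - V.X y k) - (V.M k l y' S.a - V.X y' k))
      + (rem V S.a k l y - rem V S.a k l y'),
    fun k l => chainVal V.q (V.θ k l) (V.φ k l y) (V.M k l y) S.a S.b
      - chainVal V.q (V.θ k l) (V.φ k l y') (V.M k l y') S.a S.b
      - P k l * (V.M k l y S.a - V.M k l y' S.a),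
    A, 24 * Cx * V.r S.a / lpD p V.X y y', 2 * (C0 + 1) * (((V.B:ℝ) + 4) * (2048 * Cx * V.β)),
    (2 * (C0 + 1)) ^ p * (2 * CE) * ∑ i ∈ Ico S.a S.b, S.ν i ^ p, 2 * CE * ((V.B:ℝ) + 4),
    div_nonneg (mul_nonneg (by positivity) (r_pos V S.a).le) ht0.le, ?_, ?_, by positivity,
    ?_, ?_, ?_, ?_, ?_, fun k l _ => ⟨hP0 k l, hP1 k l⟩, ?_, ?_, ?_, ?_, ?_⟩
  · exact one_le_mul_of_one_le_of_one_le (by linarith) (one_le_mul_of_one_le_of_one_le
      (by linarith [(V.B.cast_nonneg : (0:ℝ) ≤ V.B)]) (by nlinarith))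
  · exact mul_nonneg (by positivity)
      (Finset.sum_nonneg fun i _ => Real.rpow_nonneg (S.ν_nonneg i) _)
  · rw [div_mul_cancel₀ _ ht0.ne']
    refine (S.delta_le hδ0.le).trans
      (mul_le_mul_of_nonneg_right hc2 ?_)
    have := V.ρ_pos y
    have := V.ρ_pos y'
    positivity
  · calc 2 * (C0 + 1) * (((V.B:ℝ) + 4) * (2048 * Cx * V.β))
        ≤ 2 * (C0 + 1) * (((V.B:ℝ) + 1) * 4 * (2048 * Cx * V.β)) := by
          gcongr; linarith [(V.B.cast_nonneg : (0:ℝ) ≤ V.B)]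
      _ = 2 * (C0 + 1) * (1024 * Cx) * 8 * (((V.B:ℝ) + 1) * V.β) := by ring
      _ ≤ 2 * (C0 + 1) * (1024 * Cx) * 20 * (((V.B:ℝ) + 1) * V.β) := by gcongr; norm_num
      _ ≤ Cb * (((V.B:ℝ) + 1) * V.β) := mul_le_mul_of_nonneg_right hc3 (by positivity)
      _ = _ := by ring
  · have hK : 0 ≤ V.β ^ p * (1 + Real.logb 2 (V.β / δ0)) + ((V.B:ℝ) + 1)
        + V.β ^ (p - 1) * Real.log n := by
      have := Real.log_natCast_nonneg n
      have : 0 ≤ Real.logb 2 (V.β / δ0) :=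
        Real.logb_nonneg one_lt_two ((one_le_div hδ0).2 (by linarith))
      positivity
    calc (2 * (C0 + 1)) ^ p * (2 * CE) * ∑ i ∈ Ico S.a S.b, S.ν i ^ p
        ≤ (2 * (C0 + 1)) ^ p * (2 * CE) * ((1024 * |Cx|) ^ p
          * (2 + Real.logb 2 (128 * |Cx| + 1) + (2:ℝ) ^ p * 57)
          * (V.β ^ p * (1 + Real.logb 2 (V.β / δ0)) + ((V.B:ℝ) + 1)
              + V.β ^ (p - 1) * Real.log n)) :=
          mul_le_mul_of_nonneg_left (S.sum_ν_le hy hp.le hδ0 hδ1) (by positivity)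
      _ = (2 * (C0 + 1)) ^ p * (2 * CE) * (1024 * |Cx|) ^ p
          * (2 + Real.logb 2 (128 * |Cx| + 1) + (2:ℝ) ^ p * 57)
          * (V.β ^ p * (1 + Real.logb 2 (V.β / δ0)) + ((V.B:ℝ) + 1)
              + V.β ^ (p - 1) * Real.log n) := by ring
      _ ≤ _ := mul_le_mul_of_nonneg_right hc5 hK
  · calc 2 * CE * ((V.B:ℝ) + 4) ≤ 2 * CE * (5 * ((V.B:ℝ) + 1)) := by
          gcongr; linarith [(V.B.cast_nonneg : (0:ℝ) ≤ V.B)]
      _ = 10 * CE * ((V.B:ℝ) + 1) := by ring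
      _ ≤ _ := mul_le_mul_of_nonneg_right hc4 (by positivity)
  · intro k l _
    rw [levelVal_split V hsc (S.a_le_s.trans S.s_le_b) S.b_le_T k l y
        (fun i hi => S.omega_eq_one hi (le_max_left _ _))
        (by linarith [S.top, le_max_left (V.ρ y) (V.ρ y'), V.ρ_pos y]),
      levelVal_split V hsc (S.a_le_s.trans S.s_le_b) S.b_le_T k l y'
        (fun i hi => S.omega_eq_one hi (le_max_right _ _))
        (by linarith [S.top, le_max_right (V.ρ y) (V.ρ y'), V.ρ_pos y'])]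
    ring
  · intro l _
    rw [div_mul_cancel₀ _ ht0.ne', ← lpN_le_iff (by linarith : 0 < p) _
      (mul_nonneg (by positivity) (r_pos V S.a).le)]
    exact S.norm_e_le hsc l (fun k => P k l) fun k => ⟨hP0 k l, hP1 k l⟩
  · intro k l _
    refine (hPD k l).trans ?_
    rw [hA]
    change _ ≤ unitZ V y y' k l * _
    have h0 := mul_nonneg (unitZ_nonneg (V := V) (y := y) (y' := y') k l) (hS0 k l)
    linarith
  · intro k l _
    have hq : (0:ℝ) < V.q := by exact_mod_cast zero_lt_q V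
    rcases ((Ico S.a S.b).filter fun i => eta0 / 2 < V.φ k l y i ∨ eta0 / 2 < V.φ k l y' i
      ).eq_empty_or_nonempty with h | ⟨i, hi⟩
    · left
      simp only [hA, h, Finset.sum_empty, Real.zero_rpow (one_div_pos.2 hq).ne', mul_zero]
    · right
      refine ⟨one_le_mul_of_one_le_of_one_le (by linarith) (Real.one_le_rpow ?_ (by positivity)),
        mul_le_mul_of_nonneg_left (S.qnorm_le _) (by positivity)⟩
      exact (one_le_pow₀ (S.one_le_ν i)).trans (Finset.single_le_sum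
        (f := fun i => S.ν i ^ V.q) (fun j _ => pow_nonneg (S.ν_nonneg j) _) hi)
  · calc ∑ k, ∑ l ∈ range J, (unitZ V y y' k l * A k l) ^ p
        ≤ ∑ k, ∑ l ∈ range J, (2 * (C0 + 1)) ^ p * ∑ i ∈ Ico S.a S.b,
            S.ν i ^ p * (if eta0 / 2 < V.φ k l y i ∨ eta0 / 2 < V.φ k l y' i
              then unitZ V y y' k l ^ p else 0) := by
          refine Finset.sum_le_sum fun k _ => Finset.sum_le_sum fun l _ => ?_
          have hG := unitZ_nonneg (V := V) (y := y) (y' := y') k l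
          simp only [hA]
          rw [Real.mul_rpow hG (mul_nonneg (by positivity) (hS0 k l)),
            Real.mul_rpow (by positivity) (hS0 k l), mul_left_comm]
          refine mul_le_mul_of_nonneg_left ?_ (by positivity)
          simp only [mul_ite, mul_zero, ← Finset.sum_filter, ← Finset.sum_mul]
          rw [mul_comm]
          refine mul_le_mul_of_nonneg_right ?_ (Real.rpow_nonneg hG _)
          exact rpow_qnorm_le (by linarith) (zero_lt_q V)
            ((Nat.le_ceil p).trans (by exact_mod_cast le_max_right _ _)) _ S.ν S.ν_nonneg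
      _ = (2 * (C0 + 1)) ^ p * ∑ i ∈ Ico S.a S.b, S.ν i ^ p * ∑ k, ∑ l ∈ range J,
            (if eta0 / 2 < V.φ k l y i ∨ eta0 / 2 < V.φ k l y' i
              then unitZ V y y' k l ^ p else 0) := by
          simp_rw [← Finset.mul_sum]
          congr 1
          rw [Finset.sum_congr rfl fun k _ => Finset.sum_comm, Finset.sum_comm]
          exact Finset.sum_congr rfl fun i _ => by simp_rw [← Finset.mul_sum]
      _ ≤ (2 * (C0 + 1)) ^ p * ∑ i ∈ Ico S.a S.b,
            S.ν i ^ p * (2 * CE * lpD p V.X y y' ^ p) := by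
          refine mul_le_mul_of_nonneg_left (Finset.sum_le_sum fun i _ => ?_) (by positivity)
          exact mul_le_mul_of_nonneg_left (hbadE i) (Real.rpow_nonneg (S.ν_nonneg i) _)
      _ = _ := by rw [← Finset.sum_mul]; ring
  · calc ∑ k, ∑ l ∈ range J, (if P k l < 1 then unitZ V y y' k l ^ p else 0)
        ≤ ∑ k, ∑ l ∈ range J, ∑ i ∈ Ico S.a S.b,
            (if eta0 / 2 < V.φ k l y i ∨ eta0 / 2 < V.φ k l y' i
              then unitZ V y y' k l ^ p else 0) := by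
          refine Finset.sum_le_sum fun k _ => Finset.sum_le_sum fun l _ => ?_
          have hG := unitZ_nonneg (V := V) (y := y) (y' := y') k l
          have h0 : ∀ i ∈ Ico S.a S.b, (0:ℝ) ≤ if eta0 / 2 < V.φ k l y i
              ∨ eta0 / 2 < V.φ k l y' i then unitZ V y y' k l ^ p else 0 := fun i _ => by
            split_ifs
            exacts [Real.rpow_nonneg hG _, le_rfl]
          split_ifs with hP
          · by_contra hc
            refine hP.ne (hPgood k l fun i hi => ?_)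
            by_contra hi'
            rw [not_and_or, not_le, not_le] at hi'
            exact hc (le_trans (by rw [if_pos hi']) (Finset.single_le_sum h0 hi))
          · exact Finset.sum_nonneg h0
      _ = ∑ i ∈ Ico S.a S.b, ∑ k, ∑ l ∈ range J,
            (if eta0 / 2 < V.φ k l y i ∨ eta0 / 2 < V.φ k l y' i
              then unitZ V y y' k l ^ p else 0) := by
          rw [Finset.sum_congr rfl fun k _ => Finset.sum_comm, Finset.sum_comm]
      _ ≤ ∑ _i ∈ Ico S.a S.b, 2 * CE * lpD p V.X y y' ^ p :=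
          Finset.sum_le_sum fun i _ => hbadE i
      _ ≤ _ := by
          rw [Finset.sum_const, nsmul_eq_mul, Nat.card_Ico]
          calc ((S.b - S.a : ℕ) : ℝ) * (2 * CE * lpD p V.X y y' ^ p)
              ≤ ((V.B:ℝ) + 4) * (2 * CE * lpD p V.X y y' ^ p) :=
                mul_le_mul_of_nonneg_right S.card_le (by positivity)
            _ = _ := by ring

end Vale.Agent.P249.Full
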