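import Mathlib
import Vale.Agent.P249.Full.Spec
import Vale.Agent.P249.Combine

/-! Sampling rows by sensitivity, with an additive slack. -/

namespace Vale.Agent.P249.Full

open Finset

open Classical in
/-- Chernoff tails with a slack: the error is relative to `mean + M`. -/
lemma chernoff_slack {Ω : Type*} [Fintype Ω] {K : ℕ} (w : Ω → ℝ) (hw : ∀ a, 0 ≤ w a)
    (hw1 : ∑ a, w a = 1) (X : Ω → ℝ) {b : ℝ} (hb : 0 < b) (hX0 : ∀ a, 0 ≤ X a)
    (hXb : ∀ a, X a ≤ b) (μ : ℝ) (hμ : ∑ a, w a * X a = μ) {ε : ℝ} (hε0 : 0 < ε) (hε1 : ε ≤ 1)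
    {M : ℝ} (hM : 0 ≤ M) (L : ℝ) (hK : L ≤ K * M * ε ^ 2 / (4 * b)) :
    ∑ om ∈ univ.filter (fun om : Fin K → Ω => ε * (K * (μ + M)) < |∑ k, X (om k) - K * μ|),
      prodW w om ≤ 2 * Real.exp (-L) := by
  have hμ0 : 0 ≤ μ := hμ ▸ Finset.sum_nonneg fun a _ => mul_nonneg (hw a) (hX0 a)
  have hm : ∀ s : ℝ, |s| ≤ 1 →
      ∑ a, w a * Real.exp (s * (X a / b)) ≤ Real.exp ((s + s ^ 2) * (μ / b)) := by
    intro s hs
    calc ∑ a, w a * Real.exp (s * (X a / b))
        ≤ ∑ a, w a * (1 + (Real.exp s - 1) * (X a / b)) :=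
          Finset.sum_le_sum fun a _ => mul_le_mul_of_nonneg_left
            (exp_le_secant (div_nonneg (hX0 a) hb.le) ((div_le_one hb).2 (hXb a)) s) (hw a)
      _ = 1 + (Real.exp s - 1) * (μ / b) := by
          simp only [mul_add, mul_one, Finset.sum_add_distrib, hw1, ← hμ, Finset.mul_sum,
            Finset.sum_div]
          congr 1
          exact Finset.sum_congr rfl fun a _ => by ring
      _ ≤ 1 + (s + s ^ 2) * (μ / b) := by
          refine add_le_add le_rfl (mul_le_mul_of_nonneg_right ?_ (by positivity))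
          have := (abs_le.1 (Real.abs_exp_sub_one_sub_id_le hs)).2
          linarith
      _ ≤ _ := by linarith [Real.add_one_le_exp ((s + s ^ 2) * (μ / b))]
  have key : ∀ s thr : ℝ, |s| ≤ 1 → K * ((s + s ^ 2) * (μ / b)) - thr ≤ -L →
      ∀ P : (Fin K → Ω) → Prop, (∀ om, P om → thr ≤ s * ((∑ k, X (om k)) / b)) →
        ∑ om ∈ univ.filter P, prodW w om ≤ Real.exp (-L) := by
    intro s thr hs hthr P hP
    refine (tail_of_mgf w hw (fun a => s * (X a / b)) _ thr (hm s hs) P fun om hom => ?_).trans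
      (Real.exp_le_exp.2 (by linarith))
    refine (hP om hom).trans (le_of_eq ?_)
    rw [Finset.sum_div, Finset.mul_sum]
  have hb2 : (K:ℝ) * μ * ε ^ 2 / (4 * b) ≥ 0 := by positivity
  have h1 := key (ε / 2) (ε / 2 * ((K * μ + ε * (K * (μ + M))) / b))
    (by rw [abs_of_pos (by linarith)]; linarith) (by
      have : (K:ℝ) * ((ε / 2 + (ε / 2) ^ 2) * (μ / b)) - ε / 2 * ((K * μ + ε * (K * (μ + M))) / b)
          = -(K * μ * ε ^ 2 / (4 * b)) - 2 * (K * M * ε ^ 2 / (4 * b)) := by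
        field_simp; ring
      have hM2 : 0 ≤ K * M * ε ^ 2 / (4 * b) := by positivity
      linarith)
    (fun om => K * μ + ε * (K * (μ + M)) < ∑ k, X (om k)) fun om hom => by gcongr
  have h2 := key (-(ε / 2)) (-(ε / 2) * ((K * μ - ε * (K * (μ + M))) / b))
    (by rw [abs_neg, abs_of_pos (by linarith)]; linarith) (by
      have : (K:ℝ) * ((-(ε / 2) + (-(ε / 2)) ^ 2) * (μ / b))
          - -(ε / 2) * ((K * μ - ε * (K * (μ + M))) / b)
          = -(K * μ * ε ^ 2 / (4 * b)) - 2 * (K * M * ε ^ 2 / (4 * b)) := by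
        field_simp; ring
      have hM2 : 0 ≤ K * M * ε ^ 2 / (4 * b) := by positivity
      linarith)
    (fun om => ∑ k, X (om k) < K * μ - ε * (K * (μ + M))) fun om hom => by
      rw [neg_mul, neg_mul, neg_le_neg_iff]; gcongr
  calc _ ≤ ∑ om : Fin K → Ω, ((if K * μ + ε * (K * (μ + M)) < ∑ k, X (om k) then prodW w om
          else 0) + if ∑ k, X (om k) < K * μ - ε * (K * (μ + M)) then prodW w om else 0) := by
        rw [Finset.sum_filter]
        refine Finset.sum_le_sum fun om _ => ?_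
        have hw0 := prodW_nonneg hw om
        split_ifs with h <;> try linarith
        rcases lt_abs.1 h with h | h <;> linarith
    _ ≤ _ := by
        rw [Finset.sum_add_distrib, ← Finset.sum_filter, ← Finset.sum_filter]
        linarith

/-- Linear sampling of coordinates for an arbitrary finite family of vectors. -/
lemma rows_core {ι : Type*} [Fintype ι] {p : ℝ} (hp : 0 < p) {Q K : ℕ} (Y : ι → Fin Q → ℝ)
    (T : ι → ι → ℝ) (σ : Fin Q → ℝ) (hT : ∀ i j, 0 ≤ T i j) (hσ : ∀ k, 0 ≤ σ k)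
    (hsens : ∀ i j k, |Y i k - Y j k| ^ p ≤ σ k * T i j) {ε : ℝ} (hε0 : 0 < ε) (hε1 : ε ≤ 1)
    {L : ℝ} (hK : 4 * (∑ k, σ k) * L ≤ K * ε ^ 2)
    (hfail : 2 * (Fintype.card ι : ℝ) ^ 2 * Real.exp (-L) < 1) :
    ∃ Φ : ι → Fin K → ℝ, (∀ i, Y i = 0 → Φ i = 0) ∧
      ∀ i j, |powDist p (Φ i) (Φ j) - powDist p (Y i) (Y j)|
        ≤ ε * (powDist p (Y i) (Y j) + T i j) := by
  classical
  rcases eq_or_lt_of_le (Finset.sum_nonneg fun k (_ : k ∈ univ) => hσ k) with hS | hS
  · refine ⟨fun _ _ => 0, fun _ _ => rfl, fun i j => ?_⟩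
    have h0 : powDist p (Y i) (Y j) = 0 := by
      refine Finset.sum_eq_zero fun k _ => le_antisymm ?_ (Real.rpow_nonneg (abs_nonneg _) _)
      have hk := (Finset.sum_eq_zero_iff_of_nonneg fun k _ => hσ k).1 hS.symm k (Finset.mem_univ k)
      simpa [hk] using hsens i j k
    rw [h0]
    simp [powDist, Real.zero_rpow hp.ne', mul_nonneg hε0.le (hT i j)]
  set S := ∑ k, σ k with hSdef
  set w : Fin Q → ℝ := fun k => σ k / S with hw
  have hw0 : ∀ k, 0 ≤ w k := fun k => div_nonneg (hσ k) hS.le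
  have hw1 : ∑ k, w k = 1 := by rw [hw, ← Finset.sum_div, ← hSdef, div_self hS.ne']
  set Z : ι → ι → Fin Q → ℝ := fun i j k => |Y i k - Y j k| ^ p / w k with hZ
  have hZ0 : ∀ i j k, 0 ≤ Z i j k := fun i j k =>
    div_nonneg (Real.rpow_nonneg (abs_nonneg _) _) (hw0 k)
  have hzero : ∀ i j k, w k = 0 → |Y i k - Y j k| ^ p = 0 := by
    intro i j k h
    have : σ k = 0 := by simpa [hw, hS.ne'] using h
    exact le_antisymm (by simpa [this] using hsens i j k) (Real.rpow_nonneg (abs_nonneg _) _)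
  have hmean : ∀ i j, ∑ k, w k * Z i j k = powDist p (Y i) (Y j) := by
    intro i j
    refine Finset.sum_congr rfl fun k _ => ?_
    rcases eq_or_ne (w k) 0 with h | h
    · rw [h, zero_mul, hzero i j k h]
    · simp only [hZ]; field_simp
  have hbound : ∀ i j k, Z i j k ≤ S * T i j := by
    intro i j k
    rcases eq_or_ne (w k) 0 with h | h
    · simp only [hZ, h, div_zero]; exact mul_nonneg hS.le (hT i j)
    · simp only [hZ]
      rw [div_le_iff₀ (lt_of_le_of_ne (hw0 k) (Ne.symm h))]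
      exact (hsens i j k).trans (le_of_eq (by simp only [hw]; field_simp))
  set bad : ι × ι → (Fin K → Fin Q) → Prop := fun e om =>
    0 < T e.1 e.2 ∧ ε * (K * (powDist p (Y e.1) (Y e.2) + T e.1 e.2))
      < |∑ l, Z e.1 e.2 (om l) - K * powDist p (Y e.1) (Y e.2)| with hbad
  obtain ⟨om, hom⟩ := exists_good (K := K) w hw0 hw1 bad (2 * Real.exp (-L)) (by
      rintro ⟨i, j⟩
      by_cases hTij : 0 < T i j
      · refine le_trans (le_of_eq (Finset.sum_congr ?_ fun _ _ => rfl))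
          (chernoff_slack (K := K) w hw0 hw1 (Z i j) (mul_pos hS hTij) (hZ0 i j) (hbound i j)
            (powDist p (Y i) (Y j)) (hmean i j) hε0 hε1 (hT i j) L ?_)
        · ext om; simp [hbad, hTij]
        · rw [le_div_iff₀ (by positivity)]
          have := mul_le_mul_of_nonneg_right hK hTij.le
          linarith
      · refine le_trans (le_of_eq (Finset.sum_eq_zero ?_)) (by positivity)
        intro om hom
        simp [hbad, hTij] at hom)
    (by rw [Fintype.card_prod]; push_cast; linarith)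
  refine ⟨fun i l => ((w (om l) * K)⁻¹) ^ (1 / p) * Y i (om l), fun i hi => ?_, fun i j => ?_⟩
  · funext l; simp [hi]
  have hY : powDist p (fun l => ((w (om l) * K)⁻¹) ^ (1 / p) * Y i (om l))
      (fun l => ((w (om l) * K)⁻¹) ^ (1 / p) * Y j (om l)) = (∑ l, Z i j (om l)) / K := by
    rw [powDist, Finset.sum_div]
    refine Finset.sum_congr rfl fun l _ => ?_
    have hnn : 0 ≤ (w (om l) * K)⁻¹ := inv_nonneg.2 (mul_nonneg (hw0 _) (Nat.cast_nonneg _))
    rw [← mul_sub, abs_mul, Real.mul_rpow (abs_nonneg _) (abs_nonneg _),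
      abs_of_nonneg (Real.rpow_nonneg hnn _), ← Real.rpow_mul hnn, one_div_mul_cancel hp.ne',
      Real.rpow_one]
    simp only [hZ]; ring
  rw [hY]
  have hP := powDist_nonneg p (Y i) (Y j)
  rcases (hT i j).lt_or_eq with hTij | hTij
  · have hLpos : 0 < L := by
      by_contra hL
      push Not at hL
      have h1 : (1:ℝ) ≤ Real.exp (-L) := Real.one_le_exp (by linarith)
      have h2 : (1:ℝ) ≤ (Fintype.card ι : ℝ) := by
        exact_mod_cast Fintype.card_pos_iff.2 ⟨i⟩
      nlinarith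
    have hK0 : (0:ℝ) < K := by
      by_contra h
      push Not at h
      nlinarith [mul_nonneg_of_nonpos_of_nonpos h (neg_nonpos.2 (sq_nonneg ε)),
        mul_pos hS hLpos]
    have h := hom (i, j)
    simp only [hbad, hTij, true_and, not_lt] at h
    rw [div_sub' hK0.ne', abs_div, abs_of_pos hK0, div_le_iff₀ hK0]
    linarith
  · have h0 : ∀ k, |Y i k - Y j k| ^ p = 0 := fun k =>
      le_antisymm (by simpa [← hTij] using hsens i j k) (Real.rpow_nonneg (abs_nonneg _) _)
    have hd : powDist p (Y i) (Y j) = 0 := Finset.sum_eq_zero fun k _ => h0 k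
    simp [hd, hZ, h0, ← hTij]

/-- M2a: sampling rows by sensitivity, with a slack term. -/
theorem rows {p : ℝ} (hp : 1 ≤ p) : RowsStmt p := by
  intro ε hε0 hε1
  refine ⟨12 / ε ^ 2 + 1, by positivity, fun n hn Q Y T σ hT hσ hsens => ?_⟩
  have hS : 0 ≤ ∑ k, σ k := Finset.sum_nonneg fun k _ => hσ k
  have hL := one_le_logL n
  set K := ⌈4 * (∑ k, σ k) * (3 * Real.log n + 2) / ε ^ 2⌉₊ with hK
  have hlog : 0 ≤ Real.log n := Real.log_natCast_nonneg n
  obtain ⟨Φ, -, hΦ⟩ := rows_core (K := K) (by linarith) Y T σ hT hσ hsens hε0 hε1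
    (L := 3 * Real.log n + 2) (by
      have := Nat.le_ceil (4 * (∑ k, σ k) * (3 * Real.log n + 2) / ε ^ 2)
      rw [div_le_iff₀ (by positivity), ← hK] at this
      linarith)
    (by rw [Fintype.card_fin]; exact log_fail_bound hn)
  refine ⟨K, ?_, Φ, hΦ⟩
  have h2 : 3 * Real.log n + 2 ≤ 3 * logL n := by unfold logL; linarith
  rw [hK]
  refine (Nat.ceil_lt_add_one (by positivity)).le.trans ?_
  calc 4 * (∑ k, σ k) * (3 * Real.log n + 2) / ε ^ 2 + 1
      ≤ 4 * (∑ k, σ k) * (3 * logL n) / ε ^ 2 + 1 * logL n := by gcongr; linarith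
    _ ≤ _ := by
        have h3 : 0 ≤ 12 / ε ^ 2 * logL n := by positivity
        have h4 : 0 ≤ (∑ k, σ k) * logL n := by positivity
        have e : 4 * (∑ k, σ k) * (3 * logL n) / ε ^ 2 = 12 / ε ^ 2 * logL n * ∑ k, σ k := by ring
        rw [e]
        linarith

end Vale.Agent.P249.Full
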