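import Mathlib
import Vale.Agent.P249.Full.SplitEnv

/-! Facts at one scale of the split, the energy of one scale, and the norm of a level function. -/

namespace Vale.Agent.P249.Full

open Finset

namespace SOne

variable {p Cx : ℝ} {n N : ℕ}

lemma r_pos (V : SplitEnv p Cx n N) (i : ℕ) : 0 < V.r i := zpow_pos (by norm_num) _

lemma r_succ (V : SplitEnv p Cx n N) (i : ℕ) : V.r (i + 1) = 2 * V.r i := by
  rw [SplitEnv.r, SplitEnv.r, Nat.cast_add, Nat.cast_one, ← add_assoc,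
    zpow_add_one₀ (by norm_num : (2:ℝ) ≠ 0), mul_comm]

lemma Cx_pos (V : SplitEnv p Cx n N) : 0 < Cx := lt_of_lt_of_le one_pos V.one_le_Cx

lemma θ_succ (V : SplitEnv p Cx n N) (k : Fin N) (l i : ℕ) :
    V.θ k l (i + 1) = 2 * V.θ k l i := by
  rw [SplitEnv.θ, SplitEnv.θ, r_succ]; ring

lemma θ_nonneg (V : SplitEnv p Cx n N) (k : Fin N) (l i : ℕ) : 0 ≤ V.θ k l i := by
  have := Cx_pos V
  exact mul_nonneg (mul_nonneg (by positivity) (V.s_nonneg k)) (r_pos V i).le

lemma crossStat_nonneg {θ : ℝ} {u w w' : Fin n → ℝ} (hw : IsW w) (hw' : IsW w') :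
    0 ≤ crossStat θ u w w' :=
  Finset.sum_nonneg fun z _ => Finset.sum_nonneg fun z' _ =>
    mul_nonneg (mul_nonneg (hw.nonneg z) (hw'.nonneg z')) (by unfold gtInd; split_ifs <;> norm_num)

lemma φ_nonneg (V : SplitEnv p Cx n N) (k : Fin N) (l : ℕ) (y : Fin n) (i : ℕ) :
    0 ≤ V.φ k l y i :=
  add_nonneg (add_nonneg (crossStat_nonneg (V.isW _ _) (V.isW _ _))
    (crossStat_nonneg (V.isW _ _) (V.isW _ _))) (crossStat_nonneg (V.isW _ _) (V.isW _ _))

lemma lpN_mono_abs {q : ℝ} (hq : 0 < q) {v v' : Fin N → ℝ} (h : ∀ k, |v k| ≤ |v' k|) :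
    lpN q v ≤ lpN q v' :=
  Real.rpow_le_rpow (Finset.sum_nonneg fun _ _ => Real.rpow_nonneg (abs_nonneg _) _)
    (Finset.sum_le_sum fun k _ => Real.rpow_le_rpow (abs_nonneg _) (h k) hq.le)
    (by positivity)

lemma lpN_abs {q : ℝ} (v : Fin N → ℝ) : lpN q (fun k => |v k|) = lpN q v := by
  simp [lpN]

lemma M_near (hmaj : MajorityStmt) (V : SplitEnv p Cx n N) (l : ℕ) (y : Fin n) (i : ℕ) {R : ℝ}
    (hR : ∀ z, V.W i y z ≠ 0 → lpD p V.X y z ≤ R) :
    lpN p (fun k => V.M k l y i - V.X y k) ≤ 3 * R := by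
  have hp := V.one_le_p
  have hw := V.isW i y
  have hpt : ∀ k, |V.M k l y i - V.X y k|
      ≤ |(∑ z, (3 * V.W i y z) * |V.X y k - V.X z k| : ℝ)| := by
    intro k
    refine le_trans ?_ (le_abs_self _)
    refine ((hmaj n (V.u k) _ _ hw hw (V.θ k l i) (V.θ k l i) (θ_nonneg V k l i)
      (θ_nonneg V k l i)).2.1 (V.X y k)).trans (le_of_eq ?_)
    rw [Finset.mul_sum]
    refine Finset.sum_congr rfl fun z _ => ?_
    rw [SplitEnv.u, abs_sub_comm, mul_assoc]
  refine (lpN_mono_abs (lt_of_lt_of_le one_pos hp) hpt).trans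
    ((lpN_sum_mul_le hp univ (fun z => 3 * V.W i y z) fun z k => |V.X y k - V.X z k|).trans ?_)
  calc ∑ z, |3 * V.W i y z| * lpN p (fun k => |V.X y k - V.X z k|)
      = ∑ z, 3 * (V.W i y z * lpD p V.X y z) := by
        refine Finset.sum_congr rfl fun z _ => ?_
        rw [lpN_abs, abs_of_nonneg (mul_nonneg zero_le_three (hw.nonneg z)), lpD]; ring
    _ ≤ ∑ z, 3 * (V.W i y z * R) := by
        refine Finset.sum_le_sum fun z _ => mul_le_mul_of_nonneg_left ?_ zero_le_three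
        rcases eq_or_ne (V.W i y z) 0 with h0 | h0
        · rw [h0, zero_mul, zero_mul]
        · exact mul_le_mul_of_nonneg_left (hR z h0) (hw.nonneg z)
    _ = 3 * R := by rw [← Finset.mul_sum, ← Finset.sum_mul, hw.sum_one, one_mul]

lemma pure_close (V : SplitEnv p Cx n N) (k : Fin N) (l : ℕ) (y : Fin n) (i : ℕ)
    (hρ : V.ρ y ≤ V.r i) (z z' : Fin n) (hz : V.W i y z ≠ 0) (hz' : V.W i y z' ≠ 0) :
    |V.u k z - V.u k z'| ≤ V.θ k l i := by
  obtain ⟨hc, hd⟩ := V.pure i y hρ z hz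
  obtain ⟨hc', hd'⟩ := V.pure i y hρ z' hz'
  have hs := V.s_nonneg k
  have hC := Cx_pos V
  have hsym : lpD p V.X z y = lpD p V.X y z := (fmetric_lpD V.one_le_p V.injX).symm z y
  have htri := lpD_tri V.one_le_p V.X z y z'
  have h2 : lpD p V.X z z' ≤ 2 * Cx * V.r i := by nlinarith
  refine (V.sens k z hc z' hc').trans ((mul_le_mul_of_nonneg_left h2 hs).trans ?_)
  rw [SplitEnv.θ]
  have h1 : 2 * Cx ≤ (4 * Cx + 1) * 2 ^ l := by
    have : (1:ℝ) ≤ 2 ^ l := one_le_pow₀ (by norm_num)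
    nlinarith
  have := mul_le_mul_of_nonneg_right h1 (mul_nonneg hs (r_pos V i).le)
  nlinarith

lemma piW_mem (q : ℕ) (φ : ℕ → ℝ) (i T : ℕ) : 0 ≤ piW q φ i T ∧ piW q φ i T ≤ 1 := by
  have h : ∀ j, 0 ≤ psiOf q (φ j) ∧ psiOf q (φ j) ≤ 1 := fun j =>
    ⟨pow_nonneg (le_max_left _ _) _,
      pow_le_one₀ (le_max_left _ _) (max_le zero_le_one (min_le_left _ _))⟩
  exact ⟨Finset.prod_nonneg fun j _ => by linarith [(h j).2],
    Finset.prod_le_one (fun j _ => by linarith [(h j).2]) fun j _ => by linarith [(h j).1]⟩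

lemma abs_clipTo_le {c : ℝ} (hc : 0 ≤ c) (v : ℝ) : |clipTo c v| ≤ |v| := by
  rw [clipTo, abs_le]
  have h1 := le_abs_self v
  have h2 := neg_abs_le v
  have h3 := abs_nonneg v
  constructor
  · rcases le_total c v with h | h
    · rw [min_eq_left h]; exact le_max_of_le_right (by linarith)
    · rw [min_eq_right h]; exact le_max_of_le_right (by linarith)
  · exact max_le (by linarith) ((min_le_right _ _).trans h1)

lemma lpN_sum_mul_abs {q : ℝ} (hq : 1 ≤ q) {α : Type*} (s : Finset α) (v : α → Fin N → ℝ)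
    (w : Fin N → ℝ) (h : ∀ k, |w k| ≤ ∑ a ∈ s, |v a k|) : lpN q w ≤ ∑ a ∈ s, lpN q (v a) := by
  refine (lpN_mono_abs (lt_of_lt_of_le one_pos hq) fun k => (h k).trans (le_abs_self _)).trans
    ((lpN_sum_le hq s fun a k => |v a k|).trans (le_of_eq ?_))
  exact Finset.sum_congr rfl fun a _ => lpN_abs _

end SOne

open SOne

/-- Facts at one scale, from the properties of majority means. -/
theorem scale {p : ℝ} (hmaj : MajorityStmt) : ScaleStmt p := by
  intro Cx n N V k l y y' i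
  have hW : ∀ j z, IsW (V.W j z) := V.isW
  have hθ := θ_nonneg V k l i
  have hθ' := θ_nonneg V k l (i + 1)
  have hθs := θ_succ V k l i
  have hX := hmaj n (V.u k)
  have hc0 : ∀ (th : ℝ) (j j' : ℕ) (z : Fin n), 0 ≤ crossStat th (V.u k) (V.W j z) (V.W j' z) :=
    fun th j j' z => crossStat_nonneg (hW _ _) (hW _ _)
  have hdiff : ∀ (th : ℝ), 0 ≤ th → ∀ j j' : ℕ,
      |crossStat th (V.u k) (V.W j y) (V.W j' y) - crossStat th (V.u k) (V.W j y') (V.W j' y')|
        ≤ tv (V.W j y) (V.W j y') + tv (V.W j' y) (V.W j' y') :=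
    fun th hth j j' => (hX _ _ (hW j y) (hW j' y) th th hth hth).2.2.2.2.2.2.1.2 _ _ (hW _ _) (hW _ _)
  have hphi : V.φ k l y' i
      = crossStat (V.θ k l i) (V.u k) (V.W i y') (V.W i y')
        + crossStat (V.θ k l (i + 1)) (V.u k) (V.W (i + 1) y') (V.W (i + 1) y')
        + crossStat (V.θ k l (i + 1)) (V.u k) (V.W i y') (V.W (i + 1) y') := rfl
  have hpair : ∀ z : Fin n,
      crossStat (V.θ k l i) (V.u k) (V.W i z) (V.W i z) ≤ 3 * eta0 →
      crossStat (V.θ k l (i + 1)) (V.u k) (V.W (i + 1) z) (V.W (i + 1) z) ≤ 3 * eta0 →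
      crossStat (V.θ k l (i + 1)) (V.u k) (V.W i z) (V.W (i + 1) z) ≤ 3 * eta0 →
      |V.M k l z i - V.M k l z (i + 1)| ≤ 16 * V.θ k l i := by
    intro z h1 h2 h3
    refine ((hX _ _ (hW i z) (hW (i + 1) z) _ _ hθ hθ').2.2.2.1 h1 h2 h3).trans ?_
    linarith
  refine ⟨⟨hθ, hθs⟩, φ_nonneg V k l y i, fun hρ => ?_, fun hφ => ?_, fun hφ ht ht' => ?_,
    fun hφ ht => ?_, ?_, ?_, fun hρ => ?_⟩
  · have hρ' : V.ρ y ≤ V.r (i + 1) := by
      rw [r_succ]; linarith [r_pos V i]
    have hWe : V.W (i + 1) y = V.W i y := V.stable (i + 1) i y hρ' hρ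
    have hcl := pure_close V k l y i hρ
    have hcl' : ∀ z z', V.W i y z ≠ 0 → V.W i y z' ≠ 0 →
        |V.u k z - V.u k z'| ≤ V.θ k l (i + 1) := fun z z' a b => by
      linarith [hcl z z' a b]
    have hA := hX _ _ (hW i y) (hW i y) _ _ hθ hθ
    have hB := hX _ _ (hW i y) (hW i y) _ _ hθ' hθ'
    have e1 := hA.2.2.2.2.2.1 hcl
    have e2 := hB.2.2.2.2.2.1 hcl'
    have e3 : V.M k l y i = ∑ z, V.W i y z * V.u k z := hA.2.2.2.2.1 hcl
    have e4 : V.M k l y (i + 1) = ∑ z, V.W i y z * V.u k z := by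
      rw [SplitEnv.M, hWe]; exact hB.2.2.2.2.1 hcl'
    refine ⟨?_, e4.trans e3.symm, e3⟩
    rw [SplitEnv.φ, hWe, e1, e2]; norm_num
  · have h1 := hc0 (V.θ k l i) i i y
    have h2 := hc0 (V.θ k l (i + 1)) (i + 1) (i + 1) y
    have h3 := hc0 (V.θ k l (i + 1)) i (i + 1) y
    simp only [SplitEnv.φ, eta0] at hφ
    apply hpair <;> simp only [eta0] <;> linarith
  · have h1 := hc0 (V.θ k l i) i i y'
    have h2 := hc0 (V.θ k l (i + 1)) (i + 1) (i + 1) y'
    have h3 := hc0 (V.θ k l (i + 1)) i (i + 1) y'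
    have d1 := (abs_le.1 (hdiff _ hθ i i)).2
    have d2 := (abs_le.1 (hdiff _ hθ' (i + 1) (i + 1))).2
    have d3 := (abs_le.1 (hdiff _ hθ' i (i + 1))).2
    rw [hphi] at hφ
    simp only [eta0] at hφ
    apply hpair <;> simp only [eta0] <;> linarith
  · have h2 := hc0 (V.θ k l (i + 1)) (i + 1) (i + 1) y'
    have h3 := hc0 (V.θ k l (i + 1)) i (i + 1) y'
    rw [hphi] at hφ
    exact (hX _ _ (hW i y) (hW i y') _ _ hθ hθ).2.2.1 (by linarith) ht
  · have d1 := abs_le.1 (hdiff _ hθ i i)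
    have d2 := abs_le.1 (hdiff _ hθ' (i + 1) (i + 1))
    have d3 := abs_le.1 (hdiff _ hθ' i (i + 1))
    rw [hphi, SplitEnv.φ, abs_le]
    constructor <;> linarith
  · refine (M_near hmaj V l y i (R := Cx * V.r i) (V.supp i y)).trans_eq ?_
    ring
  · refine (M_near hmaj V l y i (R := Cx * V.ρ y) fun z hz => (V.pure i y hρ z hz).2).trans_eq ?_
    ring

/-- The energy of one scale. -/
theorem energy {p : ℝ} (hp : 1 ≤ p) (hmaj : MajorityStmt) : EnergyStmt p := by
  intro Cx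
  refine ⟨768 * (4 * |Cx| + 1) ^ p, by positivity, fun n N V y i J => ?_⟩
  have hp0 : 0 < p := by linarith
  have hC := Cx_pos V
  have hr := r_pos V i
  set w := V.W i y with hw
  set w' := V.W (i + 1) y with hw'
  have hww : IsW w := V.isW i y
  have hww' : IsW w' := V.isW (i + 1) y
  set R := (4 * |Cx| + 1) * V.r i with hR
  -- one of the three statistics
  have key : ∀ a b : Fin n → ℝ, IsW a → IsW b →
      (∀ z, a z ≠ 0 → lpD p V.X y z ≤ Cx * (2 * V.r i)) →
      (∀ z, b z ≠ 0 → lpD p V.X y z ≤ Cx * (2 * V.r i)) →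
      ∀ c : ℕ, ∑ k, ∑ l ∈ range J, (V.θ k l c) ^ p * crossStat (V.θ k l c) (V.u k) a b
        ≤ 2 * R ^ p := by
    intro a b ha hb hsa hsb c
    set θ0 : Fin N → ℝ := fun k => (4 * Cx + 1) * V.s k * V.r c with hθ0
    have hk : ∀ k, ∑ l ∈ range J, (V.θ k l c) ^ p * crossStat (V.θ k l c) (V.u k) a b
        ≤ 2 * ∑ z, ∑ z', a z * b z' * |V.u k z - V.u k z'| ^ p := by
      intro k
      have h0 : 0 ≤ θ0 k :=
        mul_nonneg (mul_nonneg (by linarith) (V.s_nonneg k)) (r_pos V c).le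
      refine le_of_eq_of_le (Finset.sum_congr rfl fun l _ => ?_)
        ((hmaj n (V.u k) a b ha hb (θ0 k) (θ0 k) h0 h0).2.2.2.2.2.2.2 p hp J)
      rw [show V.θ k l c = θ0 k * 2 ^ l by rw [SplitEnv.θ, hθ0]; ring]
    refine (Finset.sum_le_sum fun k _ => hk k).trans ?_
    rw [← Finset.mul_sum, Finset.sum_comm]
    refine mul_le_mul_of_nonneg_left ?_ zero_le_two
    calc ∑ z, ∑ k, ∑ z', a z * b z' * |V.u k z - V.u k z'| ^ p
        = ∑ z, ∑ z', a z * b z' * lpD p V.X z z' ^ p := by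
          refine Finset.sum_congr rfl fun z _ => ?_
          rw [Finset.sum_comm]
          refine Finset.sum_congr rfl fun z' _ => ?_
          rw [← Finset.mul_sum, lpD, lpN_rpow hp0]
          rfl
      _ ≤ ∑ z, ∑ z', a z * b z' * R ^ p := by
          refine Finset.sum_le_sum fun z _ => Finset.sum_le_sum fun z' _ => ?_
          rcases eq_or_ne (a z) 0 with h0 | h0
          · simp [h0]
          rcases eq_or_ne (b z') 0 with h0' | h0'
          · simp [h0']
          refine mul_le_mul_of_nonneg_left (Real.rpow_le_rpow (lpD_nonneg _ _ _ _) ?_ hp0.le)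
            (mul_nonneg (ha.nonneg z) (hb.nonneg z'))
          have hsym : lpD p V.X z y = lpD p V.X y z := (fmetric_lpD hp V.injX).symm z y
          have := lpD_tri hp V.X z y z'
          have := hsa z h0
          have := hsb z' h0'
          rw [hR, abs_of_pos hC]
          linarith
      _ = R ^ p := by
          simp only [← Finset.sum_mul, ← Finset.mul_sum, hb.sum_one, mul_one, ha.sum_one, one_mul]
  have hs : ∀ z, w z ≠ 0 → lpD p V.X y z ≤ Cx * (2 * V.r i) := fun z hz =>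
    (V.supp i y z hz).trans (mul_le_mul_of_nonneg_left
      (show V.r i ≤ 2 * V.r i by linarith) hC.le)
  have hs' : ∀ z, w' z ≠ 0 → lpD p V.X y z ≤ Cx * (2 * V.r i) := fun z hz => by
    rw [← r_succ V i]; exact V.supp (i + 1) y z hz
  have hterm : ∀ k l, (if eta0 / 2 < V.φ k l y i then V.θ k l i ^ p else 0)
      ≤ 128 * (V.θ k l i ^ p * crossStat (V.θ k l i) (V.u k) w w
        + V.θ k l (i + 1) ^ p * crossStat (V.θ k l (i + 1)) (V.u k) w' w'
        + V.θ k l (i + 1) ^ p * crossStat (V.θ k l (i + 1)) (V.u k) w w') := by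
    intro k l
    have h0 : 0 ≤ V.θ k l i ^ p := Real.rpow_nonneg (θ_nonneg V k l i) _
    have h1 : V.θ k l i ^ p ≤ V.θ k l (i + 1) ^ p :=
      Real.rpow_le_rpow (θ_nonneg V k l i)
        (by rw [θ_succ]; linarith [θ_nonneg V k l i]) hp0.le
    have c1 := crossStat_nonneg (θ := V.θ k l i) (u := V.u k) hww hww
    have c2 := crossStat_nonneg (θ := V.θ k l (i + 1)) (u := V.u k) hww' hww'
    have c3 := crossStat_nonneg (θ := V.θ k l (i + 1)) (u := V.u k) hww hww'
    have m2 := mul_le_mul_of_nonneg_right h1 c2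
    have m3 := mul_le_mul_of_nonneg_right h1 c3
    split_ifs with h
    · have hφ : V.φ k l y i = crossStat (V.θ k l i) (V.u k) w w
          + crossStat (V.θ k l (i + 1)) (V.u k) w' w'
          + crossStat (V.θ k l (i + 1)) (V.u k) w w' := rfl
      rw [hφ, eta0] at h
      have := mul_le_mul_of_nonneg_left h.le h0
      nlinarith
    · have := mul_nonneg h0 c1
      have := mul_nonneg h0 c2
      have := mul_nonneg h0 c3
      linarith
  refine (Finset.sum_le_sum fun k _ => Finset.sum_le_sum fun l _ => hterm k l).trans ?_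
  simp only [← Finset.mul_sum, Finset.sum_add_distrib]
  have h1 := key w w hww hww hs hs i
  have h2 := key w' w' hww' hww' hs' hs' (i + 1)
  have h3 := key w w' hww hww' hs hs' (i + 1)
  have hRp : R ^ p = (4 * |Cx| + 1) ^ p * V.r i ^ p := Real.mul_rpow (by positivity) hr.le
  rw [hRp] at h1 h2 h3
  nlinarith

/-- A level function stays within the local radius. -/
theorem norm_level {p : ℝ} (hscale : ScaleStmt p) : NormStmt p := by
  intro Cx
  refine ⟨21 * |Cx| + 1, by linarith [abs_nonneg Cx], fun n N V l y => ?_⟩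
  have hp := V.one_le_p
  have hp0 : 0 < p := by linarith
  have hC := Cx_pos V
  have hρ := V.ρ_pos y
  have hS := fun k i => hscale Cx n N V k l y y i
  rcases Nat.eq_zero_or_pos N with hN | hN
  · subst hN
    refine le_trans (le_of_eq ?_) (mul_nonneg (by positivity) hρ.le)
    simp [lpN, Real.zero_rpow, hp0.ne']
  have hball : ∀ i, lpN p (fun k => V.M k l y i - V.X y k) ≤ 3 * Cx * V.r i :=
    fun i => (hS ⟨0, hN⟩ i).2.2.2.2.2.2.2.1
  have htop : lpN p (fun k => V.X y k - V.M k l y V.T) ≤ 3 * Cx * V.ρ y := by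
    have hT : V.ρ y ≤ V.r V.T := by
      have := V.top_ρ y
      rw [SplitEnv.r]; linarith
    refine le_trans (le_of_eq ?_) ((hS ⟨0, hN⟩ V.T).2.2.2.2.2.2.2.2 hT)
    simp [lpN, abs_sub_comm]
  set J := (range V.T).filter (fun i => V.r i < V.ρ y) with hJ
  have hlev : ∀ k, |V.levelVal k l y - V.M k l y V.T|
      ≤ ∑ i ∈ J, |V.M k l y i - V.M k l y (i + 1)| := by
    intro k
    rw [SplitEnv.levelVal, add_sub_cancel_left, hJ, Finset.sum_filter]
    refine (Finset.abs_sum_le_sum_abs _ _).trans (Finset.sum_le_sum fun i _ => ?_)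
    have hω : 0 ≤ V.ω y i ∧ V.ω y i ≤ 1 :=
      ⟨le_max_left _ _, max_le zero_le_one (min_le_left _ _)⟩
    have hπ := piW_mem V.q (V.φ k l y) i V.T
    have hclip := abs_clipTo_le (show 0 ≤ 16 * V.θ k l i by linarith [(hS k i).1.1])
      (V.M k l y i - V.M k l y (i + 1))
    rw [abs_mul, abs_of_nonneg (mul_nonneg hω.1 hπ.1)]
    split_ifs with h
    · calc V.ω y i * piW V.q (V.φ k l y) i V.T
            * |clipTo (16 * V.θ k l i) (V.M k l y i - V.M k l y (i + 1))|
          ≤ 1 * |V.M k l y i - V.M k l y (i + 1)| :=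
            mul_le_mul (mul_le_one₀ hω.2 hπ.1 hπ.2) hclip (abs_nonneg _) zero_le_one
        _ = _ := one_mul _
    · obtain ⟨-, hM, -⟩ := (hS k i).2.2.1 (not_lt.1 h)
      rw [hM, sub_self, clipTo]
      simp [(hS k i).1.1]
  have hstep : ∀ i, lpN p (fun k => V.M k l y i - V.M k l y (i + 1)) ≤ 9 * Cx * V.r i := by
    intro i
    have h1 := lpN_add_le hp (fun k => V.M k l y i - V.X y k)
      (fun k => V.X y k - V.M k l y (i + 1))
    have h2 : lpN p (fun k => V.X y k - V.M k l y (i + 1)) ≤ 3 * Cx * V.r (i + 1) := by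
      refine le_trans (le_of_eq ?_) (hball (i + 1))
      simp [lpN, abs_sub_comm]
    rw [r_succ] at h2
    have h3 := hball i
    simp only [sub_add_sub_cancel] at h1
    linarith
  have hsum : ∑ i ∈ J, V.r i ≤ 2 * V.ρ y :=
    sum_two_pow_le V.base (V.ρ y) hρ.le fun i hi => (Finset.mem_filter.1 hi).2.le
  have hmain : lpN p (fun k => V.levelVal k l y - V.M k l y V.T) ≤ 18 * Cx * V.ρ y := by
    refine (lpN_sum_mul_abs hp J (fun i k => V.M k l y i - V.M k l y (i + 1)) _ hlev).trans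
      ((Finset.sum_le_sum fun i _ => hstep i).trans ?_)
    rw [← Finset.mul_sum]
    calc 9 * Cx * ∑ i ∈ J, V.r i ≤ 9 * Cx * (2 * V.ρ y) := by gcongr
      _ = _ := by ring
  have hfin := lpN_add_le hp (fun k => V.X y k - V.M k l y V.T)
    (fun k => V.M k l y V.T - V.levelVal k l y)
  simp only [sub_add_sub_cancel] at hfin
  have hflip : lpN p (fun k => V.M k l y V.T - V.levelVal k l y)
      = lpN p (fun k => V.levelVal k l y - V.M k l y V.T) := by simp [lpN, abs_sub_comm]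
  have : Cx * V.ρ y ≤ |Cx| * V.ρ y := mul_le_mul_of_nonneg_right (le_abs_self _) hρ.le
  linarith

end Vale.Agent.P249.Full
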