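import Vale.Agent.P249.Full.SplitEnv

/-! Sensitivity of the level functions. -/

namespace Vale.Agent.P249.Full

open Finset

namespace Sens

lemma ramp01_nonneg (x : ℝ) : 0 ≤ ramp01 x := le_max_left _ _

lemma ramp01_le_one (x : ℝ) : ramp01 x ≤ 1 := max_le zero_le_one (min_le_left _ _)

lemma abs_ramp01_sub (x y : ℝ) : |ramp01 x - ramp01 y| ≤ |x - y| := by
  unfold ramp01
  refine (abs_max_sub_max_le_max _ _ _ _).trans (max_le (by simp) ?_)
  refine (abs_min_sub_min_le_max _ _ _ _).trans (max_le (by simp) le_rfl)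

lemma ramp01_eq_one {x : ℝ} (h : 1 ≤ x) : ramp01 x = 1 := by
  rw [ramp01, min_eq_left h, max_eq_right zero_le_one]

lemma ramp01_eq_zero {x : ℝ} (h : x ≤ 0) : ramp01 x = 0 := max_eq_left ((min_le_right _ _).trans h)

lemma psi_nonneg (q : ℕ) (f : ℝ) : 0 ≤ psiOf q f := pow_nonneg (ramp01_nonneg _) _

lemma psi_le_one (q : ℕ) (f : ℝ) : psiOf q f ≤ 1 :=
  pow_le_one₀ (ramp01_nonneg _) (ramp01_le_one _)

lemma abs_pow_sub_le (q : ℕ) {a b : ℝ} (ha : 0 ≤ a) (ha1 : a ≤ 1) (hb : 0 ≤ b) (hb1 : b ≤ 1) :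
    |a ^ q - b ^ q| ≤ q * |a - b| := by
  induction q with
  | zero => simp
  | succ k ih =>
    rw [show a ^ (k + 1) - b ^ (k + 1) = a * (a ^ k - b ^ k) + (a - b) * b ^ k by ring]
    refine (abs_add_le _ _).trans ?_
    rw [abs_mul, abs_mul, abs_of_nonneg ha, abs_of_nonneg (pow_nonneg hb k)]
    have h1 : a * |a ^ k - b ^ k| ≤ (k:ℝ) * |a - b| :=
      (mul_le_of_le_one_left (abs_nonneg _) ha1).trans ih
    have h2 : |a - b| * b ^ k ≤ |a - b| := mul_le_of_le_one_right (abs_nonneg _) (pow_le_one₀ hb hb1)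
    push_cast; linarith

lemma abs_psi_sub (q : ℕ) (f g : ℝ) : |psiOf q f - psiOf q g| ≤ 128 * q * |f - g| := by
  refine (abs_pow_sub_le q (ramp01_nonneg _) (ramp01_le_one _) (ramp01_nonneg _)
    (ramp01_le_one _)).trans ?_
  have h := abs_ramp01_sub ((f - eta0 / 2) * (2 / eta0)) ((g - eta0 / 2) * (2 / eta0))
  rw [← sub_mul, abs_mul, sub_sub_sub_cancel_right,
    show |2 / eta0| = 128 by norm_num [eta0]] at h
  calc (q:ℝ) * _ ≤ q * (|f - g| * 128) := mul_le_mul_of_nonneg_left h (Nat.cast_nonneg q)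
    _ = _ := by ring

lemma abs_prod_one_sub {s : Finset ℕ} (a b : ℕ → ℝ) (ha : ∀ i, 0 ≤ a i ∧ a i ≤ 1)
    (hb : ∀ i, 0 ≤ b i ∧ b i ≤ 1) :
    |∏ i ∈ s, (1 - a i) - ∏ i ∈ s, (1 - b i)| ≤ ∑ i ∈ s, |a i - b i| := by
  induction s using Finset.induction with
  | empty => simp
  | @insert i s hi ih =>
    rw [prod_insert hi, prod_insert hi, sum_insert hi,
      show (1 - a i) * ∏ x ∈ s, (1 - a x) - (1 - b i) * ∏ x ∈ s, (1 - b x)
        = (b i - a i) * ∏ x ∈ s, (1 - a x)
          + (1 - b i) * (∏ x ∈ s, (1 - a x) - ∏ x ∈ s, (1 - b x)) by ring]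
    refine (abs_add_le _ _).trans (add_le_add ?_ ?_)
    · rw [abs_mul, abs_sub_comm]
      refine mul_le_of_le_one_right (abs_nonneg _) ?_
      rw [abs_of_nonneg (prod_nonneg fun x _ => by linarith [(ha x).2])]
      exact prod_le_one (fun x _ => by linarith [(ha x).2]) fun x _ => by linarith [(ha x).1]
    · rw [abs_mul, abs_of_nonneg (by linarith [(hb i).2] : 0 ≤ 1 - b i)]
      exact (mul_le_of_le_one_left (abs_nonneg _) (by linarith [(hb i).1])).trans ih

lemma piW_mem (q : ℕ) (f : ℕ → ℝ) (i T : ℕ) : 0 ≤ piW q f i T ∧ piW q f i T ≤ 1 :=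
  ⟨prod_nonneg fun _ _ => sub_nonneg.2 (psi_le_one q _),
    prod_le_one (fun _ _ => sub_nonneg.2 (psi_le_one q _)) fun _ _ =>
      sub_le_self _ (psi_nonneg q _)⟩

lemma lt_of_piW_ne {q : ℕ} {f : ℕ → ℝ} {i T : ℕ} (h : piW q f i T ≠ 0) {j : ℕ}
    (hj : j ∈ Ico i T) : f j < eta0 := by
  by_contra hlt
  apply h
  refine prod_eq_zero hj ?_
  have h1 : ramp01 ((f j - eta0 / 2) * (2 / eta0)) = 1 := by
    refine ramp01_eq_one ?_
    have := not_lt.1 hlt
    norm_num [eta0] at this ⊢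
    linarith
  simp [psiOf, h1]

lemma abs_clip_le {c : ℝ} (hc : 0 ≤ c) (v : ℝ) : |clipTo c v| ≤ c :=
  abs_le.2 ⟨le_max_left _ _, max_le (by linarith) (min_le_left _ _)⟩

lemma abs_clip_sub (c v w : ℝ) : |clipTo c v - clipTo c w| ≤ |v - w| := by
  unfold clipTo
  refine (abs_max_sub_max_le_max _ _ _ _).trans (max_le (by simp) ?_)
  refine (abs_min_sub_min_le_max _ _ _ _).trans (max_le (by simp) le_rfl)

lemma geom_sum (r : ℕ → ℝ) (hr : ∀ i, r (i + 1) = 2 * r i) (h0 : ∀ i, 0 ≤ r i) (T : ℕ) {c : ℝ}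
    (hc : 0 ≤ c) : ∑ i ∈ range T, (if r i < c then r i else 0) ≤ 2 * c := by
  have key : ∀ T, ∑ i ∈ range T, (if r i < c then r i else 0) ≤ min (r T) (2 * c) := by
    intro T
    induction T with
    | zero => simpa using le_min (h0 0) (by linarith)
    | succ T ih =>
      rw [sum_range_succ, hr T]
      obtain ⟨h1, h2⟩ := le_min_iff.1 ih
      split_ifs with h
      · exact le_min (by linarith) (by linarith)
      · exact le_min (by linarith [h0 T]) (by linarith)
  exact (key T).trans (min_le_right _ _)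

lemma geom_tail (i T : ℕ) (r : ℕ → ℝ) (hr : ∀ i, r (i + 1) = 2 * r i) (h0 : ∀ i, 0 < r i) :
    ∑ j ∈ Ico i T, r i / r j ≤ 2 := by
  have key : ∀ k, r i / r (i + k) = (1 / 2 : ℝ) ^ k := by
    intro k
    induction k with
    | zero => simp [(h0 i).ne']
    | succ k ih =>
      rw [← add_assoc, hr, pow_succ, ← ih]
      field_simp
  rw [sum_Ico_eq_sum_range]
  refine le_trans (le_of_eq (sum_congr rfl fun k _ => key k)) ?_
  exact sum_geometric_two_le _

section Env

variable {p Cx : ℝ} {n N : ℕ} (V : SplitEnv p Cx n N)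

lemma r_pos (i : ℕ) : 0 < V.r i := by unfold SplitEnv.r; positivity

lemma r_succ (i : ℕ) : V.r (i + 1) = 2 * V.r i := by
  unfold SplitEnv.r
  push_cast
  rw [← add_assoc, zpow_add_one₀ two_ne_zero]
  ring

lemma r_add (i d : ℕ) : V.r (i + d) = 2 ^ d * V.r i := by
  induction d with
  | zero => simp
  | succ d ih => rw [← add_assoc, r_succ, ih, pow_succ]; ring

lemma r_mono {i j : ℕ} (h : i ≤ j) : V.r i ≤ V.r j := by
  obtain ⟨d, rfl⟩ := Nat.exists_eq_add_of_le h
  rw [r_add]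
  exact le_mul_of_one_le_left (r_pos V i).le (one_le_pow₀ one_le_two)

/-- The larger radius of a pair. -/
noncomputable def pairR (y y' : Fin n) : ℝ := max (V.ρ y) (V.ρ y')

/-- The unit of the estimates at a pair. -/
noncomputable def pairZ (k : Fin N) (l : ℕ) (y y' : Fin n) : ℝ :=
  (4 * Cx + 1) * 2 ^ l * V.s k * lpD p V.X y y'

lemma dist_metric : FMetric (lpD p V.X) := fmetric_lpD V.one_le_p V.injX

lemma dist_nonneg' (y y' : Fin n) : 0 ≤ lpD p V.X y y' := (dist_metric V).nonneg y y'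

include V in
lemma G_one_le (l : ℕ) : 1 ≤ (4 * Cx + 1) * 2 ^ l := by
  have := V.one_le_Cx
  exact one_le_mul_of_one_le_of_one_le (by linarith) (one_le_pow₀ one_le_two)

lemma theta_nonneg (k : Fin N) (l i : ℕ) : 0 ≤ V.θ k l i := by
  have := G_one_le V l
  exact mul_nonneg (mul_nonneg (by linarith) (V.s_nonneg k)) (r_pos V i).le

lemma pairZ_nonneg (k : Fin N) (l : ℕ) (y y' : Fin n) : 0 ≤ pairZ V k l y y' := by
  have := G_one_le V l
  exact mul_nonneg (mul_nonneg (by linarith) (V.s_nonneg k)) (dist_nonneg' V y y')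

lemma theta_mul (c : ℝ) (k : Fin N) (l i : ℕ) (y y' : Fin n) :
    c * (lpD p V.X y y' / V.r i) * V.θ k l i = c * pairZ V k l y y' := by
  have := (r_pos V i).ne'
  unfold SplitEnv.θ pairZ
  field_simp

lemma s_mul_le_pairZ (k : Fin N) (l : ℕ) (y y' : Fin n) :
    V.s k * lpD p V.X y y' ≤ pairZ V k l y y' := by
  rw [pairZ, mul_assoc _ (V.s k)]
  exact le_mul_of_one_le_left (mul_nonneg (V.s_nonneg k) (dist_nonneg' V y y')) (G_one_le V l)

lemma rho_diff (y y' : Fin n) : |V.ρ y - V.ρ y'| ≤ lpD p V.X y y' := by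
  have h1 := V.ρ_lip y y'
  have h2 := V.ρ_lip y' y
  rw [(dist_metric V).symm y' y] at h2
  exact abs_le.2 ⟨by linarith, by linarith⟩

lemma pairR_pos (y y' : Fin n) : 0 < pairR V y y' := lt_max_of_lt_left (V.ρ_pos y)

lemma pairR_le_top (y y' : Fin n) : pairR V y y' ≤ V.r V.T :=
  max_le (le_trans (by linarith [V.ρ_pos y]) (V.top_ρ y))
    (le_trans (by linarith [V.ρ_pos y']) (V.top_ρ y'))

lemma near_radii {y y' : Fin n} (h : 8 * lpD p V.X y y' < pairR V y y') :
    7 * pairR V y y' / 8 ≤ V.ρ y ∧ 7 * pairR V y y' / 8 ≤ V.ρ y' := by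
  have hd := abs_le.1 (rho_diff V y y')
  unfold pairR at h ⊢
  rcases max_choice (V.ρ y) (V.ρ y') with e | e <;> rw [e] at h ⊢ <;>
    constructor <;> linarith

lemma tv_pair {y y' : Fin n} {i : ℕ} (h : V.r i ≤ 2 * pairR V y y') :
    tv (V.W i y) (V.W i y') ≤ 2 * Cx * V.β * (lpD p V.X y y' / V.r i) := by
  have hR := pairR_pos V y y'
  have hCx := V.one_le_Cx
  have hβ := V.one_le_β
  refine (V.tv_le i y y' (show V.r i ≤ 128 * pairR V y y' by linarith)).trans ?_
  refine mul_le_mul_of_nonneg_right ?_ (div_nonneg (dist_nonneg' V y y') (r_pos V i).le)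
  calc Cx * nuG (lpD p V.X) V.β 25 (V.base + i) y ≤ Cx * (2 * V.β) :=
        mul_le_mul_of_nonneg_left ((nuG_le _ V.β 25 _ y).trans (by linarith)) (by linarith)
    _ = _ := by ring

lemma tv_pair_succ {y y' : Fin n} {i : ℕ} (h : V.r i ≤ pairR V y y') :
    tv (V.W (i + 1) y) (V.W (i + 1) y') ≤ 2 * Cx * V.β * (lpD p V.X y y' / V.r i) := by
  have hCx := V.one_le_Cx
  have hβ := V.one_le_β
  refine (tv_pair V (by rw [r_succ]; linarith)).trans (mul_le_mul_of_nonneg_left ?_ (by positivity))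
  exact div_le_div_of_nonneg_left (dist_nonneg' V y y') (r_pos V i) (r_mono V i.le_succ)

/-- The summand of the level function. -/
noncomputable def term (k : Fin N) (l : ℕ) (y : Fin n) (i : ℕ) : ℝ :=
  V.ω y i * piW V.q (V.φ k l y) i V.T
    * clipTo (16 * V.θ k l i) (V.M k l y i - V.M k l y (i + 1))

lemma levelVal_eq (k : Fin N) (l : ℕ) (y : Fin n) :
    V.levelVal k l y = V.M k l y V.T + ∑ i ∈ range V.T, term V k l y i := rfl

lemma abs_term_le (k : Fin N) (l : ℕ) (y : Fin n) (i : ℕ) :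
    |term V k l y i| ≤ 16 * V.θ k l i := by
  have h1 := piW_mem V.q (V.φ k l y) i V.T
  rw [term, abs_mul, abs_mul, abs_of_nonneg (show 0 ≤ V.ω y i from ramp01_nonneg _),
    abs_of_nonneg h1.1]
  exact (mul_le_of_le_one_left (abs_nonneg _) (mul_le_one₀ (ramp01_le_one _) h1.1 h1.2)).trans
    (abs_clip_le (by linarith [theta_nonneg V k l i]) _)

variable (hS : ScaleStmt p)
include hS

lemma term_zero (k : Fin N) (l : ℕ) {x : Fin n} {i : ℕ} (h : V.ρ x ≤ V.r i) :
    term V k l x i = 0 := by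
  obtain ⟨-, hM, -⟩ := (hS Cx n N V k l x x i).2.2.1 h
  have := theta_nonneg V k l i
  rw [term, hM, sub_self, clipTo, min_eq_right (by linarith), max_eq_right (by linarith), mul_zero]

lemma sum_term_le (k : Fin N) (l : ℕ) (x : Fin n) :
    |∑ i ∈ range V.T, term V k l x i| ≤ 32 * ((4 * Cx + 1) * 2 ^ l * V.s k * V.ρ x) := by
  have hG := G_one_le V l
  have hs := V.s_nonneg k
  calc |∑ i ∈ range V.T, term V k l x i| ≤ ∑ i ∈ range V.T, |term V k l x i| :=
        abs_sum_le_sum_abs _ _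
    _ ≤ ∑ i ∈ range V.T,
        16 * ((4 * Cx + 1) * 2 ^ l * V.s k) * (if V.r i < V.ρ x then V.r i else 0) := by
        refine sum_le_sum fun i _ => ?_
        split_ifs with h
        · refine (abs_term_le V k l x i).trans (le_of_eq ?_)
          rw [SplitEnv.θ]; ring
        · simp [term_zero V hS k l (not_lt.1 h)]
    _ ≤ 16 * ((4 * Cx + 1) * 2 ^ l * V.s k) * (2 * V.ρ x) := by
        rw [← mul_sum]
        exact mul_le_mul_of_nonneg_left (geom_sum V.r (r_succ V) (fun i => (r_pos V i).le) _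
          (V.ρ_pos x).le) (mul_nonneg (by norm_num) (mul_nonneg (by linarith) hs))
    _ = _ := by ring

lemma top_far (k : Fin N) (l : ℕ) {y y' : Fin n} (hfar : pairR V y y' ≤ 8 * lpD p V.X y y') :
    |V.M k l y V.T - V.M k l y' V.T| ≤ (1 + 16 * Cx) * pairZ V k l y y' := by
  have hCx := V.one_le_Cx
  have ht := dist_metric V
  have hy : V.ρ y ≤ V.r V.T := (le_max_left _ _).trans (pairR_le_top V y y')
  have hy' : V.ρ y' ≤ V.r V.T := (le_max_right _ _).trans (pairR_le_top V y y')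
  rw [((hS Cx n N V k l y y V.T).2.2.1 hy).2.2, ((hS Cx n N V k l y' y' V.T).2.2.1 hy').2.2]
  have e : ∑ z, V.W V.T y z * V.X z k - ∑ z, V.W V.T y' z * V.X z k
      = ∑ z, ∑ z', V.W V.T y z * V.W V.T y' z' * (V.X z k - V.X z' k) := by
    simp only [mul_sub, sum_sub_distrib]
    congr 1
    · refine sum_congr rfl fun z _ => ?_
      rw [← sum_mul, ← mul_sum, (V.isW V.T y').sum_one, mul_one]
    · rw [sum_comm]
      refine sum_congr rfl fun z _ => ?_
      rw [← sum_mul, ← sum_mul, (V.isW V.T y).sum_one, one_mul]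
  rw [e]
  refine le_trans ?_ (mul_le_mul_of_nonneg_left (s_mul_le_pairZ V k l y y') (by linarith))
  calc |∑ z, ∑ z', V.W V.T y z * V.W V.T y' z' * (V.X z k - V.X z' k)|
      ≤ ∑ z, ∑ z', |V.W V.T y z * V.W V.T y' z' * (V.X z k - V.X z' k)| :=
        (abs_sum_le_sum_abs _ _).trans (sum_le_sum fun z _ => abs_sum_le_sum_abs _ _)
    _ ≤ ∑ z, ∑ z', V.W V.T y z * V.W V.T y' z'
          * ((1 + 16 * Cx) * (V.s k * lpD p V.X y y')) := by
        refine sum_le_sum fun z _ => sum_le_sum fun z' _ => ?_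
        have n1 := (V.isW V.T y).nonneg z
        have n2 := (V.isW V.T y').nonneg z'
        rw [abs_mul, abs_of_nonneg (mul_nonneg n1 n2)]
        rcases eq_or_ne (V.W V.T y z * V.W V.T y' z') 0 with h | h
        · simp [h]
        obtain ⟨h1, h2⟩ := mul_ne_zero_iff.1 h
        obtain ⟨c1, d1⟩ := V.pure V.T y hy z h1
        obtain ⟨c2, d2⟩ := V.pure V.T y' hy' z' h2
        refine mul_le_mul_of_nonneg_left ((V.sens k z c1 z' c2).trans ?_) (mul_nonneg n1 n2)
        rw [mul_left_comm (1 + 16 * Cx)]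
        refine mul_le_mul_of_nonneg_left ?_ (V.s_nonneg k)
        have t1 := ht.tri z y z'
        have t2 := ht.tri y y' z'
        have t3 := ht.symm z y
        have e1 : Cx * V.ρ y ≤ Cx * (8 * lpD p V.X y y') :=
          mul_le_mul_of_nonneg_left ((le_max_left _ _).trans hfar) (by linarith)
        have e2 : Cx * V.ρ y' ≤ Cx * (8 * lpD p V.X y y') :=
          mul_le_mul_of_nonneg_left ((le_max_right _ _).trans hfar) (by linarith)
        linarith
    _ = (1 + 16 * Cx) * (V.s k * lpD p V.X y y') := by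
        simp only [← sum_mul, ← mul_sum, (V.isW V.T y').sum_one, (V.isW V.T y).sum_one,
          one_mul, mul_one]

lemma top_near (k : Fin N) (l : ℕ) {y y' : Fin n} (hnear : 8 * lpD p V.X y y' < pairR V y y') :
    |V.M k l y V.T - V.M k l y' V.T|
      ≤ 2 * Cx * (2 * Cx + 1) * (V.β * pairZ V k l y y') := by
  have hCx := V.one_le_Cx
  have hβ := V.one_le_β
  have ht := dist_metric V
  have hu0 := dist_nonneg' V y y'
  have hRy : V.ρ y ≤ pairR V y y' := le_max_left _ _
  have hRy' : V.ρ y' ≤ pairR V y y' := le_max_right _ _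
  have hR0 := pairR_pos V y y'
  have hex : ∃ i, pairR V y y' ≤ V.r i := ⟨V.T, pairR_le_top V y y'⟩
  obtain ⟨i, hiR, hiup⟩ : ∃ i, pairR V y y' ≤ V.r i ∧ V.r i ≤ 2 * pairR V y y' := by
    refine ⟨Nat.find hex, Nat.find_spec hex, ?_⟩
    rcases Nat.eq_zero_or_eq_succ_pred (Nat.find hex) with h | h
    · have hb := V.base_le y
      have hpow : (1:ℝ) ≤ 2 ^ V.B := one_le_pow₀ one_le_two
      have h0 : V.r 0 = (2:ℝ) ^ V.base := by simp [SplitEnv.r]
      have := le_mul_of_one_le_right (by positivity : 0 ≤ 8 * (2:ℝ) ^ V.base) hpow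
      have := r_pos V 0
      rw [h]; linarith
    · have hlt : ¬ pairR V y y' ≤ V.r (Nat.find hex).pred := Nat.find_min hex (by omega)
      rw [h, r_succ]
      linarith [not_le.1 hlt]
  have hpT : ∀ x, V.ρ x ≤ pairR V y y' → V.M k l x V.T = ∑ z, V.W i x z * V.X z k := fun x hx => by
    have hT' : V.ρ x ≤ V.r V.T := hx.trans (pairR_le_top V y y')
    rw [((hS Cx n N V k l x x V.T).2.2.1 hT').2.2, V.stable V.T i x hT' (hx.trans hiR)]
  rw [hpT y hRy, hpT y' hRy']
  obtain ⟨c, hc⟩ : ∃ c, V.W i y c ≠ 0 := by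
    by_contra h
    push Not at h
    simpa [h] using (V.isW i y).sum_one
  obtain ⟨cC, cd⟩ := V.pure i y (hRy.trans hiR) c hc
  have e : ∑ z, V.W i y z * V.X z k - ∑ z, V.W i y' z * V.X z k
      = ∑ z, (V.W i y z - V.W i y' z) * (V.X z k - V.X c k) := by
    simp only [sub_mul, mul_sub, sum_sub_distrib, ← sum_mul,
      (V.isW i y).sum_one, (V.isW i y').sum_one]
    ring
  rw [e]
  have e2 : Cx * V.ρ y ≤ Cx * pairR V y y' := mul_le_mul_of_nonneg_left hRy (by linarith)
  have e3 : Cx * V.ρ y' ≤ Cx * pairR V y y' := mul_le_mul_of_nonneg_left hRy' (by linarith)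
  calc _ ≤ ∑ z, |V.W i y z - V.W i y' z| * (V.s k * ((2 * Cx + 1) * pairR V y y')) := by
        refine (abs_sum_le_sum_abs _ _).trans (sum_le_sum fun z _ => ?_)
        rw [abs_mul]
        rcases eq_or_ne (V.W i y z) 0 with h | h
        · rcases eq_or_ne (V.W i y' z) 0 with h' | h'
          · simp [h, h']
          obtain ⟨zC, zd⟩ := V.pure i y' (hRy'.trans hiR) z h'
          refine mul_le_mul_of_nonneg_left ((V.sens k z zC c cC).trans
            (mul_le_mul_of_nonneg_left ?_ (V.s_nonneg k))) (abs_nonneg _)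
          have := ht.tri z y' c
          have := ht.tri y' y c
          have := ht.symm z y'
          have := ht.symm y' y
          linarith
        · obtain ⟨zC, zd⟩ := V.pure i y (hRy.trans hiR) z h
          refine mul_le_mul_of_nonneg_left ((V.sens k z zC c cC).trans
            (mul_le_mul_of_nonneg_left ?_ (V.s_nonneg k))) (abs_nonneg _)
          have := ht.tri z y c
          have := ht.symm z y
          linarith
    _ = tv (V.W i y) (V.W i y') * (V.s k * ((2 * Cx + 1) * pairR V y y')) := by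
        rw [← sum_mul]; rfl
    _ ≤ (2 * Cx * V.β * (lpD p V.X y y' / pairR V y y'))
          * (V.s k * ((2 * Cx + 1) * pairR V y y')) := by
        refine mul_le_mul_of_nonneg_right ((tv_pair V hiup).trans ?_)
          (mul_nonneg (V.s_nonneg k) (by positivity))
        exact mul_le_mul_of_nonneg_left (div_le_div_of_nonneg_left hu0 hR0 hiR) (by positivity)
    _ = 2 * Cx * (2 * Cx + 1) * (V.β * (V.s k * lpD p V.X y y')) := by field_simp
    _ ≤ _ := mul_le_mul_of_nonneg_left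
        (mul_le_mul_of_nonneg_left (s_mul_le_pairZ V k l y y') (by linarith)) (by positivity)

omit hS in
lemma omega_diff (k : Fin N) (l : ℕ) {y y' : Fin n} {i : ℕ}
    (hnear : 8 * lpD p V.X y y' < pairR V y y') (hiR : V.r i ≤ pairR V y y') :
    |V.ω y i - V.ω y' i| * V.θ k l i ≤ 4 * pairZ V k l y y' := by
  have hu0 := dist_nonneg' V y y'
  have hR0 := pairR_pos V y y'
  obtain ⟨m1, m2⟩ := near_radii V hnear
  have hbound : |V.ω y i - V.ω y' i| ≤ 4 * (lpD p V.X y y' / pairR V y y') := by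
    rcases le_or_gt (2 * pairR V y y') (V.r i * 2 ^ V.B) with h | h
    · have hone : ∀ x, V.ρ x ≤ pairR V y y' → V.ω x i = 1 := fun x hx => by
        refine ramp01_eq_one ?_
        have : 2 ≤ V.r i * 2 ^ V.B / V.ρ x := (le_div_iff₀ (V.ρ_pos x)).2 (by linarith)
        linarith
      rw [hone y (le_max_left _ _), hone y' (le_max_right _ _), sub_self, abs_zero]
      positivity
    refine (abs_ramp01_sub _ _).trans ?_
    have hy0 := V.ρ_pos y
    have hy0' := V.ρ_pos y'
    rw [sub_sub_sub_cancel_right, div_sub_div _ _ hy0.ne' hy0'.ne', abs_div,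
      abs_of_pos (mul_pos hy0 hy0'), div_le_iff₀ (mul_pos hy0 hy0'),
      show V.r i * 2 ^ V.B * V.ρ y' - V.ρ y * (V.r i * 2 ^ V.B)
        = V.r i * 2 ^ V.B * (V.ρ y' - V.ρ y) by ring, abs_mul,
      abs_of_pos (mul_pos (r_pos V i) (by positivity)), abs_sub_comm]
    calc V.r i * 2 ^ V.B * |V.ρ y - V.ρ y'| ≤ 2 * pairR V y y' * lpD p V.X y y' :=
          mul_le_mul h.le (rho_diff V y y') (abs_nonneg _) (by positivity)
      _ ≤ 49 / 16 * pairR V y y' * lpD p V.X y y' := by
          refine mul_le_mul_of_nonneg_right ?_ hu0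
          linarith
      _ = 4 * (lpD p V.X y y' / pairR V y y')
            * (7 * pairR V y y' / 8 * (7 * pairR V y y' / 8)) := by field_simp; ring
      _ ≤ _ := mul_le_mul_of_nonneg_left (mul_le_mul m1 m2 (by positivity) hy0.le) (by positivity)
  calc |V.ω y i - V.ω y' i| * V.θ k l i
      ≤ 4 * (lpD p V.X y y' / V.r i) * V.θ k l i := by
        refine mul_le_mul_of_nonneg_right (hbound.trans ?_) (theta_nonneg V k l i)
        exact mul_le_mul_of_nonneg_left (div_le_div_of_nonneg_left hu0 (r_pos V i) hiR)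
          (by norm_num)
    _ = _ := theta_mul V 4 k l i y y'

lemma psi_diff (k : Fin N) (l : ℕ) (y y' : Fin n) (i j : ℕ) :
    |psiOf V.q (V.φ k l y j) - psiOf V.q (V.φ k l y' j)| * V.θ k l i
      ≤ 1536 * (V.q : ℝ) * Cx * V.β * pairZ V k l y y' * (V.r i / V.r j) := by
  have hCx := V.one_le_Cx
  have hβ := V.one_le_β
  have hi := r_pos V i
  have hj := r_pos V j
  have hZ := pairZ_nonneg V k l y y'
  rcases le_or_gt (pairR V y y') (V.r j) with h | h
  · rw [((hS Cx n N V k l y y j).2.2.1 ((le_max_left _ _).trans h)).1,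
      ((hS Cx n N V k l y' y' j).2.2.1 ((le_max_right _ _).trans h)).1, sub_self, abs_zero,
      zero_mul]
    positivity
  have h1 := tv_pair V (y := y) (y' := y') (i := j) (by linarith)
  have h2 := tv_pair_succ V (y := y) (y' := y') (i := j) h.le
  have h4 := (hS Cx n N V k l y y' j).2.2.2.2.2.2.1
  have hφ : |V.φ k l y j - V.φ k l y' j|
      ≤ 12 * Cx * V.β * (lpD p V.X y y' / V.r j) := by linarith
  calc |psiOf V.q (V.φ k l y j) - psiOf V.q (V.φ k l y' j)| * V.θ k l i
      ≤ 128 * (V.q : ℝ) * (12 * Cx * V.β * (lpD p V.X y y' / V.r j)) * V.θ k l i :=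
        mul_le_mul_of_nonneg_right ((abs_psi_sub _ _ _).trans
          (mul_le_mul_of_nonneg_left hφ (by positivity))) (theta_nonneg V k l i)
    _ = _ := by
        unfold SplitEnv.θ pairZ
        field_simp
        ring

lemma pi_diff (k : Fin N) (l : ℕ) (y y' : Fin n) (i : ℕ) :
    |piW V.q (V.φ k l y) i V.T - piW V.q (V.φ k l y') i V.T| * V.θ k l i
      ≤ 3072 * (V.q : ℝ) * Cx * V.β * pairZ V k l y y' := by
  have hCx := V.one_le_Cx
  have hβ := V.one_le_β
  have hZ := pairZ_nonneg V k l y y'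
  calc |piW V.q (V.φ k l y) i V.T - piW V.q (V.φ k l y') i V.T| * V.θ k l i
      ≤ (∑ j ∈ Ico i V.T, |psiOf V.q (V.φ k l y j) - psiOf V.q (V.φ k l y' j)|)
          * V.θ k l i := by
        refine mul_le_mul_of_nonneg_right ?_ (theta_nonneg V k l i)
        exact abs_prod_one_sub _ _ (fun j => ⟨psi_nonneg _ _, psi_le_one _ _⟩)
          fun j => ⟨psi_nonneg _ _, psi_le_one _ _⟩
    _ ≤ ∑ j ∈ Ico i V.T,
          1536 * (V.q : ℝ) * Cx * V.β * pairZ V k l y y' * (V.r i / V.r j) := by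
        rw [sum_mul]
        exact sum_le_sum fun j _ => psi_diff V hS k l y y' i j
    _ ≤ 1536 * (V.q : ℝ) * Cx * V.β * pairZ V k l y y' * 2 := by
        rw [← mul_sum]
        exact mul_le_mul_of_nonneg_left (geom_tail i V.T V.r (r_succ V) (r_pos V)) (by positivity)
    _ = _ := by ring

lemma jump_diff (k : Fin N) (l : ℕ) {y y' : Fin n} {i : ℕ}
    (hnear : 8 * lpD p V.X y y' < pairR V y y') (hiR : V.r i < pairR V y y') (hiT : i < V.T) :
    piW V.q (V.φ k l y') i V.T
        * |clipTo (16 * V.θ k l i) (V.M k l y i - V.M k l y (i + 1))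
            - clipTo (16 * V.θ k l i) (V.M k l y' i - V.M k l y' (i + 1))|
      ≤ 8192 * Cx * (V.β * pairZ V k l y y') := by
  have hCx := V.one_le_Cx
  have hβ := V.one_le_β
  have hθ0 := theta_nonneg V k l i
  have hZ : 0 ≤ V.β * pairZ V k l y y' := mul_nonneg (by linarith) (pairZ_nonneg V k l y y')
  have hm := piW_mem V.q (V.φ k l y') i V.T
  rcases eq_or_ne (piW V.q (V.φ k l y') i V.T) 0 with h | h
  · rw [h, zero_mul]; positivity
  refine (mul_le_of_le_one_left (abs_nonneg _) hm.2).trans ?_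
  have t1 := mul_le_mul_of_nonneg_right (tv_pair V (y := y) (y' := y') (i := i)
    (by linarith [r_pos V i])) hθ0
  have t2 := mul_le_mul_of_nonneg_right (tv_pair_succ V (y := y) (y' := y') (i := i) hiR.le) hθ0
  rw [theta_mul, mul_assoc _ V.β] at t1 t2
  rcases le_or_gt (tv (V.W i y) (V.W i y') + tv (V.W (i + 1) y) (V.W (i + 1) y')) (1 / 64)
    with hsm | hbig
  · have hsucc : i + 1 < V.T := by
      by_contra hge
      have he : i + 1 = V.T := by omega
      have h1 := r_succ V i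
      rw [he] at h1
      have h2 : 128 * V.ρ y ≤ V.r V.T := V.top_ρ y
      linarith [(near_radii V hnear).1, pairR_pos V y y']
    have f1 : V.φ k l y' i < eta0 := lt_of_piW_ne h (mem_Ico.2 ⟨le_rfl, hiT⟩)
    have f2 : V.φ k l y' (i + 1) < eta0 := lt_of_piW_ne h (mem_Ico.2 ⟨i.le_succ, hsucc⟩)
    have g1 := (hS Cx n N V k l y y' i).2.2.2.2.2.1 f1
      (by linarith [tv_nonneg (V.W (i + 1) y) (V.W (i + 1) y')])
    have g2 := (hS Cx n N V k l y y' (i + 1)).2.2.2.2.2.1 f2
      (by linarith [tv_nonneg (V.W i y) (V.W i y')])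
    rw [(hS Cx n N V k l y y' i).1.2] at g2
    refine (abs_clip_sub _ _ _).trans ?_
    rw [show V.M k l y i - V.M k l y (i + 1) - (V.M k l y' i - V.M k l y' (i + 1))
      = (V.M k l y i - V.M k l y' i) - (V.M k l y (i + 1) - V.M k l y' (i + 1)) by ring]
    refine (abs_sub _ _).trans ?_
    have hCZ : 0 ≤ Cx * (V.β * pairZ V k l y y') := mul_nonneg (by linarith) hZ
    linarith
  · refine (abs_sub _ _).trans ?_
    have hb := mul_le_mul_of_nonneg_right hbig.le hθ0
    have b1 := abs_clip_le (by linarith : 0 ≤ 16 * V.θ k l i)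
      (V.M k l y i - V.M k l y (i + 1))
    have b2 := abs_clip_le (by linarith : 0 ≤ 16 * V.θ k l i)
      (V.M k l y' i - V.M k l y' (i + 1))
    linarith

lemma term_diff (k : Fin N) (l : ℕ) {y y' : Fin n} {i : ℕ}
    (hnear : 8 * lpD p V.X y y' < pairR V y y') (hiR : V.r i < pairR V y y') (hiT : i < V.T) :
    |term V k l y i - term V k l y' i|
      ≤ (64 + 49152 * (V.q : ℝ) * Cx + 8192 * Cx) * (V.β * pairZ V k l y y') := by
  have c1 := omega_diff V k l hnear hiR.le
  have c2 := pi_diff V hS k l y y' i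
  have c3 := jump_diff V hS k l hnear hiR hiT
  have hθ0 := theta_nonneg V k l i
  have hZ : pairZ V k l y y' ≤ V.β * pairZ V k l y y' :=
    le_mul_of_one_le_left (pairZ_nonneg V k l y y') V.one_le_β
  unfold term
  generalize hπ : piW V.q (V.φ k l y) i V.T = π at *
  generalize hπ' : piW V.q (V.φ k l y') i V.T = π' at *
  generalize hJ : clipTo (16 * V.θ k l i) (V.M k l y i - V.M k l y (i + 1)) = J at *
  generalize hJ' : clipTo (16 * V.θ k l i) (V.M k l y' i - V.M k l y' (i + 1)) = J' at *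
  have hJb : |J| ≤ 16 * V.θ k l i := hJ ▸ abs_clip_le (by linarith) _
  have hπm : 0 ≤ π ∧ π ≤ 1 := hπ ▸ piW_mem _ _ _ _
  have hπm' : 0 ≤ π' := hπ' ▸ (piW_mem _ _ _ _).1
  rw [show V.ω y i * π * J - V.ω y' i * π' * J'
      = (V.ω y i - V.ω y' i) * (π * J) + V.ω y' i * ((π - π') * J + π' * (J - J')) by ring]
  refine (abs_add_le _ _).trans ?_
  have a1 : |(V.ω y i - V.ω y' i) * (π * J)| ≤ 16 * (|V.ω y i - V.ω y' i| * V.θ k l i) := by
    rw [abs_mul, abs_mul, abs_of_nonneg hπm.1]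
    calc |V.ω y i - V.ω y' i| * (π * |J|)
        ≤ |V.ω y i - V.ω y' i| * (1 * (16 * V.θ k l i)) :=
          mul_le_mul_of_nonneg_left (mul_le_mul hπm.2 hJb (abs_nonneg _) zero_le_one)
            (abs_nonneg _)
      _ = _ := by ring
  have a2 : |V.ω y' i * ((π - π') * J + π' * (J - J'))|
      ≤ 16 * (|π - π'| * V.θ k l i) + π' * |J - J'| := by
    rw [abs_mul, abs_of_nonneg (show 0 ≤ V.ω y' i from ramp01_nonneg _)]
    refine (mul_le_of_le_one_left (abs_nonneg _) (ramp01_le_one _)).trans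
      ((abs_add_le _ _).trans (add_le_add ?_ (le_of_eq ?_)))
    · rw [abs_mul]
      calc |π - π'| * |J| ≤ |π - π'| * (16 * V.θ k l i) :=
            mul_le_mul_of_nonneg_left hJb (abs_nonneg _)
        _ = _ := by ring
    · rw [abs_mul, abs_of_nonneg hπm']
  linarith

lemma term_vanish (k : Fin N) (l : ℕ) {y y' : Fin n} {i : ℕ}
    (hnear : 8 * lpD p V.X y y' < pairR V y y')
    (h : pairR V y y' ≤ V.r i ∨ V.r i * 2 ^ (V.B + 1) ≤ pairR V y y') :
    term V k l y i - term V k l y' i = 0 := by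
  rcases h with h | h
  · rw [term_zero V hS k l ((le_max_left _ _).trans h),
      term_zero V hS k l ((le_max_right _ _).trans h), sub_self]
  obtain ⟨m1, m2⟩ := near_radii V hnear
  rw [pow_succ] at h
  have hR := pairR_pos V y y'
  have hw : ∀ x, 7 * pairR V y y' / 8 ≤ V.ρ x → V.ω x i = 0 := fun x hx => by
    refine ramp01_eq_zero (sub_nonpos.2 ((div_le_one (V.ρ_pos x)).2 ?_))
    linarith
  simp [term, hw y m1, hw y' m2]

omit hS in
lemma card_scales (R : ℝ) :
    (((range V.T).filter (fun i => R < V.r i * 2 ^ (V.B + 1) ∧ V.r i < R)).card : ℝ)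
      ≤ (V.B : ℝ) + 1 := by
  generalize hSdef : (range V.T).filter (fun i => R < V.r i * 2 ^ (V.B + 1) ∧ V.r i < R) = S
  rcases S.eq_empty_or_nonempty with h | h
  · rw [h, card_empty, Nat.cast_zero]; positivity
  obtain ⟨a, ha, hmn⟩ := exists_min_image S id h
  have hsub : S ⊆ Ico a (a + (V.B + 1)) := by
    intro i hi
    refine mem_Ico.2 ⟨hmn i hi, ?_⟩
    by_contra hge
    have h1 := r_mono V (not_lt.1 hge)
    rw [r_add, mul_comm] at h1
    rw [← hSdef] at ha hi
    linarith [((mem_filter.1 ha).2).1, ((mem_filter.1 hi).2).2]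
  have h2 := card_le_card hsub
  rw [Nat.card_Ico, Nat.add_sub_cancel_left] at h2
  exact_mod_cast h2

lemma sum_diff_near (k : Fin N) (l : ℕ) {y y' : Fin n}
    (hnear : 8 * lpD p V.X y y' < pairR V y y') :
    |∑ i ∈ range V.T, (term V k l y i - term V k l y' i)|
      ≤ ((V.B : ℝ) + 1)
        * ((64 + 49152 * (V.q : ℝ) * Cx + 8192 * Cx) * (V.β * pairZ V k l y y')) := by
  rw [← sum_subset (filter_subset
    (fun i => pairR V y y' < V.r i * 2 ^ (V.B + 1) ∧ V.r i < pairR V y y') _) fun i hi hiS => ?_]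
  · refine (abs_sum_le_sum_abs _ _).trans ((sum_le_card_nsmul _ _ _ fun i hi =>
      term_diff V hS k l hnear (mem_filter.1 hi).2.2
        (mem_range.1 (mem_filter.1 hi).1)).trans ?_)
    rw [nsmul_eq_mul]
    refine mul_le_mul_of_nonneg_right (card_scales V _) ?_
    have := V.one_le_Cx
    have := V.one_le_β
    have := pairZ_nonneg V k l y y'
    positivity
  · refine term_vanish V hS k l hnear ?_
    rcases le_or_gt (pairR V y y') (V.r i) with h | h
    · exact Or.inl h
    · exact Or.inr (not_lt.1 fun h' => hiS (mem_filter.2 ⟨hi, h', h⟩))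

lemma level_diff (k : Fin N) (l : ℕ) (y y' : Fin n) :
    |V.levelVal k l y - V.levelVal k l y'|
      ≤ (513 + 16 * Cx + 2 * Cx * (2 * Cx + 1) + (64 + 49152 * (V.q : ℝ) * Cx + 8192 * Cx))
        * (((V.B : ℝ) + 1) * (V.β * pairZ V k l y y')) := by
  have hCx := V.one_le_Cx
  have hG := G_one_le V l
  have hZ := pairZ_nonneg V k l y y'
  have hB : (1:ℝ) ≤ (V.B : ℝ) + 1 := by linarith [Nat.cast_nonneg (α := ℝ) V.B]
  have hβZ : pairZ V k l y y' ≤ V.β * pairZ V k l y y' := le_mul_of_one_le_left hZ V.one_le_β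
  have hq : 0 ≤ (V.q : ℝ) * Cx := mul_nonneg (Nat.cast_nonneg _) (by linarith)
  have hU : V.β * pairZ V k l y y' ≤ ((V.B : ℝ) + 1) * (V.β * pairZ V k l y y') :=
    le_mul_of_one_le_left (hZ.trans hβZ) hB
  have hU0 : 0 ≤ ((V.B : ℝ) + 1) * (V.β * pairZ V k l y y') := (hZ.trans hβZ).trans hU
  have hCx2 : 0 ≤ 2 * Cx * (2 * Cx + 1) := by positivity
  rw [levelVal_eq, levelVal_eq]
  rcases le_or_gt (pairR V y y') (8 * lpD p V.X y y') with hfar | hnear
  · have h1 := sum_term_le V hS k l y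
    have h2 := sum_term_le V hS k l y'
    have hG0 : 0 ≤ (4 * Cx + 1) * 2 ^ l * V.s k := mul_nonneg (by linarith) (V.s_nonneg k)
    have h3 : (4 * Cx + 1) * 2 ^ l * V.s k * V.ρ y ≤ 8 * pairZ V k l y y' := by
      refine (mul_le_mul_of_nonneg_left ((le_max_left _ _).trans hfar) hG0).trans (le_of_eq ?_)
      rw [pairZ]; ring
    have h4 : (4 * Cx + 1) * 2 ^ l * V.s k * V.ρ y' ≤ 8 * pairZ V k l y y' := by
      refine (mul_le_mul_of_nonneg_left ((le_max_right _ _).trans hfar) hG0).trans (le_of_eq ?_)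
      rw [pairZ]; ring
    have h5 := top_far V hS k l hfar
    rw [add_sub_add_comm]
    refine (abs_add_le _ _).trans ((add_le_add h5 (abs_sub _ _)).trans ?_)
    calc (1 + 16 * Cx) * pairZ V k l y y'
          + (|∑ i ∈ range V.T, term V k l y i| + |∑ i ∈ range V.T, term V k l y' i|)
        ≤ (513 + 16 * Cx) * pairZ V k l y y' := by linarith
      _ ≤ (513 + 16 * Cx) * (((V.B : ℝ) + 1) * (V.β * pairZ V k l y y')) :=
          mul_le_mul_of_nonneg_left (hβZ.trans hU) (by linarith)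
      _ ≤ _ := mul_le_mul_of_nonneg_right (by linarith) hU0
  · have h1 := top_near V hS k l hnear
    have h2 := sum_diff_near V hS k l hnear
    rw [add_sub_add_comm, ← sum_sub_distrib]
    refine (abs_add_le _ _).trans ((add_le_add h1 h2).trans ?_)
    calc _ ≤ (2 * Cx * (2 * Cx + 1) + (64 + 49152 * (V.q : ℝ) * Cx + 8192 * Cx))
          * (((V.B : ℝ) + 1) * (V.β * pairZ V k l y y')) := by
          linarith [mul_le_mul_of_nonneg_left hU hCx2]
      _ ≤ _ := mul_le_mul_of_nonneg_right (by linarith) hU0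

end Env

end Sens

open Sens

/-- Sensitivity of the level functions. -/
theorem sens {p : ℝ} (_hp : 1 < p) (hS : ScaleStmt p) : SensStmt p := by
  intro Cx
  refine ⟨max 1 (513 + 16 * Cx + 2 * Cx * (2 * Cx + 1)
    + (64 + 49152 * ((max 2 ⌈p⌉₊ : ℕ) : ℝ) * Cx + 8192 * Cx)), le_max_left _ _,
    fun n N V k l y y' => (level_diff V hS k l y y').trans ?_⟩
  have hZ := pairZ_nonneg V k l y y'
  have := V.one_le_β
  refine (mul_le_mul_of_nonneg_right (le_max_right 1 _) (by positivity)).trans (le_of_eq ?_)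
  simp only [SplitEnv.q, pairZ]
  ring

end Vale.Agent.P249.Full
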