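import Mathlib
import Vale.Agent.P249.Full.Spec

/-! Tilted random bits: weights separating far points, Lipschitz in the Euclidean distance. -/

namespace Vale.Agent.P249.Full.Tilted

open Finset

variable {ι : Type*} [Fintype ι] [DecidableEq ι]

/-- The tilted law of one bit. -/
noncomputable def bitW (x : ℝ) (b : Bool) : ℝ :=
  Real.exp (if b then x else -x) / (2 * Real.cosh x)

/-- The tilted product law. -/
noncomputable def tiltW (u : ι → ℝ) (γ : ι → Bool) : ℝ := ∏ i, bitW (u i) (γ i)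

/-- The squared affinity of two tilted bits. -/
noncomputable def affSq (x y : ℝ) : ℝ :=
  Real.cosh ((x + y) / 2) ^ 2 / (Real.cosh x * Real.cosh y)

/-- The affinity of two tilted product laws. -/
noncomputable def aff (u u' : ι → ℝ) : ℝ :=
  ∑ γ : ι → Bool, Real.sqrt (tiltW u γ) * Real.sqrt (tiltW u' γ)

lemma bitW_pos (x : ℝ) (b : Bool) : 0 < bitW x b :=
  div_pos (Real.exp_pos _) (by linarith [Real.cosh_pos x])

lemma sum_bitW (x : ℝ) : ∑ b, bitW x b = 1 := by
  rw [Fintype.sum_bool]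
  simp only [bitW, if_true, Bool.false_eq_true, if_false]
  rw [← add_div, div_eq_one_iff_eq (by linarith [Real.cosh_pos x]), Real.cosh_eq]
  ring

omit [DecidableEq ι] in
lemma tiltW_pos (u : ι → ℝ) (γ : ι → Bool) : 0 < tiltW u γ :=
  Finset.prod_pos fun i _ => bitW_pos _ _

lemma sum_tiltW (u : ι → ℝ) : ∑ γ, tiltW u γ = 1 := by
  simp only [tiltW]
  rw [← Fintype.prod_sum (fun i b => bitW (u i) b)]
  exact Finset.prod_eq_one fun i _ => sum_bitW _

lemma sqrt_bitW_mul (x y : ℝ) :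
    (∑ b, Real.sqrt (bitW x b) * Real.sqrt (bitW y b)) ^ 2 = affSq x y := by
  have hx := Real.cosh_pos x
  have hy := Real.cosh_pos y
  have h : ∀ b, Real.sqrt (bitW x b) * Real.sqrt (bitW y b) =
      Real.exp (if b then (x + y) / 2 else -((x + y) / 2))
        / (2 * Real.sqrt (Real.cosh x * Real.cosh y)) := by
    intro b
    rw [← Real.sqrt_mul (bitW_pos x b).le]
    refine Real.sqrt_eq_iff_eq_sq (mul_pos (bitW_pos x b) (bitW_pos y b)).le
      (by positivity) |>.2 ?_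
    rw [div_pow, mul_pow, Real.sq_sqrt (by positivity), sq (Real.exp _), ← Real.exp_add]
    simp only [bitW]
    rw [div_mul_div_comm, ← Real.exp_add]
    cases b <;> simp <;> ring_nf
  simp only [h, Fintype.sum_bool, if_true, Bool.false_eq_true, if_false]
  rw [← add_div, affSq, div_pow, mul_pow, Real.sq_sqrt (by positivity),
    Real.cosh_eq ((x + y) / 2)]
  ring

lemma aff_sq (u u' : ι → ℝ) : aff u u' ^ 2 = ∏ i, affSq (u i) (u' i) := by
  have h : ∀ γ : ι → Bool, Real.sqrt (tiltW u γ) * Real.sqrt (tiltW u' γ) =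
      ∏ i, Real.sqrt (bitW (u i) (γ i)) * Real.sqrt (bitW (u' i) (γ i)) := by
    intro γ
    rw [Finset.prod_mul_distrib, tiltW, tiltW,
      Real.sqrt_prod _ (fun i _ => (bitW_pos _ _).le), Real.sqrt_prod _ (fun i _ => (bitW_pos _ _).le)]
  simp only [aff, h]
  rw [← Fintype.prod_sum (fun i b => Real.sqrt (bitW (u i) b) * Real.sqrt (bitW (u' i) b)),
    ← Finset.prod_pow]
  exact Finset.prod_congr rfl fun i _ => sqrt_bitW_mul _ _

lemma inv_affSq (x y : ℝ) : (affSq x y)⁻¹ =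
    1 + Real.sinh ((x - y) / 2) ^ 2 / Real.cosh ((x + y) / 2) ^ 2 := by
  have hm : Real.cosh ((x + y) / 2) ≠ 0 := (Real.cosh_pos _).ne'
  have e1 := Real.cosh_add ((x + y) / 2) ((x - y) / 2)
  have e2 := Real.cosh_sub ((x + y) / 2) ((x - y) / 2)
  have s1 := Real.cosh_sq ((x + y) / 2)
  have s2 := Real.cosh_sq ((x - y) / 2)
  rw [show (x + y) / 2 + (x - y) / 2 = x by ring] at e1
  rw [show (x + y) / 2 - (x - y) / 2 = y by ring] at e2
  rw [affSq, inv_div, eq_comm, one_add_div (pow_ne_zero 2 hm), e1, e2]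
  congr 1
  linear_combination -(Real.cosh ((x + y) / 2) ^ 2) * s2
    - (Real.sinh ((x - y) / 2) ^ 2) * s1

lemma affSq_pos (x y : ℝ) : 0 < affSq x y :=
  div_pos (pow_pos (Real.cosh_pos _) 2) (mul_pos (Real.cosh_pos _) (Real.cosh_pos _))

lemma exp_le_affSq (x y : ℝ) : Real.exp (-((x - y) ^ 2 / 4)) ≤ affSq x y := by
  have hpos := affSq_pos x y
  rw [Real.exp_neg, inv_le_comm₀ (Real.exp_pos _) hpos, inv_affSq]
  calc 1 + Real.sinh ((x - y) / 2) ^ 2 / Real.cosh ((x + y) / 2) ^ 2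
      ≤ 1 + Real.sinh ((x - y) / 2) ^ 2 := by
        have : (1:ℝ) ≤ Real.cosh ((x + y) / 2) ^ 2 := one_le_pow₀ (Real.one_le_cosh _)
        have := div_le_self (sq_nonneg (Real.sinh ((x - y) / 2))) this
        linarith
    _ = Real.cosh ((x - y) / 2) ^ 2 := by rw [Real.cosh_sq]; ring
    _ ≤ Real.exp (((x - y) / 2) ^ 2 / 2) ^ 2 :=
        pow_le_pow_left₀ (Real.cosh_pos _).le (Real.cosh_le_exp_half_sq _) 2
    _ = _ := by rw [← Real.exp_nat_mul]; congr 1; push_cast; ring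

lemma cosh_one_sq_le : Real.cosh 1 ^ 2 ≤ 3 := by
  have h := pow_le_pow_left₀ (Real.cosh_pos 1).le (Real.cosh_le_exp_half_sq 1) 2
  rw [← Real.exp_nat_mul] at h
  norm_num at h
  linarith [Real.exp_one_lt_d9]

lemma affSq_le (x y : ℝ) (hx : |x| ≤ 1) (hy : |y| ≤ 1) :
    affSq x y ≤ Real.exp (-((x - y) ^ 2 / 24)) := by
  have hpos := affSq_pos x y
  rw [abs_le] at hx hy
  rw [← inv_inv (affSq x y), inv_affSq]
  set q := ((x - y) / 2) ^ 2 / 3 with hq
  have hq0 : 0 ≤ q := by positivity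
  have hq1 : q ≤ 1 := by
    rw [hq, div_le_one (by norm_num)]; nlinarith
  have hsinh : ((x - y) / 2) ^ 2 ≤ Real.sinh ((x - y) / 2) ^ 2 := by
    rw [sq_le_sq, Real.abs_sinh]
    exact Real.self_le_sinh_iff.2 (abs_nonneg _)
  have hc : Real.cosh ((x + y) / 2) ^ 2 ≤ 3 := by
    refine le_trans (pow_le_pow_left₀ (Real.cosh_pos _).le ?_ 2) cosh_one_sq_le
    rw [Real.cosh_le_cosh, abs_one, abs_le]
    constructor <;> linarith
  have h1 : 1 + q ≤ 1 + Real.sinh ((x - y) / 2) ^ 2 / Real.cosh ((x + y) / 2) ^ 2 := by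
    gcongr 1 + ?_
    exact div_le_div₀ (sq_nonneg _) hsinh (pow_pos (Real.cosh_pos _) 2) hc
  calc (1 + Real.sinh ((x - y) / 2) ^ 2 / Real.cosh ((x + y) / 2) ^ 2)⁻¹
      ≤ (1 + q)⁻¹ := inv_anti₀ (by linarith) h1
    _ ≤ 1 - q / 2 := by
        rw [inv_le_iff_one_le_mul₀ (by linarith)]; nlinarith
    _ ≤ Real.exp (-(q / 2)) := by linarith [Real.add_one_le_exp (-(q / 2))]
    _ = _ := by rw [hq]; congr 1; ring

lemma sum_abs_tiltW_le (u u' : ι → ℝ) :
    ∑ γ, |tiltW u γ - tiltW u' γ| ≤ Real.sqrt (∑ i, (u i - u' i) ^ 2) := by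
  have h : ∀ γ : ι → Bool, |tiltW u γ - tiltW u' γ| =
      |Real.sqrt (tiltW u γ) - Real.sqrt (tiltW u' γ)|
        * (Real.sqrt (tiltW u γ) + Real.sqrt (tiltW u' γ)) := by
    intro γ
    have e : tiltW u γ - tiltW u' γ = (Real.sqrt (tiltW u γ) - Real.sqrt (tiltW u' γ))
        * (Real.sqrt (tiltW u γ) + Real.sqrt (tiltW u' γ)) := by
      nlinarith [Real.sq_sqrt (tiltW_pos u γ).le, Real.sq_sqrt (tiltW_pos u' γ).le]
    rw [e, abs_mul, abs_of_nonneg (add_nonneg (Real.sqrt_nonneg _) (Real.sqrt_nonneg _))]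
  have hm : ∑ γ : ι → Bool, |Real.sqrt (tiltW u γ) - Real.sqrt (tiltW u' γ)| ^ 2
      = 2 - 2 * aff u u' := by
    simp only [sq_abs, sub_sq, Real.sq_sqrt (tiltW_pos _ _).le, Finset.sum_add_distrib,
      Finset.sum_sub_distrib, sum_tiltW, aff, Finset.mul_sum, mul_assoc]
    ring
  have hp : ∑ γ : ι → Bool, (Real.sqrt (tiltW u γ) + Real.sqrt (tiltW u' γ)) ^ 2
      = 2 + 2 * aff u u' := by
    simp only [add_sq, Real.sq_sqrt (tiltW_pos _ _).le, Finset.sum_add_distrib,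
      sum_tiltW, aff, Finset.mul_sum, mul_assoc]
    ring
  have hB : Real.exp (-(∑ i, (u i - u' i) ^ 2 / 4)) ≤ aff u u' ^ 2 := by
    rw [aff_sq, ← Finset.sum_neg_distrib, Real.exp_sum]
    exact Finset.prod_le_prod (fun i _ => (Real.exp_pos _).le) fun i _ => exp_le_affSq _ _
  have hB' : 1 - (∑ i, (u i - u' i) ^ 2) / 4 ≤ aff u u' ^ 2 := by
    rw [← Finset.sum_div] at hB
    linarith [Real.add_one_le_exp (-((∑ i, (u i - u' i) ^ 2) / 4))]
  simp only [h]
  refine Real.le_sqrt_of_sq_le ((Finset.sum_mul_sq_le_sq_mul_sq _ _ _).trans ?_)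
  rw [hm, hp]
  nlinarith

lemma exists_weights {n : ℕ} (hn : 0 < n) (u : Fin n → ι → ℝ)
    (hu : ∀ y i, |u y i| ≤ 1) :
    ∃ w : Fin n → Fin n → ℝ, (∀ y, IsW (w y)) ∧
      (∀ y y', tv (w y) (w y') ≤ Real.sqrt (∑ i, (u y i - u y' i) ^ 2)) ∧
      ∀ y z, w y z ≤ Real.exp (-(1 / 48 * ∑ i, (u y i - u z i) ^ 2)) := by
  have : Nonempty (Fin n) := ⟨⟨0, hn⟩⟩
  choose zs hzs using fun γ : ι → Bool => Finite.exists_max fun z => tiltW (u z) γ
  refine ⟨fun y z => ∑ γ ∈ univ.filter (fun γ => zs γ = z), tiltW (u y) γ,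
    fun y => ⟨fun z => Finset.sum_nonneg fun γ _ => (tiltW_pos _ _).le, ?_⟩, fun y y' => ?_,
    fun y z => ?_⟩
  · rw [Finset.sum_fiberwise]; exact sum_tiltW _
  · refine le_trans ?_ (sum_abs_tiltW_le (u y) (u y'))
    simp only [tv, ← Finset.sum_sub_distrib]
    refine le_trans (Finset.sum_le_sum fun z _ => Finset.abs_sum_le_sum_abs _ _) ?_
    rw [Finset.sum_fiberwise]
  · have hA : aff (u y) (u z) ≤ Real.exp (-(1 / 48 * ∑ i, (u y i - u z i) ^ 2)) := by
      refine (sq_le_sq₀ ?_ (Real.exp_pos _).le).1 ?_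
      · exact Finset.sum_nonneg fun γ _ => by positivity
      rw [aff_sq, ← Real.exp_nat_mul]
      calc ∏ i, affSq (u y i) (u z i)
          ≤ ∏ i, Real.exp (-((u y i - u z i) ^ 2 / 24)) :=
            Finset.prod_le_prod (fun i _ => (affSq_pos _ _).le)
              fun i _ => affSq_le _ _ (hu y i) (hu z i)
        _ = _ := by
            rw [← Real.exp_sum]; congr 1
            simp only [Finset.sum_neg_distrib, ← Finset.sum_div]; ring
    refine le_trans ?_ hA
    refine le_trans (Finset.sum_le_sum fun γ hγ => ?_)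
      (Finset.sum_le_sum_of_subset_of_nonneg (Finset.filter_subset _ _)
        fun γ _ _ => by positivity)
    rw [(Finset.mem_filter.1 hγ).2.symm]
    calc tiltW (u y) γ = Real.sqrt (tiltW (u y) γ) * Real.sqrt (tiltW (u y) γ) :=
          (Real.mul_self_sqrt (tiltW_pos _ _).le).symm
      _ ≤ _ := by gcongr; exact hzs γ y

/-- M1 (tilted bits). -/
theorem tilted : TiltedStmt := by
  refine ⟨1 / 48, by norm_num, fun n D hn v => ?_⟩
  obtain ⟨K, hK⟩ := exists_nat_ge (∑ y, ∑ k, v y k ^ 2 + 1)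
  have hs : 0 ≤ ∑ y, ∑ k, v y k ^ 2 :=
    Finset.sum_nonneg fun _ _ => Finset.sum_nonneg fun _ _ => sq_nonneg _
  have hKpos : (0:ℝ) < K := by linarith
  have hsum : ∀ y y' : Fin n, (∑ i : Fin D × Fin K,
      (v y i.1 / Real.sqrt K - v y' i.1 / Real.sqrt K) ^ 2) = ∑ k, (v y k - v y' k) ^ 2 := by
    intro y y'
    rw [Fintype.sum_prod_type]
    refine Finset.sum_congr rfl fun k _ => ?_
    simp only [← sub_div, div_pow, Real.sq_sqrt hKpos.le, Finset.sum_const, Finset.card_univ,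
      Fintype.card_fin, nsmul_eq_mul]
    field_simp
  obtain ⟨w, hw, h1, h2⟩ := exists_weights hn
    (fun y (i : Fin D × Fin K) => v y i.1 / Real.sqrt K) fun y i => by
      rw [abs_div, abs_of_pos (Real.sqrt_pos.2 hKpos), div_le_one (Real.sqrt_pos.2 hKpos)]
      refine Real.le_sqrt_of_sq_le ?_
      rw [sq_abs]
      have h' : v y i.1 ^ 2 ≤ ∑ y, ∑ k, v y k ^ 2 :=
        (Finset.single_le_sum (f := fun k => v y k ^ 2) (fun _ _ => sq_nonneg _)
          (Finset.mem_univ i.1)).trans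
          (Finset.single_le_sum (f := fun y => ∑ k, v y k ^ 2)
            (fun _ _ => Finset.sum_nonneg fun _ _ => sq_nonneg _) (Finset.mem_univ y))
      linarith
  exact ⟨w, hw, fun y y' => hsum y y' ▸ h1 y y', fun y z => hsum y z ▸ h2 y z⟩

end Vale.Agent.P249.Full.Tilted

namespace Vale.Agent.P249.Full

theorem tilted : TiltedStmt := Tilted.tilted

end Vale.Agent.P249.Full
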