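import Mathlib
import Vale.Agent.P249.Full.Tilted
import Vale.Agent.P249.Chernoff

/-! Weights separating far points for `1 < p < 2`: tilted weights of a heavy-tailed random map. -/

namespace Vale.Agent.P249.Full.SepSmall

open Finset

/-- A geometric sum over a finite set of integers below a threshold. -/
lemma geom_lt {b : ℝ} (hb : 1 < b) (S : Finset ℤ) :
    ∀ M : ℤ, (∀ j ∈ S, j < M) → ∑ j ∈ S, b ^ j ≤ b ^ M / (b - 1) := by
  classical
  induction S using Finset.induction_on_max with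
  | empty =>
    intro M _
    rw [Finset.sum_empty]
    exact div_nonneg (zpow_nonneg (by linarith) _) (by linarith)
  | insert a s has ih =>
    intro M hM
    rw [Finset.sum_insert (fun h => lt_irrefl a (has a h))]
    have h1 := ih a has
    have h2 : b ^ (a + 1) ≤ b ^ M :=
      zpow_le_zpow_right₀ hb.le (hM a (Finset.mem_insert_self _ _))
    rw [zpow_add_one₀ (by linarith)] at h2
    rw [le_div_iff₀ (by linarith)] at h1 ⊢
    linarith

lemma geom_le {b B : ℝ} (hb : 1 < b) (hB : 0 ≤ B) (S : Finset ℤ) (h : ∀ j ∈ S, b ^ j ≤ B) :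
    ∑ j ∈ S, b ^ j ≤ b / (b - 1) * B := by
  have hc : 0 ≤ b / (b - 1) := div_nonneg (by linarith) (by linarith)
  rcases S.eq_empty_or_nonempty with rfl | hne
  · simpa using mul_nonneg hc hB
  refine (geom_lt hb S (S.max' hne + 1) fun j hj => by linarith [S.le_max' j hj]).trans ?_
  rw [zpow_add_one₀ (by linarith), mul_comm, mul_div_right_comm]
  exact mul_le_mul_of_nonneg_left (h _ (S.max'_mem hne)) hc

lemma zpow_rpow (j : ℤ) (q : ℝ) : ((2:ℝ) ^ j) ^ q = ((2:ℝ) ^ q) ^ j := by
  rw [← Real.rpow_intCast 2 j, ← Real.rpow_intCast _ j, ← Real.rpow_mul (by norm_num),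
    ← Real.rpow_mul (by norm_num), mul_comm]

lemma small_sum {p : ℝ} (hp : p < 2) (S : Finset ℤ) (d : ℝ) {t : ℝ} (ht : 0 ≤ t) :
    ∑ j ∈ S, ((2:ℝ) ^ j) ^ (-p) * (if |(2:ℝ) ^ j * d| ≤ t then ((2:ℝ) ^ j * d) ^ 2 else 0)
      ≤ (2:ℝ) ^ (2 - p) / ((2:ℝ) ^ (2 - p) - 1) * (t ^ (2 - p) * |d| ^ p) := by
  have hb : (1:ℝ) < (2:ℝ) ^ (2 - p) := Real.one_lt_rpow (by norm_num) (by linarith)
  rcases eq_or_ne d 0 with rfl | hd
  · simp only [mul_zero, ne_eq, OfNat.ofNat_ne_zero, not_false_eq_true, zero_pow, ite_self,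
      Finset.sum_const_zero]
    exact mul_nonneg (div_nonneg (by linarith) (by linarith)) (by positivity)
  have hd' : 0 < |d| := abs_pos.2 hd
  have hterm : ∀ j : ℤ, ((2:ℝ) ^ j) ^ (-p) * ((2:ℝ) ^ j * d) ^ 2
      = ((2:ℝ) ^ (2 - p)) ^ j * d ^ 2 := fun j => by
    rw [← zpow_rpow, mul_pow, show (2 - p) = -p + (2:ℕ) by push_cast; ring,
      Real.rpow_add (by positivity), Real.rpow_natCast]
    ring
  simp only [mul_ite, mul_zero, ← Finset.sum_filter, hterm, ← Finset.sum_mul]
  have h := geom_le hb (B := (t / |d|) ^ (2 - p)) (Real.rpow_nonneg (by positivity) _)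
    (S.filter fun j => |(2:ℝ) ^ j * d| ≤ t) fun j hj => by
      rw [← zpow_rpow]
      refine Real.rpow_le_rpow (by positivity) ?_ (by linarith)
      rw [le_div_iff₀ hd']
      have h1 := (Finset.mem_filter.1 hj).2
      rwa [abs_mul, abs_of_pos (zpow_pos (by norm_num : (0:ℝ) < 2) j)] at h1
  refine (mul_le_mul_of_nonneg_right h (sq_nonneg d)).trans (le_of_eq ?_)
  have e : d ^ 2 = |d| ^ (2 - p) * |d| ^ p := by
    rw [← Real.rpow_add hd', show 2 - p + p = ((2:ℕ):ℝ) by push_cast; ring, Real.rpow_natCast,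
      sq_abs]
  rw [e, Real.div_rpow ht hd'.le]
  field_simp

lemma big_sum {p : ℝ} (hp : 1 < p) (S : Finset ℤ) (d : ℝ) {t : ℝ} (ht : 0 ≤ t)
    (hdt : |d| ≤ t) :
    ∑ j ∈ S, ((2:ℝ) ^ j) ^ (-p) * (if t < |(2:ℝ) ^ j * d| then |(2:ℝ) ^ j * d| else 0)
      ≤ (2:ℝ) ^ (p - 1) / ((2:ℝ) ^ (p - 1) - 1) * (t ^ (1 - p) * |d| ^ p) := by
  classical
  have hb : (1:ℝ) < (2:ℝ) ^ (p - 1) := Real.one_lt_rpow (by norm_num) (by linarith)
  rcases eq_or_ne d 0 with rfl | hd
  · simp only [mul_zero, abs_zero, ite_self, Finset.sum_const_zero]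
    exact mul_nonneg (div_nonneg (by linarith) (by linarith)) (by positivity)
  have hd' : 0 < |d| := abs_pos.2 hd
  have hterm : ∀ j : ℤ, ((2:ℝ) ^ j) ^ (-p) * |(2:ℝ) ^ j * d|
      = ((2:ℝ) ^ (p - 1)) ^ (-j) * |d| := fun j => by
    have h0 : (0:ℝ) < (2:ℝ) ^ j := by positivity
    rw [zpow_neg, ← zpow_rpow, ← Real.rpow_neg h0.le, abs_mul, abs_of_pos h0, ← mul_assoc,
      ← Real.rpow_add_one h0.ne', show -(p - 1) = -p + 1 by ring]
  simp only [mul_ite, mul_zero, ← Finset.sum_filter, hterm, ← Finset.sum_mul]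
  have h := geom_le hb (B := (t / |d|) ^ (1 - p)) (Real.rpow_nonneg (by positivity) _)
    ((S.filter fun j => t < |(2:ℝ) ^ j * d|).image Neg.neg) fun i hi => by
      obtain ⟨j, hj, rfl⟩ := Finset.mem_image.1 hi
      have h0 : (0:ℝ) < (2:ℝ) ^ j := by positivity
      have h1 := (Finset.mem_filter.1 hj).2
      rw [abs_mul, abs_of_pos h0] at h1
      rw [zpow_neg, ← zpow_rpow, ← Real.rpow_neg h0.le, neg_sub]
      exact Real.rpow_le_rpow_of_nonpos (div_pos (hd'.trans_le hdt) hd')
        ((div_le_iff₀ hd').2 h1.le) (by linarith)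
  rw [Finset.sum_image fun a _ b _ hab => neg_injective hab] at h
  refine (mul_le_mul_of_nonneg_right h hd'.le).trans (le_of_eq ?_)
  have e : |d| = |d| ^ (1 - p) * |d| ^ p := by
    rw [← Real.rpow_add hd', show 1 - p + p = (1:ℝ) by ring, Real.rpow_one]
  conv_lhs => rw [Real.div_rpow ht hd'.le]; arg 2; rw [e]
  field_simp

section Expect

variable {Ω : Type*} [Fintype Ω] {D : ℕ}

lemma sum_prodW_coord {w : Ω → ℝ} (hw : ∑ a, w a = 1) (i : Fin D) (g : Ω → ℝ) :
    ∑ om : Fin D → Ω, prodW w om * g (om i) = ∑ a, w a * g a := by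
  classical
  have h : ∀ om : Fin D → Ω, prodW w om * g (om i)
      = ∏ l, w (om l) * (if l = i then g (om l) else 1) := by
    intro om
    rw [Finset.prod_mul_distrib, Finset.prod_ite_eq' univ i, if_pos (Finset.mem_univ i), prodW]
  rw [Finset.sum_congr rfl fun om _ => h om,
    ← Fintype.prod_sum (fun l a => w a * (if l = i then g a else 1)),
    Fintype.prod_eq_single i fun l hl => by simp [hl, hw]]
  simp

lemma sum_prodW_sum {w : Ω → ℝ} (hw : ∑ a, w a = 1) (g : Fin D → Ω → ℝ) :
    ∑ om : Fin D → Ω, prodW w om * ∑ i, g i (om i) = ∑ i, ∑ a, w a * g i a := by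
  simp only [Finset.mul_sum]
  rw [Finset.sum_comm]
  exact Finset.sum_congr rfl fun i _ => sum_prodW_coord hw i (g i)

lemma sum_prodW_sqrt_le {w : Ω → ℝ} (hw0 : ∀ a, 0 ≤ w a) (hw : ∑ a, w a = 1)
    (F : (Fin D → Ω) → ℝ) (hF : ∀ om, 0 ≤ F om) :
    ∑ om, prodW w om * Real.sqrt (F om) ≤ Real.sqrt (∑ om, prodW w om * F om) := by
  have h : ∀ om, prodW w om * Real.sqrt (F om)
      = Real.sqrt (prodW w om) * Real.sqrt (prodW w om * F om) := fun om => by
    rw [Real.sqrt_mul (prodW_nonneg hw0 om), ← mul_assoc,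
      Real.mul_self_sqrt (prodW_nonneg hw0 om)]
  simp only [h]
  refine (Real.sum_sqrt_mul_sqrt_le univ (fun om => prodW_nonneg hw0 om)
    fun om => mul_nonneg (prodW_nonneg hw0 om) (hF om)).trans (le_of_eq ?_)
  rw [sum_prodW hw, Real.sqrt_one, one_mul]

end Expect

lemma sum_coord {K N : ℕ} (g : Fin N → ℝ) :
    ∑ i : Fin (K * N), g (finProdFinEquiv.symm i).2 = K * ∑ k, g k := by
  rw [Equiv.sum_comp finProdFinEquiv.symm (fun x : Fin K × Fin N => g x.2), Fintype.sum_prod_type]
  simp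

/-- The law of one scale. -/
noncomputable def scaleW (p : ℝ) (S : Finset ℤ) (K : ℕ) : Option S → ℝ
  | none => 1 - (∑ j ∈ S, ((2:ℝ) ^ j) ^ (-p)) / K
  | some j => ((2:ℝ) ^ (j:ℤ)) ^ (-p) / K

/-- One scale. -/
noncomputable def scale (S : Finset ℤ) : Option S → ℝ
  | none => 0
  | some j => (2:ℝ) ^ (j:ℤ)

lemma sum_scaleW (p : ℝ) (S : Finset ℤ) (K : ℕ) (g : ℝ → ℝ) :
    ∑ a, scaleW p S K a * g (scale S a) = (1 - (∑ j ∈ S, ((2:ℝ) ^ j) ^ (-p)) / K) * g 0
      + (∑ j ∈ S, ((2:ℝ) ^ j) ^ (-p) * g ((2:ℝ) ^ j)) / K := by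
  rw [Fintype.sum_option]
  simp only [scaleW, scale]
  congr 1
  rw [Finset.sum_coe_sort S (fun j : ℤ => ((2:ℝ) ^ j) ^ (-p) / K * g ((2:ℝ) ^ j)), Finset.sum_div]
  exact Finset.sum_congr rfl fun j _ => by ring

variable {p : ℝ} {K N : ℕ} {S : Finset ℤ}

lemma scaleW_nonneg (hK : ∑ j ∈ S, ((2:ℝ) ^ j) ^ (-p) ≤ K) : ∀ a, 0 ≤ scaleW p S K a := by
  intro a
  cases a with
  | none => exact sub_nonneg.2 (div_le_one_of_le₀ hK (Nat.cast_nonneg K))
  | some j => exact div_nonneg (Real.rpow_nonneg (by positivity) _) (Nat.cast_nonneg K)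

lemma sum_scaleW_eq_one (p : ℝ) (S : Finset ℤ) (K : ℕ) : ∑ a, scaleW p S K a = 1 := by
  have := sum_scaleW p S K (fun _ => 1)
  simp only [mul_one] at this
  linarith

lemma stretch_mean (hp : 1 < p) (hp2 : p < 2) (hK0 : 0 < K)
    (hK : ∑ j ∈ S, ((2:ℝ) ^ j) ^ (-p) ≤ K) (d : Fin N → ℝ) :
    ∑ om : Fin (K * N) → Option S, prodW (scaleW p S K) om *
        Real.sqrt (∑ i, (scale S (om i) * d (finProdFinEquiv.symm i).2) ^ 2)
      ≤ (Real.sqrt ((2:ℝ) ^ (2 - p) / ((2:ℝ) ^ (2 - p) - 1))
          + (2:ℝ) ^ (p - 1) / ((2:ℝ) ^ (p - 1) - 1)) * lpN p d := by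
  set c2 := (2:ℝ) ^ (2 - p) / ((2:ℝ) ^ (2 - p) - 1) with hc2
  set c1 := (2:ℝ) ^ (p - 1) / ((2:ℝ) ^ (p - 1) - 1) with hc1
  have hw0 := scaleW_nonneg hK
  have hw1 := sum_scaleW_eq_one p S K
  have hKR : (0:ℝ) < K := by exact_mod_cast hK0
  set t := lpN p d with ht
  have ht0 : 0 ≤ t := lpN_nonneg p d
  have htp : t ^ p = ∑ k, |d k| ^ p := lpN_rpow (by linarith) d
  have hdt : ∀ k, |d k| ≤ t := fun k =>
    (Real.rpow_le_rpow_iff (abs_nonneg _) ht0 (by linarith : 0 < p)).1 (htp.symm ▸
      Finset.single_le_sum (f := fun k => |d k| ^ p)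
        (fun _ _ => Real.rpow_nonneg (abs_nonneg _) _) (Finset.mem_univ k))
  set sm : Fin (K * N) → Option S → ℝ := fun i a =>
    if |scale S a * d (finProdFinEquiv.symm i).2| ≤ t
      then (scale S a * d (finProdFinEquiv.symm i).2) ^ 2 else 0 with hsm
  set bg : Fin (K * N) → Option S → ℝ := fun i a =>
    if t < |scale S a * d (finProdFinEquiv.symm i).2|
      then |scale S a * d (finProdFinEquiv.symm i).2| else 0 with hbg
  have hsm0 : ∀ i a, 0 ≤ sm i a := fun i a => by simp only [hsm]; split_ifs <;> positivity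
  have hbg0 : ∀ i a, 0 ≤ bg i a := fun i a => by simp only [hbg]; split_ifs <;> positivity
  have hsplit : ∀ om : Fin (K * N) → Option S,
      Real.sqrt (∑ i, (scale S (om i) * d (finProdFinEquiv.symm i).2) ^ 2)
        ≤ Real.sqrt (∑ i, sm i (om i)) + ∑ i, bg i (om i) := by
    intro om
    have hA : 0 ≤ ∑ i, sm i (om i) := Finset.sum_nonneg fun i _ => hsm0 _ _
    have hB : 0 ≤ ∑ i, bg i (om i) := Finset.sum_nonneg fun i _ => hbg0 _ _
    have e : ∀ i, (scale S (om i) * d (finProdFinEquiv.symm i).2) ^ 2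
        = sm i (om i) + bg i (om i) ^ 2 := by
      intro i
      simp only [hsm, hbg]
      split_ifs <;> first | linarith | simp only [sq_abs, zero_add]
    simp only [e, Finset.sum_add_distrib]
    rw [Real.sqrt_le_left (add_nonneg (Real.sqrt_nonneg _) hB), add_sq, Real.sq_sqrt hA]
    have := Finset.sum_sq_le_sq_sum_of_nonneg (s := univ) fun i _ => hbg0 i (om i)
    nlinarith [Real.sqrt_nonneg (∑ i, sm i (om i))]
  refine (Finset.sum_le_sum fun om _ =>
    mul_le_mul_of_nonneg_left (hsplit om) (prodW_nonneg hw0 om)).trans ?_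
  simp only [mul_add, Finset.sum_add_distrib, add_mul]
  refine add_le_add ((sum_prodW_sqrt_le hw0 hw1 _ fun om =>
    Finset.sum_nonneg fun i _ => hsm0 _ _).trans ?_) ?_
  · have hc20 : 0 ≤ c2 := div_nonneg (Real.rpow_nonneg (by norm_num) _)
      (sub_nonneg.2 (Real.one_le_rpow (by norm_num) (by linarith)))
    rw [sum_prodW_sum hw1, ← Real.sqrt_sq ht0, ← Real.sqrt_mul hc20]
    refine Real.sqrt_le_sqrt ?_
    rw [sum_coord (fun k => ∑ a, scaleW p S K a *
      (if |scale S a * d k| ≤ t then (scale S a * d k) ^ 2 else 0)), Finset.mul_sum]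
    calc ∑ k, (K:ℝ) * ∑ a, scaleW p S K a *
          (if |scale S a * d k| ≤ t then (scale S a * d k) ^ 2 else 0)
        ≤ ∑ k, c2 * (t ^ (2 - p) * |d k| ^ p) := by
          refine Finset.sum_le_sum fun k _ => ?_
          rw [sum_scaleW p S K (fun s => if |s * d k| ≤ t then (s * d k) ^ 2 else 0)]
          simp only [zero_mul, abs_zero, ht0, if_true, ne_eq, OfNat.ofNat_ne_zero,
            not_false_eq_true, zero_pow, mul_zero, zero_add]
          rw [mul_div_cancel₀ _ hKR.ne']
          exact small_sum hp2 S (d k) ht0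
      _ = c2 * t ^ 2 := by
          rw [← Finset.mul_sum, ← Finset.mul_sum, ← htp, ← Real.rpow_add' ht0 (by norm_num)]
          norm_num
  · rw [sum_prodW_sum hw1, sum_coord (fun k => ∑ a, scaleW p S K a *
      (if t < |scale S a * d k| then |scale S a * d k| else 0)), Finset.mul_sum]
    calc ∑ k, (K:ℝ) * ∑ a, scaleW p S K a *
          (if t < |scale S a * d k| then |scale S a * d k| else 0)
        ≤ ∑ k, c1 * (t ^ (1 - p) * |d k| ^ p) := by
          refine Finset.sum_le_sum fun k _ => ?_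
          rw [sum_scaleW p S K (fun s => if t < |s * d k| then |s * d k| else 0)]
          simp only [zero_mul, abs_zero, ite_self, mul_zero, zero_add]
          rw [mul_div_cancel₀ _ hKR.ne']
          exact big_sum hp S (d k) ht0 (hdt k)
      _ = c1 * t := by
          rw [← Finset.mul_sum, ← Finset.mul_sum, ← htp, ← Real.rpow_add' ht0 (by norm_num)]
          norm_num

lemma laplace (hp : 1 < p) (hK0 : 0 < K) (hK : ∑ j ∈ S, ((2:ℝ) ^ j) ^ (-p) ≤ K)
    (d : Fin N → ℝ) {b : ℝ} (hb : 0 < b)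
    (hS : ∀ k, d k ≠ 0 → ∃ j ∈ S, 1 ≤ b * (2:ℝ) ^ j * |d k| ∧ b * (2:ℝ) ^ j * |d k| ≤ 2) :
    ∑ om : Fin (K * N) → Option S, prodW (scaleW p S K) om *
        Real.exp (-(b ^ 2 * ∑ i, (scale S (om i) * d (finProdFinEquiv.symm i).2) ^ 2))
      ≤ Real.exp (-((1 - Real.exp (-1)) / 2 ^ p * (b * lpN p d) ^ p)) := by
  have hw0 := scaleW_nonneg hK
  have hw1 := sum_scaleW_eq_one p S K
  have hKR : (0:ℝ) < K := by exact_mod_cast hK0
  set g : Fin N → ℝ := fun k => (1 - Real.exp (-1)) / 2 ^ p * (b * |d k|) ^ p with hg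
  have h : ∀ om : Fin (K * N) → Option S, prodW (scaleW p S K) om *
        Real.exp (-(b ^ 2 * ∑ i, (scale S (om i) * d (finProdFinEquiv.symm i).2) ^ 2))
      = ∏ i, scaleW p S K (om i) *
          Real.exp (-((b * (scale S (om i) * d (finProdFinEquiv.symm i).2)) ^ 2)) := by
    intro om
    rw [Finset.prod_mul_distrib, ← Real.exp_sum, prodW, Finset.mul_sum, ← Finset.sum_neg_distrib]
    simp only [mul_pow]
  rw [Finset.sum_congr rfl fun om _ => h om, ← Fintype.prod_sum (fun (i : Fin (K * N)) a =>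
    scaleW p S K a * Real.exp (-((b * (scale S a * d (finProdFinEquiv.symm i).2)) ^ 2)))]
  calc ∏ i : Fin (K * N), ∑ a, scaleW p S K a *
        Real.exp (-((b * (scale S a * d (finProdFinEquiv.symm i).2)) ^ 2))
      ≤ ∏ i : Fin (K * N), Real.exp (-(g (finProdFinEquiv.symm i).2 / K)) := by
        refine Finset.prod_le_prod (fun i _ => Finset.sum_nonneg fun a _ =>
          mul_nonneg (hw0 a) (Real.exp_pos _).le) fun i _ => ?_
        generalize (finProdFinEquiv.symm i).2 = k
        rcases eq_or_ne (d k) 0 with hd | hd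
        · simp [hd, hw1, hg, Real.zero_rpow (by linarith : p ≠ 0)]
        obtain ⟨j, hj, h1, h2⟩ := hS k hd
        have hd' : 0 < |d k| := abs_pos.2 hd
        have h0 : (0:ℝ) < (2:ℝ) ^ j := by positivity
        refine le_trans ?_ (Real.add_one_le_exp _)
        have hpow : (b * |d k|) ^ p / 2 ^ p ≤ ((2:ℝ) ^ j) ^ (-p) := by
          rw [Real.rpow_neg h0.le, ← Real.inv_rpow h0.le, ← Real.div_rpow (by positivity)
            (by norm_num)]
          refine Real.rpow_le_rpow (by positivity) ?_ (by linarith)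
          rw [inv_eq_one_div, div_le_div_iff₀ (by norm_num) h0]
          linarith
        have hex : Real.exp (-((b * ((2:ℝ) ^ j * d k)) ^ 2)) ≤ Real.exp (-1) := by
          refine Real.exp_le_exp.2 (neg_le_neg ?_)
          rw [← sq_abs, abs_mul, abs_mul, abs_of_pos hb, abs_of_pos h0, ← mul_assoc]
          exact one_le_pow₀ h1
        have hsum : ∑ a, scaleW p S K a * Real.exp (-((b * (scale S a * d k)) ^ 2))
            = 1 - (∑ a, scaleW p S K a * (1 - Real.exp (-((b * (scale S a * d k)) ^ 2)))) := by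
          simp only [mul_sub, mul_one, Finset.sum_sub_distrib, hw1]; ring
        rw [hsum]
        have hone : scaleW p S K (some ⟨j, hj⟩) * (1 - Real.exp (-1))
            ≤ ∑ a, scaleW p S K a * (1 - Real.exp (-((b * (scale S a * d k)) ^ 2))) := by
          refine le_trans ?_ (Finset.single_le_sum (fun a _ => mul_nonneg (hw0 a)
            (sub_nonneg.2 (Real.exp_le_one_iff.2 (neg_nonpos.2 (sq_nonneg _)))))
            (Finset.mem_univ (some ⟨j, hj⟩)))
          exact mul_le_mul_of_nonneg_left (by simp only [scale]; linarith) (hw0 _)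
        have he : 0 ≤ 1 - Real.exp (-1) := sub_nonneg.2 (Real.exp_le_one_iff.2 (by norm_num))
        have : g k / K ≤ scaleW p S K (some ⟨j, hj⟩) * (1 - Real.exp (-1)) := by
          simp only [hg, scaleW]
          calc (1 - Real.exp (-1)) / 2 ^ p * (b * |d k|) ^ p / K
              = (1 - Real.exp (-1)) * ((b * |d k|) ^ p / 2 ^ p) / K := by ring
            _ ≤ (1 - Real.exp (-1)) * ((2:ℝ) ^ j) ^ (-p) / K :=
                div_le_div_of_nonneg_right (mul_le_mul_of_nonneg_left hpow he) hKR.le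
            _ = _ := by ring
        linarith
    _ = _ := by
        rw [← Real.exp_sum, Finset.sum_neg_distrib, ← Finset.sum_div, sum_coord g,
          mul_div_cancel_left₀ _ hKR.ne', Real.mul_rpow hb.le (lpN_nonneg p d),
          lpN_rpow (by linarith) d, Finset.mul_sum, Finset.mul_sum]
        simp only [hg, Real.mul_rpow hb.le (abs_nonneg _)]

theorem sep_small (hp : 1 < p) (hp2 : p < 2) : SepStmt p := by
  classical
  obtain ⟨c, hc, htilt⟩ := Tilted.tilted
  have hp0 : 0 < p := by linarith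
  set c1 : ℝ := (1 - Real.exp (-1)) / 2 ^ p with hc1
  have hc1pos : 0 < c1 := div_pos (sub_pos.2 (Real.exp_lt_one_iff.2 (by norm_num))) (by positivity)
  set Cs : ℝ := Real.sqrt ((2:ℝ) ^ (2 - p) / ((2:ℝ) ^ (2 - p) - 1))
          + (2:ℝ) ^ (p - 1) / ((2:ℝ) ^ (p - 1) - 1) with hCs
  have hCs0 : 0 < Cs := by
    have h1 : (1:ℝ) < (2:ℝ) ^ (p - 1) := Real.one_lt_rpow (by norm_num) (by linarith)
    exact add_pos_of_nonneg_of_pos (Real.sqrt_nonneg _) (div_pos (by linarith) (by linarith))
  refine ⟨1 / p, (3 / c1) ^ (1 / p) / (2 * Real.sqrt c) * Cs,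
    one_div_le_one_div_of_le hp0 hp2.le, (div_lt_one hp0).2 hp, by positivity,
    fun n hn N X _ r hr => ?_⟩
  set L := logL n with hL
  have hL1 : 1 ≤ L := one_le_logL n
  set b : ℝ := (3 * L / c1) ^ (1 / p) / (2 * r) with hb
  have hb0 : 0 < b := by positivity
  -- scales
  choose jf hjf using fun x : Fin n × Fin n × Fin N =>
    exists_mem_Ico_zpow (x := if X x.1 x.2.2 = X x.2.1 x.2.2 then 1
      else 2 / (b * |X x.1 x.2.2 - X x.2.1 x.2.2|)) (y := (2:ℝ))
      (by split_ifs with h
          · exact one_pos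
          · exact div_pos two_pos (mul_pos hb0 (abs_pos.2 (sub_ne_zero.2 h)))) (by norm_num)
  set S := univ.image jf with hS
  set K := ⌈∑ j ∈ S, ((2:ℝ) ^ j) ^ (-p)⌉₊ + 1 with hKdef
  have hK0 : 0 < K := Nat.succ_pos _
  have hK : ∑ j ∈ S, ((2:ℝ) ^ j) ^ (-p) ≤ K := by
    rw [hKdef]; push_cast; linarith [Nat.le_ceil (∑ j ∈ S, ((2:ℝ) ^ j) ^ (-p))]
  have hw0 := scaleW_nonneg hK
  have hw1 := sum_scaleW_eq_one p S K
  set lam : ℝ := b / Real.sqrt c with hlam
  have hsc : 0 < Real.sqrt c := Real.sqrt_pos.2 hc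
  have hlam0 : 0 < lam := div_pos hb0 hsc
  choose W hW hWtv hWle using fun om : Fin (K * N) → Option S =>
    htilt n (K * N) (by omega) fun y i =>
      lam * (scale S (om i) * X y (finProdFinEquiv.symm i).2)
  have hF : ∀ (om : Fin (K * N) → Option S) (y y' : Fin n), ∑ i,
      (lam * (scale S (om i) * X y (finProdFinEquiv.symm i).2)
        - lam * (scale S (om i) * X y' (finProdFinEquiv.symm i).2)) ^ 2
      = lam ^ 2 * ∑ i, (scale S (om i) *
          (X y (finProdFinEquiv.symm i).2 - X y' (finProdFinEquiv.symm i).2)) ^ 2 := fun om y y' => by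
    rw [Finset.mul_sum]; exact Finset.sum_congr rfl fun i _ => by ring
  refine ⟨fun y z => ∑ om, prodW (scaleW p S K) om * W om y z, fun y => ⟨fun z =>
    Finset.sum_nonneg fun om _ => mul_nonneg (prodW_nonneg hw0 om) ((hW om y).nonneg z), ?_⟩,
    fun y y' => ?_, fun y => ?_⟩
  · rw [Finset.sum_comm]
    simp only [← Finset.mul_sum, (hW _ y).sum_one, mul_one]
    exact sum_prodW hw1
  · calc ∑ z, |∑ om, prodW (scaleW p S K) om * W om y z
          - ∑ om, prodW (scaleW p S K) om * W om y' z|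
        ≤ ∑ z, ∑ om, prodW (scaleW p S K) om * |W om y z - W om y' z| :=
          Finset.sum_le_sum fun z _ => by
            rw [← Finset.sum_sub_distrib]
            refine (Finset.abs_sum_le_sum_abs _ _).trans (le_of_eq ?_)
            exact Finset.sum_congr rfl fun om _ => by
              rw [← mul_sub, abs_mul, abs_of_nonneg (prodW_nonneg hw0 om)]
      _ = ∑ om, prodW (scaleW p S K) om * tv (W om y) (W om y') := by
          rw [Finset.sum_comm]; simp only [tv, Finset.mul_sum]
      _ ≤ ∑ om, lam * (prodW (scaleW p S K) om * Real.sqrt (∑ i, (scale S (om i) *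
            (X y (finProdFinEquiv.symm i).2 - X y' (finProdFinEquiv.symm i).2)) ^ 2)) := by
          refine Finset.sum_le_sum fun om _ => ?_
          refine (mul_le_mul_of_nonneg_left (hWtv om y y') (prodW_nonneg hw0 om)).trans
            (le_of_eq ?_)
          rw [hF, Real.sqrt_mul (sq_nonneg lam), Real.sqrt_sq hlam0.le]; ring
      _ ≤ lam * (Cs * lpD p X y y') := by
          rw [← Finset.mul_sum]
          exact mul_le_mul_of_nonneg_left
            (stretch_mean hp hp2 hK0 hK (fun k => X y k - X y' k)) hlam0.le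
      _ = _ := by
          rw [hlam, hb, show 3 * L / c1 = 3 / c1 * L by ring,
            Real.mul_rpow (by positivity) (by linarith)]
          field_simp
  · have hfar : ∀ z, 2 * r < lpD p X y z →
        ∑ om, prodW (scaleW p S K) om * W om y z ≤ Real.exp (-(3 * L)) := by
      intro z hz
      calc ∑ om, prodW (scaleW p S K) om * W om y z
          ≤ ∑ om, prodW (scaleW p S K) om * Real.exp (-(b ^ 2 * ∑ i, (scale S (om i) *
              (X y (finProdFinEquiv.symm i).2 - X z (finProdFinEquiv.symm i).2)) ^ 2)) := by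
            refine Finset.sum_le_sum fun om _ => ?_
            refine (mul_le_mul_of_nonneg_left (hWle om y z) (prodW_nonneg hw0 om)).trans
              (le_of_eq ?_)
            rw [hF, ← mul_assoc, hlam, div_pow, Real.sq_sqrt hc.le, mul_div_cancel₀ _ hc.ne']
        _ ≤ Real.exp (-(c1 * (b * lpN p (fun k => X y k - X z k)) ^ p)) :=
            laplace hp hK0 hK (fun k => X y k - X z k) hb0 fun k hk => by
              have h := hjf (y, z, k)
              simp only [sub_ne_zero.1 hk, if_false, Set.mem_Ico] at h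
              have hd' : 0 < |X y k - X z k| := abs_pos.2 hk
              refine ⟨jf (y, z, k), Finset.mem_image_of_mem jf (Finset.mem_univ _), ?_, ?_⟩
              · have h2 := h.2
                rw [zpow_add_one₀ (by norm_num), div_lt_iff₀ (by positivity)] at h2
                linarith
              · have h1 := h.1
                rw [le_div_iff₀ (by positivity)] at h1
                linarith
        _ ≤ Real.exp (-(3 * L)) := by
            refine Real.exp_le_exp.2 (neg_le_neg ?_)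
            have hge : (3 * L / c1) ^ (1 / p) ≤ b * lpN p (fun k => X y k - X z k) := by
              rw [hb, div_mul_eq_mul_div, le_div_iff₀ (by positivity)]
              exact mul_le_mul_of_nonneg_left (le_of_lt hz) (by positivity)
            have := Real.rpow_le_rpow (by positivity) hge hp0.le
            rw [← Real.rpow_mul (by positivity), one_div_mul_cancel hp0.ne', Real.rpow_one,
              div_le_iff₀ hc1pos] at this
            linarith
    calc ∑ z ∈ univ.filter (fun z => 2 * r < lpD p X y z), ∑ om, prodW (scaleW p S K) om * W om y z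
        ≤ ∑ _z ∈ univ.filter (fun z => 2 * r < lpD p X y z), Real.exp (-(3 * L)) :=
          Finset.sum_le_sum fun z hz => hfar z (Finset.mem_filter.1 hz).2
      _ ≤ (n:ℝ) * Real.exp (-(3 * L)) := by
          rw [Finset.sum_const, nsmul_eq_mul]
          refine mul_le_mul_of_nonneg_right ?_ (Real.exp_pos _).le
          exact_mod_cast (Finset.card_filter_le _ _).trans (by simp)
      _ ≤ 1 / L := by
          have hn' : (n:ℝ) ≤ Real.exp L := by
            have hn0 : (0:ℝ) < n := by exact_mod_cast (by omega : 0 < n)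
            calc (n:ℝ) = Real.exp (Real.log n) := (Real.exp_log hn0).symm
              _ ≤ _ := Real.exp_le_exp.2 (by rw [hL, logL]; linarith)
          have hL' : L ≤ Real.exp L := by linarith [Real.add_one_le_exp L]
          rw [le_div_iff₀ (by linarith)]
          calc (n:ℝ) * Real.exp (-(3 * L)) * L
              ≤ Real.exp L * Real.exp (-(3 * L)) * Real.exp L := by gcongr
            _ = Real.exp (-L) := by rw [← Real.exp_add, ← Real.exp_add]; congr 1; ring
            _ ≤ 1 := Real.exp_le_one_iff.2 (by linarith)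

end Vale.Agent.P249.Full.SepSmall

namespace Vale.Agent.P249.Full

theorem sep_small {p : ℝ} (hp : 1 < p) (hp2 : p < 2) : SepStmt p := SepSmall.sep_small hp hp2

end Vale.Agent.P249.Full
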