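import Mathlib
import Vale.Agent.P249.Full.Spec
import Vale.Agent.P249.Full.Rows
import Vale.Agent.P249.Sample

/-! Sketching a family of bounded norm: clipped part by sampling, sparse part by hashing. -/

namespace Vale.Agent.P249.Full

open Finset

lemma clipF_add_dzone (θ a : ℝ) : clipF θ a + dzone θ a = a := by simp [dzone]

lemma clip_split_abs (θ a b : ℝ) :
    |clipF θ a - clipF θ b| + |dzone θ a - dzone θ b| = |a - b| := by
  have key : ∀ x y : ℝ, x ≤ y →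
      0 ≤ clipF θ y - clipF θ x ∧ 0 ≤ dzone θ y - dzone θ x := by
    intro x y hxy
    have h1 : clipF θ x ≤ clipF θ y := max_le_max le_rfl (min_le_min le_rfl hxy)
    have h2 : clipF θ y - clipF θ x ≤ y - x := by
      simp only [clipF, max_def, min_def]
      split_ifs <;> linarith
    simp only [dzone]
    constructor <;> linarith
  rcases le_total a b with h | h
  · obtain ⟨h1, h2⟩ := key a b h
    rw [abs_sub_comm, abs_sub_comm (dzone θ a), abs_sub_comm a, abs_of_nonneg h1, abs_of_nonneg h2,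
      abs_of_nonneg (by linarith : 0 ≤ b - a)]
    simp only [dzone]; ring
  · obtain ⟨h1, h2⟩ := key b a h
    rw [abs_of_nonneg h1, abs_of_nonneg h2, abs_of_nonneg (by linarith : 0 ≤ a - b)]
    simp only [dzone]; ring

/-- What is lost by cutting a difference at one threshold. -/
noncomputable def clipLoss (p θ a b : ℝ) : ℝ :=
  |a - b| ^ p - |clipF θ a - clipF θ b| ^ p - |dzone θ a - dzone θ b| ^ p

lemma clipLoss_nonneg {p : ℝ} (hp : 1 ≤ p) (θ a b : ℝ) : 0 ≤ clipLoss p θ a b := by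
  have h := Real.add_rpow_le_rpow_add (abs_nonneg (clipF θ a - clipF θ b))
    (abs_nonneg (dzone θ a - dzone θ b)) hp
  rw [clip_split_abs] at h
  unfold clipLoss; linarith

lemma clipLoss_le (p θ a b : ℝ) : clipLoss p θ a b ≤ |a - b| ^ p := by
  have h1 := Real.rpow_nonneg (abs_nonneg (clipF θ a - clipF θ b)) p
  have h2 := Real.rpow_nonneg (abs_nonneg (dzone θ a - dzone θ b)) p
  unfold clipLoss; linarith

lemma clipLoss_small {p : ℝ} (hp : 1 ≤ p) {θ a b δ : ℝ} (hθ : 0 ≤ θ) (hδ : 2 * δ ≤ 1)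
    (h : θ ≤ δ * |a - b|) : clipLoss p θ a b ≤ 2 * p * δ * |a - b| ^ p := by
  have hc : |clipF θ a - clipF θ b| ≤ 2 * θ := by
    linarith [abs_sub (clipF θ a) (clipF θ b), abs_clipF_le hθ a, abs_clipF_le hθ b]
  have hz : (1 - 2 * δ) * |a - b| ≤ |dzone θ a - dzone θ b| := by
    have := clip_split_abs θ a b
    nlinarith
  have hB : 1 + p * (-(2 * δ)) ≤ (1 + -(2 * δ)) ^ p :=
    one_add_mul_self_le_rpow_one_add (by linarith) hp
  have h1 : (1 - 2 * δ) ^ p * |a - b| ^ p ≤ |dzone θ a - dzone θ b| ^ p := by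
    rw [← Real.mul_rpow (by linarith) (abs_nonneg _)]
    exact Real.rpow_le_rpow (mul_nonneg (by linarith) (abs_nonneg _)) hz (by linarith)
  have h2 := mul_le_mul_of_nonneg_right hB (Real.rpow_nonneg (abs_nonneg (a - b)) p)
  have h3 := Real.rpow_nonneg (abs_nonneg (clipF θ a - clipF θ b)) p
  rw [← sub_eq_add_neg] at h2
  unfold clipLoss; linarith

lemma clipLoss_eq_zero {p : ℝ} (hp : 0 < p) {θ a b : ℝ} (ha : |a| ≤ θ) (hb : |b| ≤ θ) :
    clipLoss p θ a b = 0 := by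
  have h1 := dzone_eq_zero ha
  have h2 := dzone_eq_zero hb
  have hc : |clipF θ a - clipF θ b| = |a - b| := by
    have := clip_split_abs θ a b
    simpa [h1, h2] using this
  simp [clipLoss, h1, h2, hc, Real.zero_rpow hp.ne']

/-- Averaged over dyadic thresholds, cutting loses little. -/
lemma sum_clipLoss_le {p : ℝ} (hp : 1 ≤ p) {θ0 δ : ℝ} (hθ0 : 0 < θ0) (hδ0 : 0 < δ)
    (hδ : 2 * δ ≤ 1) {P : ℕ} (hP : 1 ≤ δ ^ 2 * 2 ^ P) (J : ℕ) (a b : ℝ) :
    ∑ j ∈ range J, clipLoss p (θ0 * 2 ^ j) a b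
      ≤ (2 * p * δ * J + P) * |a - b| ^ p + 2 * δ ^ p * (|a| ^ p + |b| ^ p) := by
  classical
  have hp0 : 0 < p := by linarith
  set D := |a - b| with hD
  set Mx := max |a| |b| with hMx
  have hD0 : 0 ≤ D ^ p := Real.rpow_nonneg (abs_nonneg _) p
  set Bm := (range J).filter fun j => δ * D < θ0 * 2 ^ j ∧ θ0 * 2 ^ j * δ < D with hBm
  set Cs := (range J).filter fun j => θ0 * 2 ^ j < Mx with hCs
  have hcard : Bm.card ≤ P := by
    refine card_interval_le fun j hj i hi => ?_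
    by_contra hlt
    push Not at hlt
    simp only [hBm, mem_filter] at hi hj
    have h2 : (2:ℝ) ^ i * 2 ^ P ≤ 2 ^ j := by
      rw [← pow_add]; exact pow_le_pow_right₀ (by norm_num) hlt
    have h3 : θ0 * 2 ^ i * 1 ≤ θ0 * 2 ^ i * (δ ^ 2 * 2 ^ P) :=
      mul_le_mul_of_nonneg_left hP (by positivity)
    have h4 : θ0 * ((2:ℝ) ^ i * 2 ^ P) * δ ^ 2 ≤ θ0 * 2 ^ j * δ ^ 2 := by gcongr
    have h5 := mul_lt_mul_of_pos_left hj.2.2 hδ0
    linarith [hi.2.1]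
  have hgeo : ∑ j ∈ Cs, (θ0 * 2 ^ j) ^ p ≤ 2 * (|a| ^ p + |b| ^ p) := by
    rcases le_or_gt Mx 0 with hM | hM
    · have : Cs = ∅ := Finset.filter_eq_empty_iff.2 fun j _ => not_lt.2 (hM.trans (by positivity))
      simp only [this, Finset.sum_empty]
      positivity
    have hterm : ∀ j ∈ Cs, (θ0 * 2 ^ j) ^ p ≤ θ0 * 2 ^ j * Mx ^ (p - 1) := by
      intro j hj
      simp only [hCs, mem_filter] at hj
      have h0 : 0 < θ0 * (2:ℝ) ^ j := by positivity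
      calc (θ0 * 2 ^ j) ^ p = θ0 * 2 ^ j * (θ0 * 2 ^ j) ^ (p - 1) := by
            rw [← Real.rpow_one_add' h0.le (by linarith)]; ring_nf
        _ ≤ _ := mul_le_mul_of_nonneg_left (Real.rpow_le_rpow h0.le hj.2.le (by linarith)) h0.le
    have hs : ∑ j ∈ Cs, (2:ℝ) ^ ((0:ℤ) + j) ≤ 2 * (Mx / θ0) :=
      sum_two_pow_le 0 _ (by positivity) fun j hj => by
        simp only [hCs, mem_filter] at hj
        rw [zero_add, zpow_natCast, le_div_iff₀ hθ0]
        linarith [hj.2]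
    simp only [zero_add, zpow_natCast] at hs
    calc ∑ j ∈ Cs, (θ0 * 2 ^ j) ^ p ≤ ∑ j ∈ Cs, θ0 * 2 ^ j * Mx ^ (p - 1) :=
          Finset.sum_le_sum hterm
      _ = (∑ j ∈ Cs, (2:ℝ) ^ j) * θ0 * Mx ^ (p - 1) := by
          rw [Finset.sum_mul, Finset.sum_mul]
          exact Finset.sum_congr rfl fun j _ => by ring
      _ ≤ 2 * (Mx / θ0) * θ0 * Mx ^ (p - 1) := by gcongr
      _ = 2 * Mx ^ p := by
          rw [mul_assoc (2:ℝ), div_mul_cancel₀ _ hθ0.ne', mul_assoc,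
            ← Real.rpow_one_add' hM.le (by linarith)]
          ring_nf
      _ ≤ _ := by
          refine mul_le_mul_of_nonneg_left ?_ (by norm_num)
          have h1 := Real.rpow_nonneg (abs_nonneg a) p
          have h2 := Real.rpow_nonneg (abs_nonneg b) p
          rcases max_choice |a| |b| with h | h <;> rw [hMx, h] <;> linarith
  calc ∑ j ∈ range J, clipLoss p (θ0 * 2 ^ j) a b
      ≤ ∑ j ∈ range J, (2 * p * δ * D ^ p + (if δ * D < θ0 * 2 ^ j ∧ θ0 * 2 ^ j * δ < D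
          then D ^ p else 0) + if θ0 * 2 ^ j < Mx then δ ^ p * (θ0 * 2 ^ j) ^ p else 0) := by
        refine Finset.sum_le_sum fun j _ => ?_
        have hθ : 0 < θ0 * (2:ℝ) ^ j := by positivity
        have hA : 0 ≤ 2 * p * δ * D ^ p := by positivity
        have hC : 0 ≤ δ ^ p * (θ0 * 2 ^ j) ^ p := by positivity
        have hle := clipLoss_le p (θ0 * 2 ^ j) a b
        rw [← hD] at hle
        rcases le_or_gt (θ0 * 2 ^ j) (δ * D) with h | h
        · have hs := clipLoss_small hp hθ.le hδ h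
          rw [← hD] at hs
          split_ifs <;> linarith
        by_cases hm : θ0 * 2 ^ j * δ < D
        · rw [if_pos ⟨h, hm⟩]
          split_ifs <;> linarith
        · rw [if_neg fun h' => hm h'.2]
          push Not at hm
          by_cases hx : θ0 * 2 ^ j < Mx
          · rw [if_pos hx]
            have : D ^ p ≤ (θ0 * 2 ^ j * δ) ^ p := Real.rpow_le_rpow (abs_nonneg _) hm hp0.le
            rw [Real.mul_rpow hθ.le hδ0.le] at this
            linarith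
          · rw [if_neg hx]
            push Not at hx
            rw [clipLoss_eq_zero hp0 ((le_max_left _ _).trans hx) ((le_max_right _ _).trans hx)]
            linarith
    _ = 2 * p * δ * J * D ^ p + Bm.card * D ^ p + δ ^ p * ∑ j ∈ Cs, (θ0 * 2 ^ j) ^ p := by
        rw [Finset.sum_add_distrib, Finset.sum_add_distrib, ← Finset.sum_filter,
          ← Finset.sum_filter, Finset.mul_sum]
        simp [hBm, hCs]
        ring
    _ ≤ 2 * p * δ * J * D ^ p + P * D ^ p + δ ^ p * (2 * (|a| ^ p + |b| ^ p)) := by gcongr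
    _ = _ := by ring

/-- The same for vectors. -/
lemma sum_cut_le {p : ℝ} (hp : 1 ≤ p) {θ0 δ : ℝ} (hθ0 : 0 < θ0) (hδ0 : 0 < δ)
    (hδ : 2 * δ ≤ 1) {P : ℕ} (hP : 1 ≤ δ ^ 2 * 2 ^ P) (J : ℕ) {Q : ℕ} (a b : Fin Q → ℝ) :
    let S := ∑ j : Fin J, (powDist p (fun k => clipF (θ0 * 2 ^ (j:ℕ)) (a k))
        (fun k => clipF (θ0 * 2 ^ (j:ℕ)) (b k))
      + powDist p (fun k => dzone (θ0 * 2 ^ (j:ℕ)) (a k))
        (fun k => dzone (θ0 * 2 ^ (j:ℕ)) (b k)))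
    S ≤ J * powDist p a b ∧ J * powDist p a b - S
      ≤ (2 * p * δ * J + P) * powDist p a b + 2 * δ ^ p * (powDist p a 0 + powDist p b 0) := by
  intro S
  have hS : J * powDist p a b - S
      = ∑ k, ∑ j ∈ range J, clipLoss p (θ0 * 2 ^ j) (a k) (b k) := by
    have hJ : (J:ℝ) * powDist p a b = ∑ _j : Fin J, powDist p a b := by simp
    rw [hJ, Finset.sum_comm, ← Fin.sum_univ_eq_sum_range
      (fun j => ∑ k, clipLoss p (θ0 * 2 ^ j) (a k) (b k)), ← Finset.sum_sub_distrib]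
    refine Finset.sum_congr rfl fun j _ => ?_
    simp only [powDist, clipLoss, Finset.sum_sub_distrib]
    ring
  constructor
  · have : 0 ≤ J * powDist p a b - S := hS ▸ Finset.sum_nonneg fun k _ =>
      Finset.sum_nonneg fun j _ => clipLoss_nonneg hp _ _ _
    linarith
  · rw [hS]
    refine (Finset.sum_le_sum fun k _ => sum_clipLoss_le hp hθ0 hδ0 hδ hP J (a k) (b k)).trans
      (le_of_eq ?_)
    simp only [powDist, Pi.zero_apply, sub_zero, mul_add, Finset.sum_add_distrib, Finset.mul_sum]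

lemma powDist_comm' {ι : Type*} [Fintype ι] (p : ℝ) (u v : ι → ℝ) :
    powDist p u v = powDist p v u := by
  simp [powDist, abs_sub_comm]

lemma powDist_self' {ι : Type*} [Fintype ι] {p : ℝ} (hp : 0 < p) (u : ι → ℝ) :
    powDist p u u = 0 := by
  simp [powDist, Real.zero_rpow hp.ne']

/-- Extending a map by the zero vector. -/
lemma option_extend {n Q d : ℕ} {p ε : ℝ} (hp : 0 < p) (Y : Fin n → Fin Q → ℝ)
    (Φ : Fin n → Fin d → ℝ)
    (h1 : ∀ i j, |powDist p (Φ i) (Φ j) - powDist p (Y i) (Y j)| ≤ ε * powDist p (Y i) (Y j))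
    (h2 : ∀ i, |powDist p (Φ i) 0 - powDist p (Y i) 0| ≤ ε * powDist p (Y i) 0)
    (o o' : Option (Fin n)) :
    |powDist p (o.elim 0 Φ) (o'.elim 0 Φ) - powDist p (o.elim 0 Y) (o'.elim 0 Y)|
      ≤ ε * powDist p (o.elim 0 Y) (o'.elim 0 Y) := by
  rcases o with _ | i <;> rcases o' with _ | j
  · simp [powDist_self' hp]
  · simp only [Option.elim_none, Option.elim_some, powDist_comm' p (0 : Fin d → ℝ),
      powDist_comm' p (0 : Fin Q → ℝ)]
    exact h2 j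
  · exact h2 i
  · exact h1 i j

/-- The sketch at given parameters. -/
lemma sketch_core {p : ℝ} (hp : 1 ≤ p) {n Q J K M S P : ℕ} (hJ : 0 < J)
    {ε L θ0 δ Δ s : ℝ} (hε0 : 0 < ε) (hε1 : ε ≤ 1) (hθ0 : 0 < θ0) (hδ0 : 0 < δ)
    (hδ1 : 2 * p * δ ≤ ε / 8) (hP : 1 ≤ δ ^ 2 * 2 ^ P) (hPJ : (P:ℝ) ≤ ε / 8 * J)
    (hΔ : 0 ≤ Δ) (hδΔ : (δ * Δ) ^ p ≤ ε / 16) (hs : 0 < s)
    (hfail : 2 * ((n:ℝ) + 1) ^ 2 * Real.exp (-L) < 1)
    (hK : ∀ j, j < J → 4 * (Q * ((2 * (θ0 * 2 ^ j) / s) ^ p)) * L ≤ K * (ε / 4) ^ 2)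
    (hS : (Δ * s / θ0) ^ p ≤ S)
    (hash : ∀ Z : Fin n → Fin Q → ℝ, (∀ i, (univ.filter (fun k => Z i k ≠ 0)).card ≤ S) →
      ∃ Φ : Fin n → Fin M → ℝ, (∀ i, Z i = 0 → Φ i = 0) ∧
        (∀ i j, |powDist p (Φ i) (Φ j) - powDist p (Z i) (Z j)|
          ≤ ε / 4 * powDist p (Z i) (Z j)) ∧
        ∀ i, |powDist p (Φ i) 0 - powDist p (Z i) 0| ≤ ε / 4 * powDist p (Z i) 0)
    (Y : Fin n → Fin Q → ℝ) (hY : ∀ i, powDist p (Y i) 0 ≤ (Δ * s) ^ p) :
    ∃ Φ : Fin n → Fin (J * (K + M)) → ℝ, (∀ i, Y i = 0 → Φ i = 0) ∧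
      (∀ i j, |powDist p (Φ i) (Φ j) - powDist p (Y i) (Y j)|
        ≤ ε * (s ^ p + powDist p (Y i) (Y j))) ∧
      ∀ i, |powDist p (Φ i) 0 - powDist p (Y i) 0| ≤ ε * (s ^ p + powDist p (Y i) 0) := by
  classical
  have hp0 : 0 < p := by linarith
  set Y' : Option (Fin n) → Fin Q → ℝ := fun o => o.elim 0 Y with hY'
  have hθ : ∀ j : Fin J, 0 < θ0 * (2:ℝ) ^ (j:ℕ) := fun j => by positivity
  have hclip : ∀ j : Fin J, ∃ Ψ : Option (Fin n) → Fin K → ℝ,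
      (∀ o, (fun k => clipF (θ0 * 2 ^ (j:ℕ)) (Y' o k)) = 0 → Ψ o = 0) ∧
      ∀ o o', |powDist p (Ψ o) (Ψ o') - powDist p (fun k => clipF (θ0 * 2 ^ (j:ℕ)) (Y' o k))
          (fun k => clipF (θ0 * 2 ^ (j:ℕ)) (Y' o' k))|
        ≤ ε / 4 * (powDist p (fun k => clipF (θ0 * 2 ^ (j:ℕ)) (Y' o k))
          (fun k => clipF (θ0 * 2 ^ (j:ℕ)) (Y' o' k)) + s ^ p) := by
    intro j
    refine rows_core (L := L) hp0 (fun o k => clipF (θ0 * 2 ^ (j:ℕ)) (Y' o k)) (fun _ _ => s ^ p)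
      (fun _ => (2 * (θ0 * 2 ^ (j:ℕ)) / s) ^ p) (fun _ _ => by positivity)
      (fun _ => by have := hθ j; positivity) ?_ (by linarith) (by linarith) ?_ ?_
    · intro o o' k
      rw [← Real.mul_rpow (by have := hθ j; positivity) hs.le, div_mul_cancel₀ _ hs.ne']
      refine Real.rpow_le_rpow (abs_nonneg _) ?_ hp0.le
      linarith [abs_sub (clipF (θ0 * 2 ^ (j:ℕ)) (Y' o k)) (clipF (θ0 * 2 ^ (j:ℕ)) (Y' o' k)),
        abs_clipF_le (hθ j).le (Y' o k), abs_clipF_le (hθ j).le (Y' o' k)]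
    · simpa using hK j j.2
    · simpa [Fintype.card_option] using hfail
  have hsparse : ∀ j : Fin J, ∀ i,
      (univ.filter (fun k => dzone (θ0 * 2 ^ (j:ℕ)) (Y i k) ≠ 0)).card ≤ S := by
    intro j i
    set F := univ.filter (fun k => dzone (θ0 * 2 ^ (j:ℕ)) (Y i k) ≠ 0) with hF
    have h1 : (F.card : ℝ) * θ0 ^ p ≤ (Δ * s) ^ p := by
      calc (F.card : ℝ) * θ0 ^ p = ∑ _k ∈ F, θ0 ^ p := by simp
        _ ≤ ∑ k ∈ F, |Y i k - (0 : Fin Q → ℝ) k| ^ p := Finset.sum_le_sum fun k hk => by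
            refine Real.rpow_le_rpow hθ0.le ?_ hp0.le
            by_contra hc
            push Not at hc
            simp only [hF, mem_filter] at hk
            refine hk.2 (dzone_eq_zero ?_)
            simp only [Pi.zero_apply, sub_zero] at hc
            exact hc.le.trans (le_mul_of_one_le_right hθ0.le (one_le_pow₀ (by norm_num)))
        _ ≤ powDist p (Y i) 0 := Finset.sum_le_sum_of_subset_of_nonneg (subset_univ _)
            fun k _ _ => Real.rpow_nonneg (abs_nonneg _) _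
        _ ≤ _ := hY i
    rw [Real.div_rpow (by positivity) hθ0.le, div_le_iff₀ (by positivity)] at hS
    have h2 : (F.card : ℝ) * θ0 ^ p ≤ (S:ℝ) * θ0 ^ p := h1.trans hS
    exact_mod_cast le_of_mul_le_mul_right h2 (Real.rpow_pos_of_pos hθ0 p)
  choose Ψ hΨ0 hΨ using hclip
  choose Ξ hΞ0 hΞ1 hΞ2 using fun j : Fin J =>
    hash (fun i k => dzone (θ0 * 2 ^ (j:ℕ)) (Y i k)) (hsparse j)
  set c : ℝ := ((J:ℝ)⁻¹) ^ (1 / p) with hc
  have hc0 : 0 ≤ c := by rw [hc]; positivity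
  have hcp : c ^ p = (J:ℝ)⁻¹ := by
    rw [hc, ← Real.rpow_mul (by positivity), one_div_mul_cancel hp0.ne', Real.rpow_one]
  set e : Fin (J * (K + M)) ≃ Fin J × (Fin K ⊕ Fin M) :=
    finProdFinEquiv.symm.trans ((Equiv.refl _).prodCongr finSumFinEquiv.symm)
  set Φ' : Option (Fin n) → Fin (J * (K + M)) → ℝ := fun o l =>
    c * Sum.elim (Ψ (e l).1 o) (o.elim 0 (Ξ (e l).1)) (e l).2 with hΦ'
  have hzero : ∀ o, Y' o = 0 → Φ' o = 0 := by
    intro o ho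
    funext l
    have h1 : Ψ (e l).1 o = 0 := hΨ0 _ o (by
      funext k
      rw [ho]
      simp only [Pi.zero_apply, clipF]
      rw [min_eq_right (hθ _).le, max_eq_right (by linarith [hθ (e l).1])])
    have h2 : o.elim (0 : Fin M → ℝ) (Ξ (e l).1) = 0 := by
      rcases o with _ | i
      · rfl
      · refine hΞ0 _ i ?_
        funext k
        have hk : Y i k = 0 := congrFun ho k
        simp only [hk, Pi.zero_apply]
        exact dzone_eq_zero (by rw [abs_zero]; exact (hθ _).le)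
    simp only [hΦ', h1, h2]
    rcases (e l).2 with x | x <;> simp
  have hpd : ∀ o o', powDist p (Φ' o) (Φ' o') = (J:ℝ)⁻¹ * ∑ j : Fin J,
      (powDist p (Ψ j o) (Ψ j o') + powDist p (o.elim 0 (Ξ j)) (o'.elim 0 (Ξ j))) := by
    intro o o'
    rw [powDist, ← Equiv.sum_comp e.symm, Fintype.sum_prod_type, Finset.mul_sum]
    refine Finset.sum_congr rfl fun j _ => ?_
    simp only [hΦ', Equiv.apply_symm_apply, Fintype.sum_sum_type, Sum.elim_inl, Sum.elim_inr,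
      powDist, mul_add, Finset.mul_sum, ← mul_sub, abs_mul, abs_of_nonneg hc0]
    congr 1 <;> refine Finset.sum_congr rfl fun x _ => ?_ <;>
      rw [Real.mul_rpow hc0 (abs_nonneg _), hcp]
  have hnorm : ∀ o, powDist p (Y' o) 0 ≤ (Δ * s) ^ p := by
    intro o
    rcases o with _ | i
    · simp only [hY', Option.elim_none, powDist_self' hp0]; positivity
    · exact hY i
  have hmain : ∀ o o', |powDist p (Φ' o) (Φ' o') - powDist p (Y' o) (Y' o')|
      ≤ ε * (s ^ p + powDist p (Y' o) (Y' o')) := by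
    intro o o'
    set T := powDist p (Y' o) (Y' o') with hT
    have hT0 : 0 ≤ T := powDist_nonneg _ _ _
    have hδ' : 2 * δ ≤ 1 := by nlinarith
    set A : Fin J → ℝ := fun j => powDist p (fun k => clipF (θ0 * 2 ^ (j:ℕ)) (Y' o k))
      (fun k => clipF (θ0 * 2 ^ (j:ℕ)) (Y' o' k)) with hA
    set Bz : Fin J → ℝ := fun j => powDist p (fun k => dzone (θ0 * 2 ^ (j:ℕ)) (Y' o k))
      (fun k => dzone (θ0 * 2 ^ (j:ℕ)) (Y' o' k)) with hBz
    obtain ⟨hlo, hhi⟩ := sum_cut_le hp hθ0 hδ0 hδ' hP J (Y' o) (Y' o')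
    change ∑ j, (A j + Bz j) ≤ J * T at hlo
    change J * T - ∑ j, (A j + Bz j) ≤ _ at hhi
    have helim : ∀ (j : Fin J) (o : Option (Fin n)),
        (fun k => dzone (θ0 * 2 ^ (j:ℕ)) (Y' o k))
          = o.elim 0 (fun i k => dzone (θ0 * 2 ^ (j:ℕ)) (Y i k)) := by
      intro j o
      rcases o with _ | i
      · funext k
        simp only [hY', Option.elim_none, Pi.zero_apply]
        exact dzone_eq_zero (by rw [abs_zero]; exact (hθ j).le)
      · rfl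
    have hz : ∀ j, |powDist p (o.elim 0 (Ξ j)) (o'.elim 0 (Ξ j)) - Bz j| ≤ ε / 4 * Bz j := by
      intro j
      simp only [hBz, helim]
      exact option_extend hp0 _ _ (hΞ1 j) (hΞ2 j) o o'
    have herr : |∑ j, (powDist p (Ψ j o) (Ψ j o') + powDist p (o.elim 0 (Ξ j)) (o'.elim 0 (Ξ j)))
        - ∑ j, (A j + Bz j)| ≤ ε / 4 * (J * T) + ε / 4 * (J * s ^ p) := by
      rw [← Finset.sum_sub_distrib]
      refine (Finset.abs_sum_le_sum_abs _ _).trans ?_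
      calc ∑ j, |powDist p (Ψ j o) (Ψ j o') + powDist p (o.elim 0 (Ξ j)) (o'.elim 0 (Ξ j))
            - (A j + Bz j)| ≤ ∑ j, (ε / 4 * (A j + Bz j) + ε / 4 * s ^ p) :=
            Finset.sum_le_sum fun j _ => by
              have h1 := abs_le.1 (hΨ j o o')
              have h2 := abs_le.1 (hz j)
              simp only [hA] at h1 ⊢
              rw [abs_le]; constructor <;> linarith
        _ = ε / 4 * ∑ j, (A j + Bz j) + ε / 4 * (J * s ^ p) := by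
            rw [Finset.sum_add_distrib, ← Finset.mul_sum]; simp; ring
        _ ≤ _ := by gcongr
    have hloss : J * T - ∑ j, (A j + Bz j) ≤ ε / 4 * (J * T) + ε / 4 * (J * s ^ p) := by
      refine hhi.trans (add_le_add ?_ ?_)
      · have : 2 * p * δ * J + P ≤ ε / 4 * J := by
          have := mul_le_mul_of_nonneg_right hδ1 (Nat.cast_nonneg (α := ℝ) J)
          linarith
        linarith [mul_le_mul_of_nonneg_right this hT0]
      · have h1 : δ ^ p * (Δ * s) ^ p ≤ ε / 16 * s ^ p := by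
          rw [← Real.mul_rpow hδ0.le (by positivity), ← mul_assoc,
            Real.mul_rpow (by positivity) hs.le]
          exact mul_le_mul_of_nonneg_right hδΔ (by positivity)
        have h2 : δ ^ p * (powDist p (Y' o) 0 + powDist p (Y' o') 0)
            ≤ δ ^ p * ((Δ * s) ^ p + (Δ * s) ^ p) := by
          gcongr <;> exact hnorm _
        have h3 : ε / 4 * s ^ p * 1 ≤ ε / 4 * s ^ p * J := by
          gcongr; exact_mod_cast hJ
        linarith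
    have hJ0 : (0:ℝ) < J := by exact_mod_cast hJ
    rw [hpd]
    have h1 := abs_le.1 herr
    have h2 : (J:ℝ)⁻¹ * (J * T) = T := by field_simp
    have key : |∑ j, (powDist p (Ψ j o) (Ψ j o') + powDist p (o.elim 0 (Ξ j)) (o'.elim 0 (Ξ j)))
        - J * T| ≤ J * (ε * (s ^ p + T)) := by
      have h5 : 0 ≤ ε * (J * s ^ p) := by positivity
      have h6 : 0 ≤ ε * (J * T) := by positivity
      rw [abs_le]; constructor <;> linarith
    calc |(J:ℝ)⁻¹ * ∑ j, (powDist p (Ψ j o) (Ψ j o')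
          + powDist p (o.elim 0 (Ξ j)) (o'.elim 0 (Ξ j))) - T|
        = (J:ℝ)⁻¹ * |∑ j, (powDist p (Ψ j o) (Ψ j o')
          + powDist p (o.elim 0 (Ξ j)) (o'.elim 0 (Ξ j))) - J * T| := by
          rw [← abs_of_pos (inv_pos.2 hJ0), ← abs_mul, abs_of_pos (inv_pos.2 hJ0), mul_sub, h2]
      _ ≤ (J:ℝ)⁻¹ * (J * (ε * (s ^ p + T))) := by gcongr
      _ = _ := by field_simp
  refine ⟨fun i => Φ' (some i), fun i hi => hzero (some i) hi,
    fun i j => hmain (some i) (some j), fun i => ?_⟩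
  have := hmain (some i) none
  rw [hzero none rfl] at this
  simpa [hY'] using this

/-- The dimension count of the sketch. -/
lemma sketch_dim {p ε α κ : ℝ} {n R J : ℕ} (hnR : (1:ℝ) ≤ n) (hα1 : α ≤ 1 / 24)
    (hκ0 : 0 ≤ κ) (hκα : κ ≤ 1 / 768) (hε0 : 0 < ε)
    (hJfloor : (J:ℝ) ≤ α * Real.logb 2 n)
    (hbig1 : ((4 * 2 ^ p * (8 / (1 / 400)) / (ε / 4) ^ 2 + 1 + 5 * R) / (1 / 400) : ℝ)
      ≤ (n:ℝ) ^ (1 / 100 : ℝ)) :
    ((J * (⌈4 * (2 ^ p * (n:ℝ) ^ (1 + κ - 1 / 24)) * (3 * Real.log ((n:ℝ) + 1) + 2) / (ε / 4) ^ 2⌉₊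
      + R * ⌈(⌈(n:ℝ) ^ (1 / 8 : ℝ)⌉₊ : ℝ) ^ 2 * (n:ℝ) ^ (1 / 4 : ℝ)⌉₊) : ℕ) : ℝ)
      ≤ (n:ℝ) ^ (1 - κ) := by
  have hnpos : (0:ℝ) < n := by linarith
  set η : ℝ := (1 / 400 : ℝ) with hη
  set L : ℝ := 3 * Real.log ((n:ℝ) + 1) + 2 with hL
  have hL0 : 0 ≤ L := by
    have := Real.log_nonneg (by linarith : (1:ℝ) ≤ (n:ℝ) + 1); linarith
  set K : ℕ := ⌈4 * (2 ^ p * (n:ℝ) ^ (1 + κ - 1 / 24)) * L / (ε / 4) ^ 2⌉₊ with hK
  set S : ℕ := ⌈(n:ℝ) ^ (1 / 8 : ℝ)⌉₊ with hS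
  set M : ℕ := R * ⌈(S:ℝ) ^ 2 * (n:ℝ) ^ (1 / 4 : ℝ)⌉₊ with hM
  set C1 : ℝ := 4 * 2 ^ p * (8 / η) / (ε / 4) ^ 2 + 1 with hC1
  set C2 : ℝ := (C1 + 5 * R) / η with hC2
  have hη0 : 0 < η := by norm_num
  have hne : (1:ℝ) ≤ (n:ℝ) ^ η := Real.one_le_rpow hnR hη0.le
  have hlog : Real.log n ≤ (n:ℝ) ^ η / η := Real.log_le_rpow_div hnpos.le hη0
  have h1η : (1:ℝ) ≤ (n:ℝ) ^ η / η := by
    rw [le_div_iff₀ hη0, one_mul]; exact le_trans (by norm_num [hη]) hne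
  have hJb : (J:ℝ) ≤ (n:ℝ) ^ η / η := by
    refine hJfloor.trans (le_trans ?_ hlog)
    have h2 := Real.log_two_gt_d9
    have hl0 : 0 ≤ Real.log n := Real.log_natCast_nonneg n
    rw [Real.logb, mul_div_assoc', div_le_iff₀ (by linarith)]
    exact (mul_le_mul_of_nonneg_right (show α ≤ Real.log 2 by linarith) hl0).trans_eq
      (mul_comm _ _)
  have hLb : L ≤ 8 / η * (n:ℝ) ^ η := by
    have h1 : Real.log ((n:ℝ) + 1) ≤ Real.log n + 1 := by
      calc Real.log ((n:ℝ) + 1) ≤ Real.log (2 * n) := Real.log_le_log (by positivity) (by linarith)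
        _ = Real.log 2 + Real.log n := Real.log_mul (by norm_num) hnpos.ne'
        _ ≤ _ := by linarith [Real.log_two_lt_d9]
    have h2 : 8 / η * (n:ℝ) ^ η = 8 * ((n:ℝ) ^ η / η) := by ring
    rw [h2]; linarith
  set e : ℝ := 1 + κ - 1 / 24 + η with he
  have hne1 : (1:ℝ) ≤ (n:ℝ) ^ e := Real.one_le_rpow hnR (by rw [he]; linarith)
  have hKb : (K:ℝ) ≤ C1 * (n:ℝ) ^ e := by
    refine (Nat.ceil_lt_add_one (by positivity)).le.trans ?_
    calc 4 * (2 ^ p * (n:ℝ) ^ (1 + κ - 1 / 24)) * L / (ε / 4) ^ 2 + 1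
        ≤ 4 * (2 ^ p * (n:ℝ) ^ (1 + κ - 1 / 24)) * (8 / η * (n:ℝ) ^ η) / (ε / 4) ^ 2
          + 1 * (n:ℝ) ^ e := by gcongr; linarith
      _ = _ := by rw [he, Real.rpow_add hnpos, hC1]; ring
  have hMb : (M:ℝ) ≤ 5 * R * (n:ℝ) ^ e := by
    have h8 : (1:ℝ) ≤ (n:ℝ) ^ (1 / 8 : ℝ) := Real.one_le_rpow hnR (by norm_num)
    have hSb : (S:ℝ) ≤ 2 * (n:ℝ) ^ (1 / 8 : ℝ) :=
      (Nat.ceil_lt_add_one (by positivity)).le.trans (by linarith)
    have hh : (n:ℝ) ^ (1 / 2 : ℝ) ≤ (n:ℝ) ^ e :=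
      Real.rpow_le_rpow_of_exponent_le hnR (by rw [he]; linarith)
    have hc : (⌈(S:ℝ) ^ 2 * (n:ℝ) ^ (1 / 4 : ℝ)⌉₊ : ℝ) ≤ 5 * (n:ℝ) ^ e := by
      refine (Nat.ceil_lt_add_one (by positivity)).le.trans ?_
      calc (S:ℝ) ^ 2 * (n:ℝ) ^ (1 / 4 : ℝ) + 1
          ≤ (2 * (n:ℝ) ^ (1 / 8 : ℝ)) ^ 2 * (n:ℝ) ^ (1 / 4 : ℝ) + (n:ℝ) ^ e := by gcongr
        _ = 4 * (n:ℝ) ^ (1 / 2 : ℝ) + (n:ℝ) ^ e := by
            rw [mul_pow, sq ((n:ℝ) ^ (1 / 8 : ℝ)), ← Real.rpow_add hnpos, mul_assoc,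
              ← Real.rpow_add hnpos]
            norm_num
        _ ≤ _ := by linarith
    rw [hM]; push_cast
    calc (R:ℝ) * (⌈(S:ℝ) ^ 2 * (n:ℝ) ^ (1 / 4 : ℝ)⌉₊ : ℝ) ≤ R * (5 * (n:ℝ) ^ e) := by gcongr
      _ = _ := by ring
  push_cast
  calc (J:ℝ) * (K + M) ≤ (n:ℝ) ^ η / η * (C1 * (n:ℝ) ^ e + 5 * R * (n:ℝ) ^ e) := by gcongr
    _ = C2 * ((n:ℝ) ^ η * (n:ℝ) ^ e) := by rw [hC2]; ring
    _ ≤ (n:ℝ) ^ (1 / 100 : ℝ) * ((n:ℝ) ^ η * (n:ℝ) ^ e) := by gcongr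
    _ ≤ _ := by
        rw [← Real.rpow_add hnpos, ← Real.rpow_add hnpos]
        refine Real.rpow_le_rpow_of_exponent_le hnR ?_
        rw [he]; linarith

/-- The dyadic middle range is short. -/
lemma sketch_P {p ε α κ Δ δ : ℝ} {n : ℕ} (hnR : (1:ℝ) ≤ n) (hε0 : 0 < ε) (hε1 : ε ≤ 1) (hp0 : 0 < p)
    (hΔ0 : 0 < Δ) (hΔn : Δ ≤ (n:ℝ) ^ κ) (hκ : κ = ε * α / 32)
    (hbig2 : 4 * (16 * p / ε) ^ 2 ≤ (n:ℝ) ^ (ε * α / 16)) (hδ : δ = ε / (16 * p * Δ)) :
    1 ≤ δ ^ 2 * 2 ^ ⌊ε / 8 * (⌊α * Real.logb 2 n⌋₊ : ℝ)⌋₊ := by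
  have hnpos : (0:ℝ) < n := by linarith
  have hδ0 : 0 < δ := by rw [hδ]; positivity
  set J : ℕ := ⌊α * Real.logb 2 n⌋₊ with hJ
  set P : ℕ := ⌊ε / 8 * J⌋₊ with hP
  have hpow : (2:ℝ) ^ (α * Real.logb 2 n) = (n:ℝ) ^ α := by
    rw [mul_comm, Real.rpow_mul (by norm_num), Real.rpow_logb (by norm_num) (by norm_num) hnpos]
  set c0 : ℝ := 16 * p / ε with hc0
  have h1 : (n:ℝ) ^ (ε * α / 8) / 4 ≤ (2:ℝ) ^ P := by
    have e1 : ε / 8 * (α * Real.logb 2 n - 1) - 1 ≤ (P:ℝ) := by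
      have h1 := Nat.lt_floor_add_one (ε / 8 * J)
      have h2 := Nat.lt_floor_add_one (α * Real.logb 2 n)
      rw [← hJ] at h2
      rw [← hP] at h1
      have h3 := mul_le_mul_of_nonneg_left
        (show α * Real.logb 2 n - 1 ≤ (J:ℝ) by linarith) (show 0 ≤ ε / 8 by linarith)
      linarith
    have e2 : α * Real.logb 2 n * (ε / 8) - 2 ≤ (P:ℝ) := by linarith
    have e3 := Real.rpow_le_rpow_of_exponent_le (by norm_num : (1:ℝ) ≤ 2) e2
    rw [Real.rpow_sub (by norm_num), Real.rpow_mul (by norm_num), hpow,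
      ← Real.rpow_mul hnpos.le, Real.rpow_natCast] at e3
    rw [show ε * α / 8 = α * (ε / 8) by ring]
    norm_num at e3 ⊢
    linarith
  have h3 : δ = ε / (16 * p) / Δ := by rw [hδ, div_div]
  have h4 : 1 / δ = c0 * Δ := by rw [hc0, h3]; field_simp
  have h2 : (1 / δ) ^ 2 ≤ (2:ℝ) ^ P := by
    refine le_trans ?_ h1
    rw [h4, mul_pow, le_div_iff₀ (by norm_num)]
    calc c0 ^ 2 * Δ ^ 2 * 4 ≤ 4 * c0 ^ 2 * ((n:ℝ) ^ κ) ^ 2 := by
          rw [mul_right_comm, mul_comm _ (4:ℝ)]; gcongr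
      _ ≤ (n:ℝ) ^ (ε * α / 16) * ((n:ℝ) ^ κ) ^ 2 := by gcongr
      _ = _ := by
          rw [← Real.rpow_natCast, ← Real.rpow_mul hnpos.le, ← Real.rpow_add hnpos, hκ]
          push_cast; ring_nf
  rw [div_pow, one_pow, div_le_iff₀ (by positivity)] at h2
  linarith

/-- M2b: sketching a family of bounded norm into sublinearly many coordinates. -/
theorem sketch {p : ℝ} (hp : 1 < p) (hsh : SparseHashStmt p) : SketchStmt p := by
  intro ε hε0 hε1
  have hp0 : 0 < p := by linarith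
  set α : ℝ := 1 / (24 * p) with hα
  have hα0 : 0 < α := by positivity
  have hα1 : α ≤ 1 / 24 := by
    rw [hα, div_le_div_iff₀ (by positivity) (by norm_num)]; linarith
  have hαp : α * p = 1 / 24 := by rw [hα]; field_simp
  set κ : ℝ := ε * α / 32 with hκ
  have hκ0 : 0 < κ := by positivity
  have hκα : κ ≤ α / 32 := by rw [hκ]; nlinarith
  set η : ℝ := 1 / 400 with hη
  obtain ⟨R, n1, hR⟩ := hsh (ε / 4) (by linarith) (by linarith) (1 / 4) (by norm_num) (by norm_num)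
  set c0 : ℝ := 16 * p / ε with hc0
  have hc0pos : 0 < c0 := by positivity
  set C1 : ℝ := 4 * 2 ^ p * (8 / η) / (ε / 4) ^ 2 + 1 with hC1
  set C2 : ℝ := (C1 + 5 * R) / η with hC2
  have hev : ∀ᶠ n : ℕ in Filter.atTop, C2 ≤ (n:ℝ) ^ (1 / 100 : ℝ) ∧
      4 * c0 ^ 2 ≤ (n:ℝ) ^ (ε * α / 16) ∧ 2 ≤ (n:ℝ) ^ α ∧ 2 ≤ n ∧ n1 ≤ n := by
    have h : ∀ e : ℝ, 0 < e → Filter.Tendsto (fun n : ℕ => (n:ℝ) ^ e) Filter.atTop Filter.atTop :=
      fun e he => (tendsto_rpow_atTop he).comp tendsto_natCast_atTop_atTop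
    exact ((h _ (by norm_num)).eventually_ge_atTop C2).and
      (((h _ (by positivity)).eventually_ge_atTop (4 * c0 ^ 2)).and
      (((h _ hα0).eventually_ge_atTop 2).and
      ((Filter.eventually_ge_atTop 2).and (Filter.eventually_ge_atTop n1))))
  obtain ⟨n0, hn0⟩ := Filter.eventually_atTop.1 hev
  refine ⟨κ, hκ0, by linarith, n0, fun n hn => ?_⟩
  obtain ⟨hbig1, hbig2, hbig3, hn2, hn1⟩ := hn0 n hn
  have hnR : (1:ℝ) ≤ n := by exact_mod_cast (by omega : 1 ≤ n)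
  have hnpos : (0:ℝ) < n := by linarith
  set L : ℝ := 3 * Real.log ((n:ℝ) + 1) + 2 with hL
  have hL0 : 0 ≤ L := by
    have := Real.log_nonneg (by linarith : (1:ℝ) ≤ (n:ℝ) + 1); linarith
  set J : ℕ := ⌊α * Real.logb 2 n⌋₊ with hJ
  set P : ℕ := ⌊ε / 8 * J⌋₊ with hP
  set K : ℕ := ⌈4 * (2 ^ p * (n:ℝ) ^ (1 + κ - 1 / 24)) * L / (ε / 4) ^ 2⌉₊ with hK
  set S : ℕ := ⌈(n:ℝ) ^ (1 / 8 : ℝ)⌉₊ with hS
  set M : ℕ := R * ⌈(S:ℝ) ^ 2 * (n:ℝ) ^ (1 / 4 : ℝ)⌉₊ with hM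
  have hlogb0 : 0 ≤ α * Real.logb 2 n := mul_nonneg hα0.le (Real.logb_nonneg (by norm_num) hnR)
  have hpow : (2:ℝ) ^ (α * Real.logb 2 n) = (n:ℝ) ^ α := by
    rw [mul_comm, Real.rpow_mul (by norm_num), Real.rpow_logb (by norm_num) (by norm_num) hnpos]
  have hJ1 : 0 < J := by
    refine Nat.floor_pos.2 ?_
    by_contra hc
    push Not at hc
    have := Real.rpow_lt_rpow_of_exponent_lt (by norm_num : (1:ℝ) < 2) hc
    rw [hpow, Real.rpow_one] at this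
    linarith
  have hJle : (2:ℝ) ^ J ≤ (n:ℝ) ^ α := by
    rw [← hpow, ← Real.rpow_natCast]
    exact Real.rpow_le_rpow_of_exponent_le (by norm_num) (Nat.floor_le hlogb0)
  refine ⟨J * (K + M), ?_, fun Q hQ Δ hΔ1 hΔn s hs Y hY => ?_⟩
  · exact sketch_dim hnR hα1 hκ0.le (by linarith) hε0 (J := J) (Nat.floor_le hlogb0)
      hbig1
  set θ0 : ℝ := s * (n:ℝ) ^ (-(2 * α)) with hθ0
  set δ : ℝ := ε / (16 * p * Δ) with hδ
  have hΔ0 : 0 < Δ := by linarith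
  have hδΔ : δ * Δ = ε / (16 * p) := by rw [hδ]; field_simp
  have hδ0 : 0 < δ := by positivity
  have hδ1 : 2 * p * δ ≤ ε / 8 := by
    have : 2 * p * δ = ε / 8 / Δ := by rw [hδ]; field_simp; ring
    rw [this]; exact div_le_self (by linarith) hΔ1
  have hδp : (δ * Δ) ^ p ≤ ε / 16 := by
    rw [hδΔ]
    refine (Real.rpow_le_self_of_le_one (by positivity) ?_ hp.le).trans ?_
    · rw [div_le_one (by positivity)]; linarith
    · gcongr; linarith
  have hP2 : 1 ≤ δ ^ 2 * 2 ^ P :=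
    sketch_P hnR hε0 hε1 hp0 hΔ0 hΔn hκ hbig2 hδ
  refine sketch_core (L := L) (θ0 := θ0) (δ := δ) (P := P) (S := S) hp.le hJ1 hε0 hε1
    (by rw [hθ0]; positivity) hδ0 hδ1 hP2 (Nat.floor_le (by positivity)) hΔ0.le hδp hs ?_ ?_ ?_
    ?_ Y hY
  · have := log_fail_bound (n := n + 1) (by omega)
    push_cast at this
    exact this
  · intro j hj
    have hθj : 2 * (θ0 * 2 ^ j) / s ≤ 2 * (n:ℝ) ^ (-α) := by
      have h1 : (n:ℝ) ^ (-(2 * α)) * 2 ^ j ≤ (n:ℝ) ^ (-α) := by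
        calc (n:ℝ) ^ (-(2 * α)) * 2 ^ j ≤ (n:ℝ) ^ (-(2 * α)) * (n:ℝ) ^ α := by
              gcongr
              exact (pow_le_pow_right₀ (by norm_num) hj.le).trans hJle
          _ = _ := by rw [← Real.rpow_add hnpos]; ring_nf
      rw [hθ0, div_le_iff₀ hs]
      calc 2 * (s * (n:ℝ) ^ (-(2 * α)) * 2 ^ j) = 2 * s * ((n:ℝ) ^ (-(2 * α)) * 2 ^ j) := by ring
        _ ≤ 2 * s * (n:ℝ) ^ (-α) := by gcongr
        _ = _ := by ring
    have hQ' : (Q:ℝ) * (2 * (θ0 * 2 ^ j) / s) ^ p ≤ 2 ^ p * (n:ℝ) ^ (1 + κ - 1 / 24) := by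
      calc (Q:ℝ) * (2 * (θ0 * 2 ^ j) / s) ^ p ≤ (n:ℝ) ^ (1 + κ) * (2 * (n:ℝ) ^ (-α)) ^ p := by
            gcongr
        _ = _ := by
            rw [Real.mul_rpow (by norm_num) (by positivity), ← Real.rpow_mul hnpos.le,
              show -α * p = -(1 / 24 : ℝ) by linarith, mul_left_comm, ← Real.rpow_add hnpos]
            ring_nf
    have hKc := Nat.le_ceil (4 * (2 ^ p * (n:ℝ) ^ (1 + κ - 1 / 24)) * L / (ε / 4) ^ 2)
    rw [div_le_iff₀ (by positivity), ← hK] at hKc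
    exact le_trans (by gcongr) hKc
  · refine le_trans ?_ (Nat.le_ceil _)
    calc (Δ * s / θ0) ^ p = (Δ * (n:ℝ) ^ (2 * α)) ^ p := by
          rw [hθ0, Real.rpow_neg hnpos.le]; field_simp
      _ ≤ ((n:ℝ) ^ κ * (n:ℝ) ^ (2 * α)) ^ p := by gcongr
      _ ≤ _ := by
          rw [← Real.rpow_add hnpos, ← Real.rpow_mul hnpos.le]
          refine Real.rpow_le_rpow_of_exponent_le hnR ?_
          calc (κ + 2 * α) * p ≤ 3 * α * p := by gcongr; linarith
            _ = 1 / 8 := by linarith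
  · intro Z hZ
    refine hR n hn1 Q S (Nat.one_le_iff_ne_zero.2 ?_) ?_ Z hZ
    · rw [hS, Ne, Nat.ceil_eq_zero, not_le]; positivity
    · rw [hS, Nat.ceil_le]
      calc (n:ℝ) ^ (1 / 8 : ℝ) ≤ (n:ℝ) ^ (1:ℝ) := Real.rpow_le_rpow_of_exponent_le hnR (by norm_num)
        _ = _ := Real.rpow_one _

end Vale.Agent.P249.Full
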