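import Mathlib
import Vale.Agent.P249.Full.Spec
import Vale.Agent.P249.Hash

/-! Independent hashes preserve sparse vectors up to a small relative error. -/

namespace Vale.Agent.P249.Full.SparseHash

open Finset

/-- Union bound for finite weights. -/
lemma weight_union {Ω ι : Type*} [Fintype Ω] (w : Ω → ℝ) (hw : ∀ a, 0 ≤ w a) (I : Finset ι)
    (P : Ω → Prop) [DecidablePred P] (Pi : ι → Ω → Prop) [∀ i, DecidablePred (Pi i)]
    (h : ∀ a, P a → ∃ i ∈ I, Pi i a) :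
    ∑ a ∈ univ.filter P, w a ≤ ∑ i ∈ I, ∑ a ∈ univ.filter (Pi i), w a := by
  simp only [Finset.sum_filter]
  rw [Finset.sum_comm]
  refine Finset.sum_le_sum fun a _ => ?_
  split_ifs with hP
  · obtain ⟨i, hi, hia⟩ := h a hP
    refine le_trans (by rw [if_pos hia])
      (Finset.single_le_sum (f := fun i => if Pi i a then w a else 0) (fun i _ => ?_) hi)
    split_ifs <;> simp [hw a]
  · exact Finset.sum_nonneg fun i _ => by split_ifs <;> simp [hw a]

/-- Independence of the coordinates of a product weight. -/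
lemma sum_prodW_forall {Ω : Type*} [Fintype Ω] {R : ℕ} (w : Ω → ℝ) (hw1 : ∑ a, w a = 1)
    (Z : Finset (Fin R)) (P : Ω → Prop) [DecidablePred P]
    [DecidablePred fun om : Fin R → Ω => ∀ r ∈ Z, P (om r)] :
    ∑ om ∈ univ.filter (fun om : Fin R → Ω => ∀ r ∈ Z, P (om r)), prodW w om
      = (∑ a ∈ univ.filter P, w a) ^ Z.card := by
  set g : Fin R → Ω → ℝ := fun r a => if r ∈ Z then (if P a then w a else 0) else w a with hg
  have h1 : ∀ om : Fin R → Ω,
      (if (∀ r ∈ Z, P (om r)) then prodW w om else 0) = ∏ r, g r (om r) := by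
    intro om
    split_ifs with h
    · refine Finset.prod_congr rfl fun r _ => ?_
      simp only [hg]
      by_cases hr : r ∈ Z <;> simp [hr]
      simp [h r hr]
    · push Not at h
      obtain ⟨r, hr, hne⟩ := h
      exact (Finset.prod_eq_zero (Finset.mem_univ r) (by simp [hg, hr, hne])).symm
  rw [Finset.sum_filter, Finset.sum_congr rfl fun om _ => h1 om, ← Fintype.prod_sum g]
  have h2 : ∀ r, ∑ a, g r a = if r ∈ Z then ∑ a ∈ univ.filter P, w a else 1 := by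
    intro r
    by_cases hr : r ∈ Z <;> simp [hg, hr, hw1, Finset.sum_filter]
  simp only [h2]
  rw [Finset.prod_ite_mem, Finset.univ_inter, Finset.prod_const]

/-- The weight of hashes putting `ℓ` points of a small set into one value. -/
lemma weight_load {Q B s ℓ : ℕ} (hB : 0 < B) (U : Finset (Fin Q)) (hU : U.card ≤ s) :
    ∑ a ∈ univ.filter (fun a : Fin Q → Fin B => ∃ b, ℓ ≤ (U.filter fun l => a l = b).card),
      prodW (fun _ => (B:ℝ)⁻¹) a ≤ (s:ℝ) ^ ℓ * B * ((B:ℝ)⁻¹) ^ ℓ := by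
  classical
  have hw : ∀ a : Fin Q → Fin B, 0 ≤ prodW (fun _ => (B:ℝ)⁻¹) a :=
    fun a => prodW_nonneg (fun _ => by positivity) a
  refine (weight_union _ hw ((univ : Finset (Fin B)) ×ˢ U.powersetCard ℓ) _
    (fun bT a => ∀ l ∈ bT.2, a l = bT.1) ?_).trans ?_
  · rintro a ⟨b, hb⟩
    obtain ⟨T, hT, hTc⟩ := Finset.exists_subset_card_eq hb
    exact ⟨(b, T), Finset.mem_product.2 ⟨Finset.mem_univ b,
      Finset.mem_powersetCard.2 ⟨hT.trans (Finset.filter_subset _ _), hTc⟩⟩,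
      fun l hl => (Finset.mem_filter.1 (hT hl)).2⟩
  · calc ∑ bT ∈ (univ : Finset (Fin B)) ×ˢ U.powersetCard ℓ,
          ∑ a ∈ univ.filter (fun a => ∀ l ∈ bT.2, a l = bT.1), prodW (fun _ => (B:ℝ)⁻¹) a
        = ∑ _bT ∈ (univ : Finset (Fin B)) ×ˢ U.powersetCard ℓ, ((B:ℝ)⁻¹) ^ ℓ := by
          refine Finset.sum_congr rfl fun bT hbT => ?_
          have := sum_prodW_fixed hB bT.2 bT.1
          rw [(Finset.mem_powersetCard.1 (Finset.mem_product.1 hbT).2).2] at this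
          convert this
      _ ≤ (s:ℝ) ^ ℓ * B * ((B:ℝ)⁻¹) ^ ℓ := by
          rw [Finset.sum_const, nsmul_eq_mul, Finset.card_product, Finset.card_univ,
            Fintype.card_fin, Finset.card_powersetCard]
          have : B * U.card.choose ℓ ≤ s ^ ℓ * B := by
            rw [mul_comm]
            exact Nat.mul_le_mul_right B
              ((Nat.choose_le_pow _ _).trans (Nat.pow_le_pow_left hU ℓ))
          exact mul_le_mul_of_nonneg_right (by exact_mod_cast this) (by positivity)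

/-- The `p`-th power of the norm of a hashed vector. -/
noncomputable def bucket (p : ℝ) {Q B : ℕ} (h : Fin Q → Fin B) (d : Fin Q → ℝ) : ℝ :=
  ∑ b, |∑ l ∈ univ.filter (fun l => h l = b), d l| ^ p

lemma bucket_nonneg (p : ℝ) {Q B : ℕ} (h : Fin Q → Fin B) (d : Fin Q → ℝ) :
    0 ≤ bucket p h d := Finset.sum_nonneg fun _ _ => Real.rpow_nonneg (abs_nonneg _) _

lemma bucket_le {p : ℝ} (hp : 1 ≤ p) {Q B ℓ : ℕ} (h : Fin Q → Fin B) (U : Finset (Fin Q))
    (hload : ∀ b, (U.filter fun l => h l = b).card ≤ ℓ) (d : Fin Q → ℝ)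
    (hd : ∀ l ∉ U, d l = 0) : bucket p h d ≤ (ℓ:ℝ) ^ (p - 1) * ∑ l, |d l| ^ p := by
  classical
  have hp0 : 0 < p := by linarith
  rw [bucket, ← Finset.sum_fiberwise univ h (fun l => |d l| ^ p), Finset.mul_sum]
  refine Finset.sum_le_sum fun b _ => ?_
  have hsub : U.filter (fun l => h l = b) ⊆ univ.filter (fun l => h l = b) := fun l hl => by
    simp only [Finset.mem_filter, Finset.mem_univ, true_and] at hl ⊢
    exact hl.2
  rw [← Finset.sum_subset hsub (f := fun l => d l) fun l hl hl' => by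
    simp only [Finset.mem_filter, Finset.mem_univ, true_and, not_and] at hl hl'
    exact hd l fun hU => hl' hU hl]
  calc |∑ l ∈ U.filter (fun l => h l = b), d l| ^ p
      ≤ (∑ l ∈ U.filter (fun l => h l = b), |d l|) ^ p :=
        Real.rpow_le_rpow (abs_nonneg _) (Finset.abs_sum_le_sum_abs _ _) hp0.le
    _ ≤ ((U.filter fun l => h l = b).card : ℝ) ^ (p - 1)
          * ∑ l ∈ U.filter (fun l => h l = b), |d l| ^ p :=
        Real.rpow_sum_le_const_mul_sum_rpow _ _ hp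
    _ ≤ _ := mul_le_mul
        (Real.rpow_le_rpow (Nat.cast_nonneg _) (by exact_mod_cast hload b) (by linarith))
        (Finset.sum_le_sum_of_subset_of_nonneg hsub fun l _ _ =>
          Real.rpow_nonneg (abs_nonneg _) _)
        (Finset.sum_nonneg fun l _ => Real.rpow_nonneg (abs_nonneg _) _)
        (Real.rpow_nonneg (Nat.cast_nonneg _) _)

lemma bucket_eq {p : ℝ} (hp : 0 < p) {Q B : ℕ} (h : Fin Q → Fin B) (U : Finset (Fin Q))
    (hload : ∀ b, (U.filter fun l => h l = b).card ≤ 1) (d : Fin Q → ℝ)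
    (hd : ∀ l ∉ U, d l = 0) : bucket p h d = ∑ l, |d l| ^ p := by
  classical
  rw [bucket, ← Finset.sum_fiberwise univ h (fun l => |d l| ^ p)]
  refine Finset.sum_congr rfl fun b _ => ?_
  have hsub : U.filter (fun l => h l = b) ⊆ univ.filter (fun l => h l = b) := fun l hl => by
    simp only [Finset.mem_filter, Finset.mem_univ, true_and] at hl ⊢
    exact hl.2
  have hz : ∀ l ∈ univ.filter (fun l => h l = b), l ∉ U.filter (fun l => h l = b) → d l = 0 := by
    intro l hl hl'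
    simp only [Finset.mem_filter, Finset.mem_univ, true_and, not_and] at hl hl'
    exact hd l fun hU => hl' hU hl
  rw [← Finset.sum_subset hsub (f := fun l => d l) hz,
    ← Finset.sum_subset hsub (f := fun l => |d l| ^ p)
      fun l hl hl' => by rw [hz l hl hl', abs_zero, Real.zero_rpow hp.ne']]
  rcases Nat.le_one_iff_eq_zero_or_eq_one.1 (hload b) with h0 | h0
  · rw [Finset.card_eq_zero] at h0
    simp [h0, Real.zero_rpow hp.ne']
  · obtain ⟨x, hx⟩ := Finset.card_eq_one.1 h0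
    simp [hx]

/-- Averaging independent hashes with few collisions. -/
lemma abs_avg_bucket_le {p ε : ℝ} (hp : 1 ≤ p) {Q B R ℓ q : ℕ} (hR : 0 < R) (hℓ : 1 ≤ ℓ)
    (hRq : (q:ℝ) * (ℓ:ℝ) ^ (p - 1) ≤ ε * R) (h : Fin R → Fin Q → Fin B) (U : Finset (Fin Q))
    (hload : ∀ r b, (U.filter fun l => h r l = b).card ≤ ℓ)
    (hfew : ∀ Z : Finset (Fin R), Z.card = q →
      ∃ r ∈ Z, ∀ b, (U.filter fun l => h r l = b).card ≤ 1)
    (d : Fin Q → ℝ) (hd : ∀ l ∉ U, d l = 0) :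
    |(R:ℝ)⁻¹ * ∑ r, bucket p (h r) d - ∑ l, |d l| ^ p| ≤ ε * ∑ l, |d l| ^ p := by
  classical
  have hp0 : 0 < p := by linarith
  set T : ℝ := ∑ l, |d l| ^ p with hT
  have hT0 : 0 ≤ T := Finset.sum_nonneg fun l _ => Real.rpow_nonneg (abs_nonneg _) _
  have hRR : (0:ℝ) < R := by exact_mod_cast hR
  set Z : Finset (Fin R) := univ.filter
    (fun r => ¬ ∀ b, (U.filter fun l => h r l = b).card ≤ 1) with hZ
  have hZq : Z.card < q := by
    by_contra hc
    push Not at hc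
    obtain ⟨Z', hZ', hc'⟩ := Finset.exists_subset_card_eq hc
    obtain ⟨r, hr, hr'⟩ := hfew Z' hc'
    exact (Finset.mem_filter.1 (hZ' hr)).2 hr'
  have hℓ1 : 1 ≤ (ℓ:ℝ) ^ (p - 1) := Real.one_le_rpow (by exact_mod_cast hℓ) (by linarith)
  have hsum : |∑ r, (bucket p (h r) d - T)| ≤ (q:ℝ) * ((ℓ:ℝ) ^ (p - 1) * T) := by
    refine (Finset.abs_sum_le_sum_abs _ _).trans ?_
    calc ∑ r, |bucket p (h r) d - T|
        ≤ ∑ r, (if r ∈ Z then (ℓ:ℝ) ^ (p - 1) * T else 0) := by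
          refine Finset.sum_le_sum fun r _ => ?_
          split_ifs with hr
          · have h1 := bucket_le hp (h r) U (hload r) d hd
            have h2 := bucket_nonneg p (h r) d
            have h3 : T ≤ (ℓ:ℝ) ^ (p - 1) * T := le_mul_of_one_le_left hT0 hℓ1
            exact abs_le.2 ⟨by linarith, by linarith⟩
          · have : ∀ b, (U.filter fun l => h r l = b).card ≤ 1 := by
              simpa [hZ] using hr
            rw [bucket_eq hp0 (h r) U this d hd]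
            simp [hT]
      _ = (Z.card : ℝ) * ((ℓ:ℝ) ^ (p - 1) * T) := by
          rw [← Finset.sum_filter, Finset.sum_const, nsmul_eq_mul]
          simp
      _ ≤ _ := mul_le_mul_of_nonneg_right (by exact_mod_cast hZq.le)
          (mul_nonneg (by linarith) hT0)
  rw [Finset.sum_sub_distrib, Finset.sum_const, Finset.card_univ, Fintype.card_fin,
    nsmul_eq_mul] at hsum
  have e : (R:ℝ)⁻¹ * ∑ r, bucket p (h r) d - T
      = (R:ℝ)⁻¹ * (∑ r, bucket p (h r) d - (R:ℝ) * T) := by field_simp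
  rw [e, abs_mul, abs_inv, Nat.abs_cast, inv_mul_le_iff₀ hRR]
  calc |∑ r, bucket p (h r) d - (R:ℝ) * T| ≤ (q:ℝ) * (ℓ:ℝ) ^ (p - 1) * T := by
        rw [mul_assoc]; exact hsum
    _ ≤ ε * R * T := mul_le_mul_of_nonneg_right hRq hT0
    _ = R * (ε * T) := by ring

/-- Hashes with bounded load and few collisions on all small sets of a family. -/
lemma exists_hashes {n Q B s ℓ q R : ℕ} (hB : 0 < B) (U : Fin n → Fin n → Finset (Fin Q))
    (hU : ∀ i j, (U i j).card ≤ s)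
    (hfail : (n:ℝ) ^ 2 * 2 ^ R * (((s:ℝ) ^ 2 * B * ((B:ℝ)⁻¹) ^ 2) ^ q
      + R * ((s:ℝ) ^ ℓ * B * ((B:ℝ)⁻¹) ^ ℓ)) < 1) :
    ∃ h : Fin R → Fin Q → Fin B, (∀ i j r b, ((U i j).filter fun l => h r l = b).card ≤ ℓ) ∧
      ∀ i j, ∀ Z : Finset (Fin R), Z.card = q →
        ∃ r ∈ Z, ∀ b, ((U i j).filter fun l => h r l = b).card ≤ 1 := by
  classical
  have hBR : (B:ℝ) ≠ 0 := by exact_mod_cast hB.ne'
  set w : (Fin Q → Fin B) → ℝ := fun a => prodW (fun _ => (B:ℝ)⁻¹) a with hw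
  have hw0 : ∀ a, 0 ≤ w a := fun a => prodW_nonneg (fun _ => by positivity) a
  have hw1 : ∑ a, w a = 1 := sum_prodW (by simp [hBR])
  let many : Fin n → Fin n → ℕ → (Fin Q → Fin B) → Prop :=
    fun i j k a => ∃ b, k ≤ ((U i j).filter fun l => a l = b).card
  obtain ⟨h, hh⟩ := exists_good (K := R) w hw0 hw1
    (fun (e : (Fin n × Fin n) × Finset (Fin R)) om =>
      (e.2.card = q ∧ ∀ r ∈ e.2, many e.1.1 e.1.2 2 (om r)) ∨
        ∃ r, many e.1.1 e.1.2 ℓ (om r))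
    (((s:ℝ) ^ 2 * B * ((B:ℝ)⁻¹) ^ 2) ^ q + R * ((s:ℝ) ^ ℓ * B * ((B:ℝ)⁻¹) ^ ℓ))
    (fun e => by
      refine le_trans (le_of_eq (Finset.sum_congr (by ext om; simp) fun _ _ => rfl))
        ((weight_union _ (fun om => prodW_nonneg hw0 om) (univ : Finset (Option (Fin R)))
          (fun om => (e.2.card = q ∧ ∀ r ∈ e.2, many e.1.1 e.1.2 2 (om r)) ∨
            ∃ r, many e.1.1 e.1.2 ℓ (om r)) (fun o om => match o with
            | none => e.2.card = q ∧ ∀ r ∈ e.2, many e.1.1 e.1.2 2 (om r)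
            | some r => many e.1.1 e.1.2 ℓ (om r)) ?_).trans ?_)
      · rintro om (h | ⟨r, hr⟩)
        · exact ⟨none, Finset.mem_univ _, h⟩
        · exact ⟨some r, Finset.mem_univ _, hr⟩
      rw [Fintype.sum_option]
      refine add_le_add ?_ ?_
      · by_cases hq : e.2.card = q
        · refine le_trans (le_of_eq ?_) (pow_le_pow_left₀
            (Finset.sum_nonneg fun a _ => hw0 a)
            (weight_load (ℓ := 2) hB (U e.1.1 e.1.2) (hU _ _)) q)
          refine Eq.trans ?_ ((sum_prodW_forall w hw1 e.2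
            (fun a => ∃ b, 2 ≤ ((U e.1.1 e.1.2).filter fun l => a l = b).card)).trans (by rw [hq]))
          refine Finset.sum_congr ?_ fun _ _ => rfl
          ext om; simp [many, hq]
        · refine le_trans (le_of_eq (Finset.sum_eq_zero ?_)) (by positivity)
          intro om hom
          simp [hq] at hom
      · refine (Finset.sum_le_sum (g := fun _ : Fin R => (s:ℝ) ^ ℓ * B * ((B:ℝ)⁻¹) ^ ℓ)
          fun r _ => ?_).trans (by simp)
        refine le_trans (le_of_eq ?_) (weight_load hB (U e.1.1 e.1.2) (hU _ _))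
        refine Eq.trans ?_ ((sum_prodW_forall w hw1 {r}
          (fun a => ∃ b, ℓ ≤ ((U e.1.1 e.1.2).filter fun l => a l = b).card)).trans (by simp [hw]))
        refine Finset.sum_congr ?_ fun _ _ => rfl
        ext om; simp [many])
    (by
      simp only [Fintype.card_prod, Fintype.card_fin, Fintype.card_finset]
      push_cast
      linarith [hfail])
  refine ⟨h, fun i j r b => ?_, fun i j Z hZ => ?_⟩
  · by_contra hc
    exact hh ((i, j), ∅) (Or.inr ⟨r, b, (Nat.not_le.1 hc).le⟩)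
  · by_contra hc
    push Not at hc
    exact hh ((i, j), Z) (Or.inl ⟨hZ, fun r hr => by
      obtain ⟨b, hb⟩ := hc r hr
      exact ⟨b, hb⟩⟩)

end Vale.Agent.P249.Full.SparseHash

namespace Vale.Agent.P249.Full

open Finset SparseHash

theorem sparse_hash {p : ℝ} (hp : 1 < p) : SparseHashStmt p := by
  intro ε hε _ a ha _
  obtain ⟨q, hq⟩ : ∃ q : ℕ, q = ⌈3 / a⌉₊ := ⟨_, rfl⟩
  have hqa : (3:ℝ) ≤ a * q := by
    have : 3 / a ≤ (q:ℝ) := hq ▸ Nat.le_ceil _
    calc (3:ℝ) = a * (3 / a) := by field_simp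
      _ ≤ a * q := mul_le_mul_of_nonneg_left this ha.le
  have hq1 : 1 ≤ q := by
    rcases Nat.eq_zero_or_pos q with h | h
    · simp [h] at hqa; linarith
    · exact h
  obtain ⟨ℓ, hℓ⟩ : ∃ ℓ : ℕ, ℓ = q + 1 := ⟨_, rfl⟩
  obtain ⟨R, hR⟩ : ∃ R : ℕ, R = ⌈(q:ℝ) * (ℓ:ℝ) ^ (p - 1) / ε⌉₊ + 1 := ⟨_, rfl⟩
  have hR0 : 0 < R := by omega
  have hRq : (q:ℝ) * (ℓ:ℝ) ^ (p - 1) ≤ ε * R := by
    have h1 := Nat.le_ceil ((q:ℝ) * (ℓ:ℝ) ^ (p - 1) / ε)
    rw [div_le_iff₀ hε] at h1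
    have h2 : (⌈(q:ℝ) * (ℓ:ℝ) ^ (p - 1) / ε⌉₊ : ℝ) ≤ R := by exact_mod_cast (by omega)
    nlinarith [mul_le_mul_of_nonneg_left h2 hε.le]
  refine ⟨R, 2 ^ R * (4 ^ q + R * 2 ^ ℓ) + 1, fun n hn Q S hS _ Y hY => ?_⟩
  obtain ⟨B, hBdef⟩ : ∃ B : ℕ, B = ⌈(S:ℝ) ^ 2 * (n:ℝ) ^ a⌉₊ := ⟨_, rfl⟩
  rw [← hBdef]
  have hn0 : (0:ℝ) < n := by exact_mod_cast (by omega : 0 < n)
  have hn1 : (1:ℝ) ≤ n := by exact_mod_cast (by omega : 1 ≤ n)
  have hS1 : (1:ℝ) ≤ S := by exact_mod_cast hS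
  set M : ℝ := (n:ℝ) ^ a with hM
  have hM0 : 0 < M := Real.rpow_pos_of_pos hn0 a
  have hBM : (S:ℝ) ^ 2 * M ≤ B := hBdef ▸ Nat.le_ceil _
  have hBR : (0:ℝ) < B := lt_of_lt_of_le (by positivity) hBM
  have hB : 0 < B := by exact_mod_cast hBR
  have hMq : (n:ℝ) ^ 3 ≤ M ^ q := by
    rw [hM, ← Real.rpow_natCast ((n:ℝ) ^ a) q, ← Real.rpow_mul hn0.le,
      ← Real.rpow_natCast (n:ℝ) 3]
    exact Real.rpow_le_rpow_of_exponent_le hn1 (by exact_mod_cast hqa)
  have hx : ∀ k : ℕ, ((2 * S : ℕ) : ℝ) ^ (k + 2) * B * ((B:ℝ)⁻¹) ^ (k + 2)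
      ≤ 2 ^ (k + 2) / M ^ (k + 1) := by
    intro k
    have e : ((2 * S : ℕ) : ℝ) ^ (k + 2) * B * ((B:ℝ)⁻¹) ^ (k + 2)
        = 2 ^ (k + 2) * (S:ℝ) ^ (k + 2) / (B:ℝ) ^ (k + 1) := by
      push_cast
      rw [inv_pow, pow_succ' (B:ℝ) (k + 1), mul_pow]
      field_simp
    rw [e]
    have h1 : (S:ℝ) ^ (k + 2) * M ^ (k + 1) ≤ (B:ℝ) ^ (k + 1) := by
      calc (S:ℝ) ^ (k + 2) * M ^ (k + 1) ≤ (S:ℝ) ^ (2 * (k + 1)) * M ^ (k + 1) :=
            mul_le_mul_of_nonneg_right (pow_le_pow_right₀ hS1 (by omega)) (by positivity)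
        _ = ((S:ℝ) ^ 2 * M) ^ (k + 1) := by rw [mul_pow, ← pow_mul]
        _ ≤ _ := pow_le_pow_left₀ (by positivity) hBM _
    rw [div_le_div_iff₀ (by positivity) (by positivity), mul_assoc]
    exact mul_le_mul_of_nonneg_left h1 (by positivity)
  have hfail : (n:ℝ) ^ 2 * 2 ^ R * ((((2 * S : ℕ) : ℝ) ^ 2 * B * ((B:ℝ)⁻¹) ^ 2) ^ q
      + R * (((2 * S : ℕ) : ℝ) ^ ℓ * B * ((B:ℝ)⁻¹) ^ ℓ)) < 1 := by
    have h2 : (((2 * S : ℕ) : ℝ) ^ 2 * B * ((B:ℝ)⁻¹) ^ 2) ^ q ≤ 4 ^ q / (n:ℝ) ^ 3 := by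
      refine (pow_le_pow_left₀ (by positivity) (hx 0) q).trans ?_
      rw [div_pow, show ((2:ℝ) ^ (0 + 2)) = 4 by norm_num, zero_add, pow_one]
      exact div_le_div_of_nonneg_left (by positivity) (by positivity) hMq
    have h3 : ((2 * S : ℕ) : ℝ) ^ ℓ * B * ((B:ℝ)⁻¹) ^ ℓ ≤ 2 ^ ℓ / (n:ℝ) ^ 3 := by
      have := hx (q - 1)
      rw [show q - 1 + 2 = ℓ by omega, show q - 1 + 1 = q by omega] at this
      exact this.trans (div_le_div_of_nonneg_left (by positivity) (by positivity) hMq)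
    have h4 : (2:ℝ) ^ R * (4 ^ q + R * 2 ^ ℓ) < n := by
      exact_mod_cast (by omega : 2 ^ R * (4 ^ q + R * 2 ^ ℓ) < n)
    calc _ ≤ (n:ℝ) ^ 2 * 2 ^ R * (4 ^ q / (n:ℝ) ^ 3 + R * (2 ^ ℓ / (n:ℝ) ^ 3)) := by gcongr
      _ = 2 ^ R * (4 ^ q + R * 2 ^ ℓ) / n := by field_simp
      _ < 1 := by rw [div_lt_one hn0]; exact h4
  classical
  set U : Fin n → Fin n → Finset (Fin Q) := fun i j =>
    univ.filter (fun k => Y i k ≠ 0) ∪ univ.filter (fun k => Y j k ≠ 0) with hU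
  have hUc : ∀ i j, (U i j).card ≤ 2 * S := fun i j =>
    (Finset.card_union_le _ _).trans (by linarith [hY i, hY j])
  obtain ⟨h, hload, hfew⟩ := exists_hashes (q := q) (ℓ := ℓ) hB U hUc hfail
  set Φ : Fin n → Fin (R * B) → ℝ := fun i x => ((R:ℝ)⁻¹) ^ (1 / p) *
    ∑ l ∈ univ.filter (fun l => h (finProdFinEquiv.symm x).1 l = (finProdFinEquiv.symm x).2),
      Y i l with hΦ
  have hdist : ∀ (d : Fin Q → ℝ),
      (∑ x : Fin (R * B), |((R:ℝ)⁻¹) ^ (1 / p) * ∑ l ∈ univ.filter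
        (fun l => h (finProdFinEquiv.symm x).1 l = (finProdFinEquiv.symm x).2), d l| ^ p)
      = (R:ℝ)⁻¹ * ∑ r, bucket p (h r) d := by
    intro d
    rw [← Equiv.sum_comp finProdFinEquiv, Fintype.sum_prod_type, Finset.mul_sum]
    refine Finset.sum_congr rfl fun r _ => ?_
    rw [bucket, Finset.mul_sum]
    refine Finset.sum_congr rfl fun b _ => ?_
    have h0 : (0:ℝ) ≤ (R:ℝ)⁻¹ := by positivity
    rw [Equiv.symm_apply_apply, abs_mul, Real.mul_rpow (abs_nonneg _) (abs_nonneg _),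
      abs_of_nonneg (Real.rpow_nonneg h0 _), ← Real.rpow_mul h0,
      one_div_mul_cancel (by linarith : p ≠ 0), Real.rpow_one]
  have main : ∀ i j (d : Fin Q → ℝ), (∀ l ∉ U i j, d l = 0) →
      |(R:ℝ)⁻¹ * ∑ r, bucket p (h r) d - ∑ l, |d l| ^ p| ≤ ε * ∑ l, |d l| ^ p :=
    fun i j d hd => abs_avg_bucket_le hp.le hR0 (by omega) hRq h (U i j)
      (hload i j) (hfew i j) d hd
  refine ⟨Φ, fun i hi => ?_, fun i j => ?_, fun i => ?_⟩
  · funext x
    simp [hΦ, hi]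
  · have h1 := main i j (fun l => Y i l - Y j l) (fun l hl => by
      simp only [hU, Finset.mem_union, Finset.mem_filter, Finset.mem_univ, true_and, not_or,
        not_not] at hl
      simp [hl.1, hl.2])
    rw [← hdist] at h1
    simpa [powDist, hΦ, Finset.sum_sub_distrib, mul_sub] using h1
  · have h1 := main i i (fun l => Y i l) (fun l hl => by
      simp only [hU, Finset.mem_union, Finset.mem_filter, Finset.mem_univ, true_and, not_or,
        not_not] at hl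
      exact hl.1)
    rw [← hdist] at h1
    simpa [powDist, hΦ] using h1

end Vale.Agent.P249.Full
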