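import Mathlib
import Vale.Agent.P249.Full.SplitEnv
import Vale.Agent.P249.Full.Spec
import Vale.Agent.P249.NearLinear

/-! Building the environment of the split. -/

namespace Vale.Agent.P249.Full

open Finset

/-- Sensitivities of a small set of centres. -/
lemma centre_sens {p : ℝ} (hp : 1 ≤ p) {n N : ℕ} (X : Fin n → Fin N → ℝ)
    (hX : Function.Injective X) (Cs : Finset (Fin n)) :
    ∃ s : Fin N → ℝ, (∀ k, 0 ≤ s k) ∧
      (∀ k, ∀ c ∈ Cs, ∀ c' ∈ Cs, |X c k - X c' k| ≤ s k * lpD p X c c') ∧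
      ∑ k, s k ^ p ≤ (4 * logL n) ^ p * (6 * (Cs.card : ℝ)) := by
  classical
  have hp0 : 0 < p := by linarith
  have hL := one_le_logL n
  rcases le_or_gt Cs.card 1 with h1 | h2
  · refine ⟨fun _ => 0, fun _ => le_rfl, fun k c hc c' hc' => ?_, ?_⟩
    · rw [Finset.card_le_one.1 h1 c hc c' hc']
      simp
    · simp only [Real.zero_rpow hp0.ne', Finset.sum_const_zero]
      positivity
  · let e := Cs.equivFin.symm
    obtain ⟨σ, hσ0, hσs, hσ⟩ := exists_sensitivity hp h2 (fun j => X (e j))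
      (fun a b h => e.injective (Subtype.ext (hX h)))
    refine ⟨fun k => σ k ^ (1 / p), fun k => Real.rpow_nonneg (hσ0 k) _,
      fun k c hc c' hc' => ?_, ?_⟩
    · have h := hσ (Cs.equivFin ⟨c, hc⟩) (Cs.equivFin ⟨c', hc'⟩) k
      simp only [e, Equiv.symm_apply_apply] at h
      refine (Real.rpow_le_rpow_iff (abs_nonneg _) (mul_nonneg (Real.rpow_nonneg (hσ0 k) _)
        (lpD_nonneg _ _ _ _)) hp0).1 ?_
      rw [Real.mul_rpow (Real.rpow_nonneg (hσ0 k) _) (lpD_nonneg _ _ _ _), lpD_rpow hp0,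
        ← Real.rpow_mul (hσ0 k), one_div_mul_cancel hp0.ne', Real.rpow_one]
      exact h
    · have he : ∀ k, (σ k ^ (1 / p)) ^ p = σ k := fun k => by
        rw [← Real.rpow_mul (hσ0 k), one_div_mul_cancel hp0.ne', Real.rpow_one]
      simp only [he]
      refine hσs.trans (mul_le_mul_of_nonneg_right ?_ (by positivity))
      have hc : Real.log (Cs.card : ℝ) ≤ Real.log n := by
        refine Real.log_le_log (by exact_mod_cast (by omega : 0 < Cs.card)) ?_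
        exact_mod_cast (Finset.card_le_univ Cs).trans (le_of_eq (Fintype.card_fin n))
      have hc0 := Real.log_natCast_nonneg Cs.card
      have hn0 := Real.log_natCast_nonneg n
      exact Real.rpow_le_rpow (by positivity) (by unfold logL; linarith) hp0.le

/-- The scales from `base` to `base + T` cover everything relevant. -/
lemma exists_scales {p : ℝ} {n N : ℕ} (hn : 0 < n) (X : Fin n → Fin N → ℝ) (ρ : Fin n → ℝ)
    (hρ : ∀ y, 0 < ρ y) (B : ℕ) :
    ∃ (base : ℤ) (T : ℕ), (∀ y, 8 * (2:ℝ) ^ base * 2 ^ B ≤ ρ y) ∧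
      (∀ y, 128 * ρ y ≤ (2:ℝ) ^ (base + T)) ∧
      ∀ y y', lpD p X y y' ≤ (2:ℝ) ^ (base + T) := by
  classical
  haveI : Nonempty (Fin n) := ⟨⟨0, hn⟩⟩
  obtain ⟨y0, -, hy0⟩ := Finset.exists_min_image univ ρ Finset.univ_nonempty
  obtain ⟨base, hb, -⟩ := exists_mem_Ico_zpow (x := ρ y0 / (8 * 2 ^ B))
    (div_pos (hρ y0) (by positivity)) (one_lt_two : (1:ℝ) < 2)
  obtain ⟨big, hbig⟩ : ∃ b : ℝ, b = ∑ y, 128 * ρ y + ∑ y, ∑ y', lpD p X y y' := ⟨_, rfl⟩
  have h2 : (0:ℝ) < (2:ℝ) ^ base := zpow_pos two_pos _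
  obtain ⟨T, hT⟩ := pow_unbounded_of_one_lt (big / (2:ℝ) ^ base) (one_lt_two : (1:ℝ) < 2)
  rw [div_lt_iff₀ h2] at hT
  have hTz : (2:ℝ) ^ (base + T) = 2 ^ T * (2:ℝ) ^ base := by
    rw [zpow_add₀ two_ne_zero, zpow_natCast, mul_comm]
  have hρs : 0 ≤ ∑ y, 128 * ρ y := Finset.sum_nonneg fun y _ => by linarith [hρ y]
  have hds : 0 ≤ ∑ y, ∑ y', lpD p X y y' :=
    Finset.sum_nonneg fun y _ => Finset.sum_nonneg fun y' _ => lpD_nonneg _ _ _ _
  refine ⟨base, T, fun y => ?_, fun y => ?_, fun y y' => ?_⟩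
  · rw [le_div_iff₀ (by positivity)] at hb
    exact le_trans (le_of_eq (by ring)) (hb.trans (hy0 y (Finset.mem_univ y)))
  · have := Finset.single_le_sum (f := fun y => 128 * ρ y) (fun y _ => by linarith [hρ y])
      (Finset.mem_univ y)
    rw [hTz]; linarith
  · have h1 := Finset.single_le_sum (f := fun y' => lpD p X y y')
      (fun y' _ => lpD_nonneg _ _ _ _) (Finset.mem_univ y')
    have h2 := Finset.single_le_sum (f := fun y => ∑ y', lpD p X y y')
      (fun y _ => Finset.sum_nonneg fun y' _ => lpD_nonneg _ _ _ _) (Finset.mem_univ y)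
    rw [hTz]; linarith

/-- Environments exist, with `β = Cb (log n + 1) ^ ϑ`. -/
theorem exists_env {p : ℝ} (hp : 1 ≤ p) (hK : KernelStmt p) (hH : HybridStmt) (hCe : CentresStmt)
    (hSt : StarStmt) :
    ∃ ϑ Cb Cx : ℝ, 1 / 2 ≤ ϑ ∧ ϑ < 1 ∧ 1 ≤ Cb ∧ 1 ≤ Cx ∧
      ∀ n m : ℕ, 2 ≤ m → m ≤ n → ∀ (B N : ℕ) (X : Fin n → Fin N → ℝ), Function.Injective X →
        ∃ V : SplitEnv p Cx n N, V.X = X ∧ V.B = B ∧ V.β = Cb * logL n ^ ϑ ∧
          (∀ y R, R < V.ρ y → (ballF (lpD p X) y R).card ≤ m) ∧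
          ∑ k, V.s k ^ p ≤ (4 * logL n) ^ p * (6 * ((n:ℝ) / m)) := by
  obtain ⟨ϑ, Ck, hϑ, hϑ1, hCk, hK⟩ := hK
  obtain ⟨Ch, hCh, hH⟩ := hH
  obtain ⟨Cst, hCst, hSt⟩ := hSt
  obtain ⟨Cw, hCw⟩ : ∃ Cw, Cw = max Ch 1 := ⟨_, rfl⟩
  have hCw1 : 1 ≤ Cw := hCw ▸ le_max_right _ _
  obtain ⟨Cb, hCb⟩ : ∃ Cb, Cb = max Ck 1 := ⟨_, rfl⟩
  have hCb1 : 1 ≤ Cb := hCb ▸ le_max_right _ _
  refine ⟨ϑ, Cb, Cst * Cw, hϑ, hϑ1, hCb1, one_le_mul_of_one_le_of_one_le hCst hCw1,
    fun n m hm hmn B N X hX => ?_⟩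
  have ht := fmetric_lpD hp hX
  obtain ⟨β, hβ⟩ : ∃ β, β = Cb * logL n ^ ϑ := ⟨_, rfl⟩
  have hLϑ : 1 ≤ logL n ^ ϑ := Real.one_le_rpow (one_le_logL n) (by linarith)
  have hβ1 : 1 ≤ β := hβ ▸ one_le_mul_of_one_le_of_one_le hCb1 hLϑ
  have hβ2 : Real.log n ≤ β ^ 2 := by
    have h1 : logL n ≤ logL n ^ (2 * ϑ) := Real.self_le_rpow_of_one_le (one_le_logL n) (by linarith)
    have h2 : logL n ^ ϑ ≤ β := hβ ▸ le_mul_of_one_le_left (by linarith) hCb1
    rw [mul_comm 2 ϑ, Real.rpow_mul (logL_pos n).le, Real.rpow_two] at h1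
    have h3 := pow_le_pow_left₀ (by linarith) h2 2
    unfold logL at *
    linarith
  obtain ⟨w, hw1, hw2, hw3⟩ := hH n (lpD p X) ht β hβ1 hβ2 fun r hr => by
    obtain ⟨P, h1, h2, h3⟩ := hK n (by omega) N X hX r hr
    refine ⟨P, h1, h2, fun y y' => (h3 y y').trans ?_⟩
    refine mul_le_mul_of_nonneg_right ?_ (div_nonneg (lpD_nonneg _ _ _ _) hr.le)
    rw [hβ]
    exact mul_le_mul_of_nonneg_right (hCb ▸ le_max_left _ _) (by linarith)
  obtain ⟨ρ, Cs, cm, hρ, hρlip, hball, hcard, hcm⟩ := hCe n (lpD p X) ht m hm hmn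
  obtain ⟨ws, hs1, hs2, hs3, hs4⟩ := hSt n (lpD p X) ht ρ Cs cm hρ hρlip
    (fun y => ⟨(hcm y).1, (hcm y).2.2⟩) β Cw w (by linarith) hCw1 hw1 hw2 fun i y y' => by
      refine (hw3 i y y').trans ?_
      refine mul_le_mul_of_nonneg_right ?_ (div_nonneg (lpD_nonneg _ _ _ _) (zpow_pos two_pos _).le)
      exact mul_le_mul_of_nonneg_right (hCw ▸ le_max_left _ _)
        (le_trans zero_le_one (one_le_nuG _ (by linarith) _ _ _))
  obtain ⟨s, hs0, hsens, hssum⟩ := centre_sens hp X hX Cs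
  obtain ⟨base, T, hb, hT, hTt⟩ := exists_scales (p := p) (show 0 < n by omega) X ρ hρ B
  have hC : Cst ≤ Cst * Cw := le_mul_of_one_le_right (by linarith) hCw1
  refine ⟨{ X := X, ρ := ρ, Cs := Cs, W := fun i => ws (base + i), s := s, base := base, T := T,
            B := B, β := β, injX := hX, one_le_p := hp,
            one_le_Cx := one_le_mul_of_one_le_of_one_le hCst hCw1, one_le_β := hβ1,
            ρ_pos := hρ, ρ_lip := hρlip, s_nonneg := hs0, sens := hsens,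
            isW := fun i y => hs1 _ y,
            supp := fun i y z hz => ((hs2 _ y z hz).1).trans
              (mul_le_mul_of_nonneg_right hC (zpow_pos two_pos _).le),
            pure := fun i y hi z hz => ⟨((hs2 _ y z hz).2 hi).1, ((hs2 _ y z hz).2 hi).2.trans
              (mul_le_mul_of_nonneg_right hC (hρ y).le)⟩,
            stable := fun i j y hi hj => hs3 _ _ y hi hj,
            tv_le := fun i y y' hi => hs4 _ y y' hi,
            base_le := hb, top_ρ := hT, top_t := hTt }, rfl, rfl, hβ, hball, ?_⟩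
  refine hssum.trans (mul_le_mul_of_nonneg_left ?_ (Real.rpow_nonneg (by linarith [logL_pos n]) _))
  refine mul_le_mul_of_nonneg_left ?_ (by norm_num)
  rw [le_div_iff₀ (by exact_mod_cast (by omega : 0 < m))]
  exact_mod_cast hcard

end Vale.Agent.P249.Full
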