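import Mathlib
import Vale.Agent.P249.Full.SplitAux
import Vale.Agent.P249.Full.Final

/-! The split theorem from its parts. -/

namespace Vale.Agent.P249.Full

open Finset

variable {p Cx : ℝ} {n N : ℕ}

/-- The flat part: window averages of the level functions. -/
noncomputable def flatPart (V : SplitEnv p Cx n N) (L J1 : ℕ) (y : Fin n) (q : Fin (N * J1)) : ℝ :=
  ((J1:ℝ)⁻¹) ^ (1 / p)
    * winAvg L (fun l => V.levelVal (finProdFinEquiv.symm q).1 l y) (finProdFinEquiv.symm q).2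

/-- The local part: the remainder. -/
noncomputable def localPart (V : SplitEnv p Cx n N) (L J1 : ℕ) (y : Fin n) (q : Fin (N * J1)) : ℝ :=
  ((J1:ℝ)⁻¹) ^ (1 / p) * (V.X y (finProdFinEquiv.symm q).1
    - winAvg L (fun l => V.levelVal (finProdFinEquiv.symm q).1 l y) (finProdFinEquiv.symm q).2)

/-- The bound of the sensitivity of the flat part. -/
noncomputable def flatSens (V : SplitEnv p Cx n N) (K : ℝ) (L J1 : ℕ) (q : Fin (N * J1)) : ℝ :=
  (J1:ℝ)⁻¹ * (K * ((4 * Cx + 1) * 2 ^ (((finProdFinEquiv.symm q).2 : ℕ) + L))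
    * V.s (finProdFinEquiv.symm q).1) ^ p

lemma sum_fin_prod (J1 : ℕ) (g : Fin N → ℕ → ℝ) :
    ∑ q : Fin (N * J1), g (finProdFinEquiv.symm q).1 ((finProdFinEquiv.symm q).2 : ℕ)
      = ∑ l ∈ range J1, ∑ k, g k l := by
  rw [Equiv.sum_comp finProdFinEquiv.symm (fun a : Fin N × Fin J1 => g a.1 (a.2 : ℕ)),
    Fintype.sum_prod_type, Finset.sum_comm, ← Fin.sum_univ_eq_sum_range]

lemma winAvg_sub (L : ℕ) (a b : ℕ → ℝ) (l : ℕ) :
    winAvg L a l - winAvg L b l = winAvg L (fun i => a i - b i) l := by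
  simp [winAvg, Finset.sum_sub_distrib, sub_div]

lemma winAvg_abs_le {L : ℕ} {a : ℕ → ℝ} {l : ℕ} {K : ℝ} (hK : 0 ≤ K)
    (h : ∀ i ∈ Ico l (l + L), |a i| ≤ K) : |winAvg L a l| ≤ K := by
  rw [winAvg, abs_div, Nat.abs_cast]
  rcases Nat.eq_zero_or_pos L with h0 | h0
  · simp [h0, hK]
  rw [div_le_iff₀ (by exact_mod_cast h0)]
  refine (Finset.abs_sum_le_sum_abs _ _).trans ((Finset.sum_le_sum h).trans (le_of_eq ?_))
  simp [mul_comm]

lemma scale_rpow {J1 : ℕ} (hp : 0 < p) (x : ℝ) :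
    |((J1:ℝ)⁻¹) ^ (1 / p) * x| ^ p = (J1:ℝ)⁻¹ * |x| ^ p := by
  have h : (0:ℝ) ≤ (J1:ℝ)⁻¹ := by positivity
  rw [abs_mul, Real.mul_rpow (abs_nonneg _) (abs_nonneg _),
    abs_of_nonneg (Real.rpow_nonneg h _), ← Real.rpow_mul h, one_div_mul_cancel hp.ne', Real.rpow_one]

/-- The two parts add up to the windowed functional. -/
lemma parts_eq (V : SplitEnv p Cx n N) (hp : 0 < p) (L J1 : ℕ) (y y' : Fin n) :
    powDist p (flatPart V L J1 y) (flatPart V L J1 y')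
      + powDist p (localPart V L J1 y) (localPart V L J1 y')
    = (∑ l ∈ range J1, ∑ k, (|winAvg L (fun i => V.levelVal k i y - V.levelVal k i y') l| ^ p
        + |(V.X y k - V.X y' k) - winAvg L (fun i => V.levelVal k i y - V.levelVal k i y') l| ^ p))
      / J1 := by
  rw [powDist, powDist, ← Finset.sum_add_distrib]
  have h : ∀ q : Fin (N * J1), |flatPart V L J1 y q - flatPart V L J1 y' q| ^ p
      + |localPart V L J1 y q - localPart V L J1 y' q| ^ p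
      = (fun k l => (J1:ℝ)⁻¹ *
          (|winAvg L (fun i => V.levelVal k i y - V.levelVal k i y') l| ^ p
          + |(V.X y k - V.X y' k) - winAvg L (fun i => V.levelVal k i y - V.levelVal k i y') l| ^ p))
        (finProdFinEquiv.symm q).1 ((finProdFinEquiv.symm q).2 : ℕ) := by
    intro q
    simp only [flatPart, localPart, ← mul_sub, scale_rpow hp]
    rw [winAvg_sub, sub_sub_sub_comm, winAvg_sub, mul_add]
  refine (Finset.sum_congr rfl fun q _ => h q).trans ((sum_fin_prod J1 fun k l => (J1:ℝ)⁻¹ *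
    (|winAvg L (fun i => V.levelVal k i y - V.levelVal k i y') l| ^ p
      + |(V.X y k - V.X y' k) - winAvg L (fun i => V.levelVal k i y - V.levelVal k i y') l| ^ p)).trans ?_)
  rw [div_eq_inv_mul]
  simp only [← Finset.mul_sum]

/-- The sensitivity of the flat part. -/
lemma flat_sens (V : SplitEnv p Cx n N) (hp : 0 < p) {K : ℝ} (hK : 0 ≤ K) (hCx : 0 ≤ Cx) {L J1 : ℕ}
    (h : ∀ k l y y', |V.levelVal k l y - V.levelVal k l y'|
      ≤ K * ((4 * Cx + 1) * 2 ^ l) * V.s k * lpD p V.X y y')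
    (y y' : Fin n) (q : Fin (N * J1)) :
    |flatPart V L J1 y q - flatPart V L J1 y' q| ^ p
      ≤ flatSens V K L J1 q * powDist p (V.X y) (V.X y') := by
  set k := (finProdFinEquiv.symm q).1
  set lo := ((finProdFinEquiv.symm q).2 : ℕ)
  have hs := V.s_nonneg k
  have ht := lpD_nonneg p V.X y y'
  have hb : |winAvg L (fun i => V.levelVal k i y - V.levelVal k i y') lo|
      ≤ K * ((4 * Cx + 1) * 2 ^ (lo + L)) * V.s k * lpD p V.X y y' := by
    refine winAvg_abs_le (by positivity) fun i hi => (h k i y y').trans ?_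
    have h1 : (2:ℝ) ^ i ≤ 2 ^ (lo + L) :=
      pow_le_pow_right₀ (by norm_num) (Finset.mem_Ico.1 hi).2.le
    gcongr
  simp only [flatPart, ← mul_sub, scale_rpow hp, winAvg_sub]
  rw [flatSens, mul_assoc, ← lpD_rpow hp, ← Real.mul_rpow (by positivity) ht]
  exact mul_le_mul_of_nonneg_left (Real.rpow_le_rpow (abs_nonneg _) hb hp.le) (by positivity)

/-- The total sensitivity of the flat part. -/
lemma flat_sens_sum (V : SplitEnv p Cx n N) (hp : 0 < p) {K : ℝ} (hK : 0 ≤ K) (hCx : 0 ≤ Cx)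
    {L J J1 : ℕ} (hJ1 : 0 < J1) (hLJ : ∀ lo < J1, lo + L ≤ J) :
    ∑ q, flatSens V K L J1 q ≤ (K * (4 * Cx + 1)) ^ p * ((2:ℝ) ^ J) ^ p * ∑ k, V.s k ^ p := by
  unfold flatSens
  rw [sum_fin_prod J1 (fun k lo => (J1:ℝ)⁻¹ * (K * ((4 * Cx + 1) * 2 ^ (lo + L)) * V.s k) ^ p)]
  calc ∑ lo ∈ range J1, ∑ k, (J1:ℝ)⁻¹ * (K * ((4 * Cx + 1) * 2 ^ (lo + L)) * V.s k) ^ p
      ≤ ∑ _lo ∈ range J1, (J1:ℝ)⁻¹ * ((K * (4 * Cx + 1)) ^ p * ((2:ℝ) ^ J) ^ p * ∑ k, V.s k ^ p) := by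
        refine Finset.sum_le_sum fun lo hlo => ?_
        rw [← Finset.mul_sum, Finset.mul_sum _ _ (_ * _)]
        refine mul_le_mul_of_nonneg_left (Finset.sum_le_sum fun k _ => ?_) (by positivity)
        rw [← Real.mul_rpow (by positivity) (by positivity),
          ← Real.mul_rpow (by positivity) (V.s_nonneg k), ← mul_assoc]
        have h1 : (2:ℝ) ^ (lo + L) ≤ 2 ^ J :=
          pow_le_pow_right₀ (by norm_num) (hLJ lo (Finset.mem_range.1 hlo))
        refine Real.rpow_le_rpow (mul_nonneg (by positivity) (V.s_nonneg k)) ?_ hp.le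
        exact mul_le_mul_of_nonneg_right (mul_le_mul_of_nonneg_left h1 (by positivity)) (V.s_nonneg k)
    _ = _ := by
        rw [Finset.sum_const, Finset.card_range, nsmul_eq_mul, ← mul_assoc (J1:ℝ),
          mul_inv_cancel₀ (by exact_mod_cast hJ1.ne'), one_mul]

/-- The local part has norm at most a multiple of the radius. -/
lemma local_norm (V : SplitEnv p Cx n N) (hp : 1 ≤ p) {Cn : ℝ} (hCn : 0 ≤ Cn) {L J1 : ℕ} (hL : 0 < L)
    (hJ1 : 0 < J1) (h : ∀ l y, lpN p (fun k => V.X y k - V.levelVal k l y) ≤ Cn * V.ρ y)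
    (y : Fin n) : lpN p (localPart V L J1 y) ≤ Cn * V.ρ y := by
  have hp0 : 0 < p := by linarith
  have hρ := (V.ρ_pos y).le
  have hLR : (0:ℝ) < L := by exact_mod_cast hL
  rw [lpN_le_iff hp0 _ (by positivity)]
  have h1 : ∀ q, |localPart V L J1 y q| ^ p = (fun k lo => (J1:ℝ)⁻¹ *
      |V.X y k - winAvg L (fun i => V.levelVal k i y) lo| ^ p)
        (finProdFinEquiv.symm q).1 ((finProdFinEquiv.symm q).2 : ℕ) := fun q => by
    simp only [localPart, scale_rpow hp0]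
  rw [Finset.sum_congr rfl fun q _ => h1 q, sum_fin_prod J1 (fun k lo => (J1:ℝ)⁻¹ *
      |V.X y k - winAvg L (fun i => V.levelVal k i y) lo| ^ p)]
  calc ∑ lo ∈ range J1, ∑ k, (J1:ℝ)⁻¹ * |V.X y k - winAvg L (fun i => V.levelVal k i y) lo| ^ p
      ≤ ∑ _lo ∈ range J1, (J1:ℝ)⁻¹ * (Cn * V.ρ y) ^ p := by
        refine Finset.sum_le_sum fun lo _ => ?_
        rw [← Finset.mul_sum]
        refine mul_le_mul_of_nonneg_left ?_ (by positivity)
        rw [← lpN_le_iff hp0 _ (by positivity)]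
        have he : (fun k => V.X y k - winAvg L (fun i => V.levelVal k i y) lo)
            = fun k => ∑ i ∈ Ico lo (lo + L), (L:ℝ)⁻¹ * (V.X y k - V.levelVal k i y) := by
          funext k
          rw [← Finset.mul_sum, Finset.sum_sub_distrib, winAvg]
          simp only [Finset.sum_const, Nat.card_Ico, add_tsub_cancel_left, nsmul_eq_mul]
          field_simp
        rw [he]
        refine (lpN_sum_mul_le hp _ (fun _ => (L:ℝ)⁻¹) _).trans ?_
        calc ∑ i ∈ Ico lo (lo + L), |(L:ℝ)⁻¹| * lpN p (fun k => V.X y k - V.levelVal k i y)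
            ≤ ∑ _i ∈ Ico lo (lo + L), (L:ℝ)⁻¹ * (Cn * V.ρ y) :=
              Finset.sum_le_sum fun i _ => by
                rw [abs_of_pos (inv_pos.2 hLR)]
                exact mul_le_mul_of_nonneg_left (h i y) (inv_nonneg.2 hLR.le)
          _ = _ := by simp [hLR.ne']
    _ = _ := by simp [hJ1.ne']

/-- `2 ^ J` for the number of levels. -/
lemma two_pow_levels {m J : ℕ} (hp : 0 < p) (hm : 2 ≤ m) (hJ : J = ⌊Real.logb 2 m / (4 * p)⌋₊) :
    ((2:ℝ) ^ J) ^ p ≤ (m:ℝ) ^ ((1:ℝ) / 4) := by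
  have hm1 : (1:ℝ) < m := by exact_mod_cast (by omega : 1 < m)
  have hlb : 0 ≤ Real.logb 2 m := Real.logb_nonneg one_lt_two hm1.le
  have hJle : (J:ℝ) * p ≤ Real.logb 2 m * (1 / 4) := by
    have := Nat.floor_le (div_nonneg hlb (by positivity) : 0 ≤ Real.logb 2 (m:ℝ) / (4 * p))
    rw [← hJ, le_div_iff₀ (by positivity)] at this
    linarith
  rw [← Real.rpow_natCast, ← Real.rpow_mul two_pos.le]
  calc (2:ℝ) ^ ((J:ℝ) * p) ≤ (2:ℝ) ^ (Real.logb 2 m * (1 / 4)) :=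
        Real.rpow_le_rpow_of_exponent_le one_le_two hJle
    _ = _ := by rw [Real.rpow_mul two_pos.le, Real.rpow_logb two_pos (by norm_num) (by linarith)]

/-- The number of windows is at most `log n + 1`. -/
lemma windows_le {m J L : ℕ} (hp : 1 ≤ p) (hm : 2 ≤ m) (hmn : m ≤ n)
    (hJ : J = ⌊Real.logb 2 m / (4 * p)⌋₊) : ((J - L + 1 : ℕ) : ℝ) ≤ logL n := by
  have hm1 : (1:ℝ) ≤ m := by exact_mod_cast (by omega : 1 ≤ m)
  have hlb : 0 ≤ Real.logb 2 m := Real.logb_nonneg one_lt_two hm1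
  have h1 : (J:ℝ) ≤ Real.logb 2 m / (4 * p) := hJ ▸ Nat.floor_le (div_nonneg hlb (by positivity))
  have h2 : Real.logb 2 m / (4 * p) ≤ Real.log n := by
    rw [Real.logb, div_div, div_le_iff₀ (by positivity)]
    have hl := Real.log_le_log (by linarith) (show (m:ℝ) ≤ n by exact_mod_cast hmn)
    have h4 : 1 ≤ Real.log 2 * (4 * p) := by nlinarith [Real.log_two_gt_d9]
    calc Real.log m ≤ Real.log n * 1 := by linarith
      _ ≤ _ := mul_le_mul_of_nonneg_left h4 (Real.log_natCast_nonneg n)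
  have h3 : ((J - L + 1 : ℕ) : ℝ) ≤ (J:ℝ) + 1 := by exact_mod_cast (by omega : J - L + 1 ≤ J + 1)
  unfold logL
  linarith

/-- The count `∑ σ ≤ n ^ (1 - γ / 4)`. -/
lemma sens_count {m B : ℕ} {γ K Cs Cb CB ϑ G S T2 : ℝ} (hp : 1 ≤ p) (hγ : 0 < γ) (hn : 1 ≤ n)
    (hm : (n:ℝ) ^ γ ≤ m) (hmn : m ≤ n) (hm0 : 0 < m) (hB : (B:ℝ) ≤ CB * Real.log m) (hCB : 1 ≤ CB)
    (hCs : 0 ≤ Cs) (hCb : 0 ≤ Cb) (hG : 0 ≤ G) (hϑ1 : ϑ ≤ 1) (hK : K = Cs * (B + 1) * (Cb * logL n ^ ϑ))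
    (hT : T2 ≤ (m:ℝ) ^ ((1:ℝ) / 4)) (hT0 : 0 ≤ T2)
    (hS : S ≤ (4 * logL n) ^ p * (6 * ((n:ℝ) / m))) (hS0 : 0 ≤ S)
    (hbig : 6 * (4 * (Cs * (2 * CB) * Cb * G)) ^ p * logL n ^ (3 * p) ≤ (n:ℝ) ^ (γ / 2)) :
    (K * G) ^ p * T2 * S ≤ (n:ℝ) ^ (1 - γ / 4) := by
  have hnp : (0:ℝ) < n := by exact_mod_cast (by omega : 0 < n)
  have hmp : (0:ℝ) < m := by exact_mod_cast hm0
  have hL := one_le_logL n
  have hL0 := logL_pos n
  have hlm : Real.log m + 1 ≤ logL n := by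
    have := Real.log_le_log hmp (show (m:ℝ) ≤ n by exact_mod_cast hmn)
    unfold logL; linarith
  have hB1 : (B:ℝ) + 1 ≤ 2 * CB * logL n := by
    have h1 := mul_le_mul_of_nonneg_left hlm (show 0 ≤ CB by linarith)
    nlinarith [Real.log_natCast_nonneg m]
  have hKG : K * G ≤ (Cs * (2 * CB) * Cb * G) * logL n ^ 2 := by
    have hϑ : logL n ^ ϑ ≤ logL n :=
      (Real.rpow_le_rpow_of_exponent_le hL hϑ1).trans_eq (Real.rpow_one _)
    rw [hK]
    calc Cs * (B + 1) * (Cb * logL n ^ ϑ) * G ≤ Cs * (2 * CB * logL n) * (Cb * logL n) * G := by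
          gcongr
      _ = _ := by ring
  have hKG0 : 0 ≤ K * G := by
    rw [hK]; positivity
  have hC0 : 0 ≤ Cs * (2 * CB) * Cb * G := by positivity
  calc (K * G) ^ p * T2 * S
      ≤ ((Cs * (2 * CB) * Cb * G) * logL n ^ 2) ^ p * (m:ℝ) ^ ((1:ℝ) / 4)
          * ((4 * logL n) ^ p * (6 * ((n:ℝ) / m))) :=
        mul_le_mul (mul_le_mul (Real.rpow_le_rpow hKG0 hKG (by linarith)) hT hT0 (by positivity)) hS
          hS0 (by positivity)
    _ = (6 * (4 * (Cs * (2 * CB) * Cb * G)) ^ p * logL n ^ (3 * p))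
          * (n * (m:ℝ) ^ (-(3:ℝ) / 4)) := by
        rw [Real.mul_rpow hC0 (by positivity), Real.mul_rpow (by norm_num) hL0.le,
          Real.mul_rpow (by norm_num : (0:ℝ) ≤ 4) hC0, ← Real.rpow_natCast (logL n) 2,
          ← Real.rpow_mul hL0.le, show 3 * p = (2:ℕ) * p + p by push_cast; ring,
          Real.rpow_add hL0, show -(3:ℝ) / 4 = 1 / 4 - 1 by norm_num, Real.rpow_sub hmp,
          Real.rpow_one]
        ring
    _ ≤ (n:ℝ) ^ (γ / 2) * (n * ((n:ℝ) ^ γ) ^ (-(3:ℝ) / 4)) := by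
        refine mul_le_mul hbig (mul_le_mul_of_nonneg_left ?_ hnp.le) (by positivity) (by positivity)
        exact Real.rpow_le_rpow_of_nonpos (Real.rpow_pos_of_pos hnp _) hm (by norm_num)
    _ = _ := by
        rw [← Real.rpow_mul hnp.le]
        rw [mul_comm (n:ℝ), ← Real.rpow_add_one hnp.ne', ← Real.rpow_add hnp]
        ring_nf

/-- The two estimates at one pair. -/
lemma pair_bounds (hp : 1 < p) (V : SplitEnv p Cx n N) {L J1 : ℕ} {K Cp Cw C0 δ0 δ1 δ e t σ τ Hc ε : ℝ}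
    {i j : Fin n} (hCp : 1 ≤ Cp) (hC0 : max 1 Cw * (2 + Cp) ≤ C0) (hCw : 0 ≤ Cw)
    (ht : 0 < t) (hts : t ≤ σ) (hδ : 0 ≤ δ) (hδt : δ * t ≤ Cp * (δ0 * t + (σ - t)))
    (hδ0 : δ0 = e / (2 * Cp)) (hδpos : 0 < δ0) (hδ01 : δ0 ≤ 1) (he1 : e ≤ 1) (hτ0 : 0 ≤ τ) (hτ1 : τ ≤ 1)
    (hτe : τ ^ (1 / p) ≤ e) (hε : max 1 Cw * (8 * e) ≤ ε) (hδ1 : δ1 ≤ e)
    (hHc : δ1 ^ p * Hc / J1 ≤ e)
    (hmid : ((L:ℝ) + Real.logb 2 (K / δ1 ^ 2) + 3) / J1 ≤ 3 * e) {F : ℝ}
    (hFeq : F = powDist p (flatPart V L J1 i) (flatPart V L J1 j)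
      + powDist p (localPart V L J1 i) (localPart V L J1 j))
    (hF1 : F ≤ Cw * (t * (1 + δ + τ ^ (1 / p))) ^ p)
    (hF2 : δ ≤ 1 → τ ≤ 1 → |F - t ^ p| ≤ Cw * (δ + δ1 + τ ^ (1 / p) + δ1 ^ p * Hc / J1
      + ((L:ℝ) + Real.logb 2 (K / δ1 ^ 2) + 3) / J1) * t ^ p) :
    powDist p (flatPart V L J1 i) (flatPart V L J1 j)
      + powDist p (localPart V L J1 i) (localPart V L J1 j) ≤ (C0 * σ) ^ p ∧
    (1 / δ0 * (σ - t) ≤ t →
      |powDist p (flatPart V L J1 i) (flatPart V L J1 j)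
        + powDist p (localPart V L J1 i) (localPart V L J1 j) - t ^ p| ≤ ε * t ^ p) := by
  have hp0 : 0 < p := by linarith
  have hw := le_max_left (1:ℝ) Cw
  have hw' := le_max_right (1:ℝ) Cw
  have hσ : 0 < σ := lt_of_lt_of_le ht hts
  rw [← hFeq]
  refine ⟨hF1.trans ?_, fun hacc => ?_⟩
  · have h1 : t * (1 + δ + τ ^ (1 / p)) ≤ (2 + Cp) * σ := by
      have h2 : δ * t ≤ Cp * σ := hδt.trans (mul_le_mul_of_nonneg_left (by
        have := mul_le_of_le_one_left ht.le hδ01; linarith) (by linarith))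
      have h3 : t * τ ^ (1 / p) ≤ t * 1 := mul_le_mul_of_nonneg_left (hτe.trans he1) ht.le
      calc t * (1 + δ + τ ^ (1 / p)) = t + δ * t + t * τ ^ (1 / p) := by ring
        _ ≤ σ + Cp * σ + σ := by linarith
        _ = _ := by ring
    have h0 : 0 ≤ t * (1 + δ + τ ^ (1 / p)) := by positivity
    calc Cw * (t * (1 + δ + τ ^ (1 / p))) ^ p ≤ max 1 Cw * ((2 + Cp) * σ) ^ p :=
          mul_le_mul hw' (Real.rpow_le_rpow h0 h1 hp0.le) (Real.rpow_nonneg h0 _) (by linarith)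
      _ ≤ max 1 Cw ^ p * ((2 + Cp) * σ) ^ p :=
          mul_le_mul_of_nonneg_right (Real.self_le_rpow_of_one_le hw hp.le)
            (Real.rpow_nonneg (by positivity) _)
      _ = (max 1 Cw * (2 + Cp) * σ) ^ p := by
          rw [← Real.mul_rpow (by linarith) (by positivity), mul_assoc]
      _ ≤ _ := Real.rpow_le_rpow (by positivity)
          (mul_le_mul_of_nonneg_right hC0 hσ.le) hp0.le
  · have hδ00 : 0 ≤ δ0 := by
      rw [hδ0]
      exact div_nonneg (by linarith [Real.rpow_nonneg hτ0 (1 / p)]) (by linarith)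
    have hr : σ - t ≤ δ0 * t := by
      rw [one_div_mul_eq_div, div_le_iff₀ hδpos] at hacc
      linarith
    have hδe : δ ≤ e := by
      refine le_of_mul_le_mul_right ?_ ht
      calc δ * t ≤ Cp * (δ0 * t + δ0 * t) :=
            hδt.trans (mul_le_mul_of_nonneg_left (by linarith) (by linarith))
        _ = e * t := by rw [hδ0]; field_simp; ring
    refine (hF2 (hδe.trans he1) hτ1).trans (mul_le_mul_of_nonneg_right ?_ (Real.rpow_nonneg ht.le p))
    calc Cw * (δ + δ1 + τ ^ (1 / p) + δ1 ^ p * Hc / J1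
          + ((L:ℝ) + Real.logb 2 (K / δ1 ^ 2) + 3) / J1)
        ≤ Cw * (8 * e) := mul_le_mul_of_nonneg_left (by linarith) hCw
      _ ≤ max 1 Cw * (8 * e) := mul_le_mul_of_nonneg_right hw' (by linarith)
      _ ≤ ε := hε

/-- The high windows are negligible. -/
lemma hc_bound {J1 B : ℕ} {δ1 Hc Cp CB e : ℝ} (hp : 1 ≤ p) (hδ : 0 < δ1)
    (hδ1 : δ1 = e / (Cp * (32 * p * CB))) (hW : 1 ≤ Cp * (32 * p * CB)) (he : e ≤ 1)
    (hJ : (0:ℝ) < J1) (hH : 0 ≤ Hc) (hHc : Hc ≤ Cp * (B + 1))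
    (hBJ : ((B:ℝ) + 1) / J1 ≤ 32 * p * CB) : δ1 ^ p * Hc / J1 ≤ e := by
  have he' : δ1 * (Cp * (32 * p * CB)) = e := by
    rw [hδ1, div_mul_cancel₀]
    linarith
  have hle : δ1 ≤ 1 := by nlinarith
  have h1 : δ1 ^ p ≤ δ1 := Real.rpow_le_self_of_le_one hδ.le hle hp
  have hCp : 0 ≤ Cp := by
    by_contra hneg
    push Not at hneg
    have : (0:ℝ) < (B:ℝ) + 1 := by positivity
    nlinarith
  have h2 : Hc / J1 ≤ Cp * (32 * p * CB) :=
    (div_le_div_of_nonneg_right hHc hJ.le).trans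
      (by rw [mul_div_assoc]; exact mul_le_mul_of_nonneg_left hBJ hCp)
  calc δ1 ^ p * Hc / J1 = δ1 ^ p * (Hc / J1) := by ring
    _ ≤ δ1 * (Cp * (32 * p * CB)) := mul_le_mul h1 h2 (div_nonneg hH hJ.le) hδ.le
    _ = e := he'

/-- The split theorem. -/
theorem split_of (hp : 1 < p) (hK : KernelStmt p) (hH : HybridStmt) (hCe : CentresStmt)
    (hSt : StarStmt) (hSens : SensStmt p) (hNorm : NormStmt p) (hPair : PairStmt p)
    (hWin : WindowStmt p) (hAs : AsympStmt p) : SplitStmt p := by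
  have hp0 : 0 < p := by linarith
  obtain ⟨ϑ, Cb, Cx, hϑ, hϑ1, hCb, hCx, henv⟩ := exists_env hp.le hK hH hCe hSt
  obtain ⟨Cs, hCs, hSens⟩ := hSens Cx
  obtain ⟨Cn, hCn, hNorm⟩ := hNorm Cx
  obtain ⟨Cp, hCp, hPair⟩ := hPair Cx
  obtain ⟨Cw, hCw, hWin⟩ := hWin
  obtain ⟨Cw', hCw'⟩ : ∃ C, C = max 1 Cw := ⟨_, rfl⟩
  have hCw1 : 1 ≤ Cw' := hCw' ▸ le_max_left _ _
  have hCww : Cw ≤ Cw' := hCw' ▸ le_max_right _ _
  obtain ⟨C0, hC0⟩ : ∃ C, C = Cn + Cw' * (2 + Cp) := ⟨_, rfl⟩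
  have hC0w : Cw' * (2 + Cp) ≤ C0 := by rw [hC0]; linarith
  have hC0n : Cn ≤ C0 := by
    rw [hC0]; exact le_add_of_nonneg_right (by positivity)
  refine ⟨C0, by linarith, fun ε hε hε1 => ?_⟩
  obtain ⟨e, he⟩ : ∃ e, e = ε / (8 * Cw') := ⟨_, rfl⟩
  have he0 : 0 < e := by rw [he]; positivity
  have he1 : e ≤ 1 / 2 := by
    rw [he, div_le_iff₀ (by positivity)]; linarith
  obtain ⟨δ0, hδ0⟩ : ∃ δ, δ = e / (2 * Cp) := ⟨_, rfl⟩
  have hδ00 : 0 < δ0 := by rw [hδ0]; positivity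
  have hδ01 : δ0 ≤ 1 := by rw [hδ0, div_le_one (by positivity)]; linarith
  refine ⟨1 / δ0, (one_le_div hδ00).2 hδ01, fun CB hCB γ hγ hγ1 => ?_⟩
  obtain ⟨δ1, hδ1⟩ : ∃ δ, δ = e / (Cp * (32 * p * CB)) := ⟨_, rfl⟩
  have hW1 : 1 ≤ Cp * (32 * p * CB) :=
    one_le_mul_of_one_le_of_one_le hCp (by nlinarith)
  have hδ10 : 0 < δ1 := by rw [hδ1]; positivity
  have hδ1e : δ1 ≤ e := by rw [hδ1]; exact div_le_self he0.le hW1
  obtain ⟨η, hη⟩ : ∃ η, η = min δ1 (e ^ p) := ⟨_, rfl⟩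
  have hη0 : 0 < η := by rw [hη]; positivity
  have hηδ : η ≤ δ1 := hη ▸ min_le_left _ _
  have hηe : η ≤ e ^ p := hη ▸ min_le_right _ _
  obtain ⟨C, hC⟩ : ∃ C, C = max Cp Cs := ⟨_, rfl⟩
  have hCpC : Cp ≤ C := hC ▸ le_max_left _ _
  have hCsC : Cs ≤ C := hC ▸ le_max_right _ _
  obtain ⟨n0, hn0⟩ := hAs ϑ hϑ hϑ1 Cb C CB δ0 γ η hCb (hCp.trans hCpC) hCB hδ00 hδ01 hγ
    (by linarith) hη0 e he0 he1
  obtain ⟨n1, hn1⟩ := eventually_log_le (γ / 2) (3 * p)
    (6 * (4 * (Cs * (2 * CB) * Cb * (4 * Cx + 1))) ^ p) (by linarith) (by positivity)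
  refine ⟨n0 + n1 + 2, fun n hn m hm B hB N X hX => ?_⟩
  have hn2 : 2 ≤ n := by omega
  have hnR : (1:ℝ) < n := by exact_mod_cast (by omega : 1 < n)
  have hmγ : (n:ℝ) ^ γ ≤ m := hm ▸ Nat.le_ceil _
  have hm2 : 2 ≤ m := by
    have h1 : (1:ℝ) < (n:ℝ) ^ γ := Real.one_lt_rpow hnR hγ
    have : (1:ℝ) < m := h1.trans_le hmγ
    exact_mod_cast this
  have hmn : m ≤ n := by
    rw [hm, Nat.ceil_le]
    exact (Real.rpow_le_rpow_of_exponent_le hnR.le (by linarith : γ ≤ 1)).trans_eq (Real.rpow_one _)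
  obtain ⟨V, hVX, hVB, hVβ, hball, hssum⟩ := henv n m hm2 hmn B N X hX
  obtain ⟨J, hJ⟩ : ∃ J, J = ⌊Real.logb 2 m / (4 * p)⌋₊ := ⟨_, rfl⟩
  obtain ⟨L, hL⟩ : ∃ L, L = max 1 ⌊e * J⌋₊ := ⟨_, rfl⟩
  have hL1 : 1 ≤ L := hL ▸ le_max_left _ _
  obtain ⟨J1, hJ1⟩ : ∃ J1, J1 = J - L + 1 := ⟨_, rfl⟩
  have hAsn := hn0 n (by omega) m hmγ hmn B hB J L hJ hL V.β hVβ
  have hLJ : L ≤ J := (hAsn 1 0 le_rfl (by
    have : 1 ≤ V.β := V.one_le_β
    exact one_le_mul_of_one_le_of_one_le (one_le_mul_of_one_le_of_one_le (hCp.trans hCpC)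
      (le_add_of_nonneg_left (Nat.cast_nonneg B))) this) le_rfl (by
    have hb := V.one_le_β
    have h1 : 0 ≤ Real.logb 2 (V.β / δ0) :=
      Real.logb_nonneg one_lt_two ((one_le_div hδ00).2 (hδ01.trans hb))
    have h2 := Real.log_natCast_nonneg n
    have h3 : 0 ≤ C := by linarith
    positivity)).1
  have hsens : ∀ k l y y', |V.levelVal k l y - V.levelVal k l y'|
      ≤ Cs * (B + 1) * V.β * ((4 * Cx + 1) * 2 ^ l) * V.s k * lpD p V.X y y' := by
    intro k l y y'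
    have := hSens n N V k l y y'
    rwa [hVB] at this
  have hK0 : 0 ≤ Cs * (B + 1) * V.β := by have := V.one_le_β; positivity
  refine ⟨V.ρ, V.ρ_pos, fun y y' => by rw [← hVX]; exact V.ρ_lip y y', hball, N * J1, ?_,
    flatPart V L J1, localPart V L J1, flatSens V (Cs * (B + 1) * V.β) L J1, fun q => ?_, ?_,
    fun i j q => by rw [← hVX]; exact flat_sens V hp0 hK0 (by linarith) hsens i j q,
    fun y => (local_norm V hp.le (by linarith) hL1 (by omega) (fun l y => hNorm n N V l y) y).trans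
      (mul_le_mul_of_nonneg_right hC0n (V.ρ_pos y).le), ?_⟩
  · rw [Nat.cast_mul, hJ1]
    exact mul_le_mul_of_nonneg_left (windows_le hp.le hm2 hmn hJ) (Nat.cast_nonneg N)
  · exact mul_nonneg (by positivity) (Real.rpow_nonneg
      (mul_nonneg (by positivity) (V.s_nonneg _)) _)
  · refine (flat_sens_sum V hp0 hK0 (by linarith) (by omega) (J := J) fun lo hlo => by omega).trans ?_
    rw [hVβ]
    exact sens_count hp.le hγ (by omega) hmγ hmn (by omega) hB hCB (by linarith) (by linarith)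
      (by linarith) hϑ1.le rfl (two_pow_levels hp0 hm2 hJ) (by positivity) hssum
      (Finset.sum_nonneg fun k _ => Real.rpow_nonneg (V.s_nonneg k) _) (hn1 n (by omega))
  -- the two estimates at a pair
  have hmain : ∀ i j, powDist p (flatPart V L J1 i) (flatPart V L J1 j)
      + powDist p (localPart V L J1 i) (localPart V L J1 j)
        ≤ (C0 * (lpD p X i j + (V.ρ i + V.ρ j) / (2:ℝ) ^ B)) ^ p ∧
      (1 / δ0 * (V.ρ i + V.ρ j) / (2:ℝ) ^ B ≤ lpD p X i j →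
        |powDist p (flatPart V L J1 i) (flatPart V L J1 j)
          + powDist p (localPart V L J1 i) (localPart V L J1 j) - powDist p (X i) (X j)|
          ≤ ε * powDist p (X i) (X j)) := by
    intro i j
    rcases eq_or_ne i j with rfl | hij
    · simp only [powDist, sub_self, abs_zero, Real.zero_rpow hp0.ne', Finset.sum_const_zero,
        add_zero, mul_zero, le_refl, imp_true_iff, and_true]
      refine Real.rpow_nonneg (mul_nonneg (by linarith) (add_nonneg (lpD_nonneg _ _ _ _) ?_)) _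
      exact div_nonneg (add_pos (V.ρ_pos i) (V.ρ_pos i)).le (by positivity)
    obtain ⟨P, eE, Dd, A, δ, Amax, H, Hc, hδ, hA1, hH0, hHc0, hδt, hAmax, hH', hHc, hdec, hP, he',
      hD, hA, hEn, hBad⟩ := hPair n N V δ0 hδ00 hδ01 J i j hij
    rw [hVB] at hδt hAmax hH' hHc
    have ht : 0 < lpD p V.X i j := by
      rw [lpD_eq]; exact Real.rpow_pos_of_pos (powDist_pos (V.injX.ne hij)) _
    have hb := V.one_le_β
    have hlog : 0 ≤ Real.logb 2 (V.β / δ0) :=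
      Real.logb_nonneg one_lt_two ((one_le_div hδ00).2 (hδ01.trans hb))
    have hB0 : (0:ℝ) ≤ (B:ℝ) + 1 := by positivity
    obtain ⟨-, hτ, hBJ, hmid⟩ := hAsn Amax H hA1
      (hAmax.trans (mul_le_mul_of_nonneg_right (mul_le_mul_of_nonneg_right hCpC hB0) (by linarith)))
      hH0 (hH'.trans (mul_le_mul_of_nonneg_right hCpC (by
        have := Real.log_natCast_nonneg n
        positivity)))
    have hKge : 1 ≤ Cs * (B + 1) * V.β :=
      one_le_mul_of_one_le_of_one_le (one_le_mul_of_one_le_of_one_le hCs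
        (le_add_of_nonneg_left (Nat.cast_nonneg B))) hb
    obtain ⟨hF1, hF2⟩ := hWin N J L hL1 hLJ (4 * Cx + 1) (lpD p V.X i j) δ δ1 (Cs * (B + 1) * V.β)
      Amax H Hc V.s (fun k => V.X i k - V.X j k)
      (fun k l => V.levelVal k l i - V.levelVal k l j) P eE Dd A (by linarith) ht hδ hδ10
      (by linarith) hKge hA1 hH0 hHc0 V.s_nonneg (lpD_rpow hp0 _ _ _).symm hdec hP he' hD hA hEn hBad
      (fun k l _ => hsens k l i j)
    have hJ1R : (0:ℝ) < J1 := by exact_mod_cast (by omega : 0 < J1)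
    have hlog2 : Real.logb 2 (Cs * (B + 1) * V.β / δ1 ^ 2) ≤ Real.logb 2 (C * (B + 1) * V.β / δ1 ^ 2) :=
      Real.logb_le_logb_of_le one_lt_two (div_pos (by linarith) (by positivity))
        (div_le_div_of_nonneg_right (mul_le_mul_of_nonneg_right
          (mul_le_mul_of_nonneg_right hCsC hB0) (by linarith)) (by positivity))
    rw [← hJ1] at hτ hBJ
    have hmid' := hmid δ1 hηδ (by linarith)
    rw [← hJ1] at hmid'
    simp only [← hJ1] at hF1 hF2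
    obtain ⟨τ, hτdef⟩ : ∃ τ, τ = (1 + Real.log (2 + Amax)) ^ (p - 1) * H
        / ((L:ℝ) ^ (p - 1) * J1) := ⟨_, rfl⟩
    rw [← hτdef] at hτ hF1 hF2
    have hτ0 : 0 ≤ τ := hτdef ▸ div_nonneg (mul_nonneg (Real.rpow_nonneg (by
      linarith [Real.log_nonneg (show 1 ≤ 2 + Amax by linarith)]) _) hH0) (by positivity)
    have hτe : τ ^ (1 / p) ≤ e := by
      refine (Real.rpow_le_rpow hτ0 (hτ.trans hηe) (by positivity)).trans (le_of_eq ?_)
      rw [← Real.rpow_mul he0.le, mul_one_div_cancel hp0.ne', Real.rpow_one]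
    have hHcJ := hc_bound hp.le hδ10 hδ1 hW1 (by linarith) hJ1R hHc0 hHc hBJ
    have hm3 : ((L:ℝ) + Real.logb 2 (Cs * (B + 1) * V.β / δ1 ^ 2) + 3) / J1 ≤ 3 * e :=
      (div_le_div_of_nonneg_right (by linarith) hJ1R.le).trans (hmid'.trans (by linarith))
    have hr : 0 ≤ (V.ρ i + V.ρ j) / (2:ℝ) ^ B :=
      div_nonneg (add_pos (V.ρ_pos i) (V.ρ_pos j)).le (by positivity)
    have hpb := pair_bounds hp V (σ := lpD p V.X i j + (V.ρ i + V.ρ j) / (2:ℝ) ^ B) (ε := ε)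
      hCp (hCw' ▸ hC0w) hCw.le ht (le_add_of_nonneg_right hr) hδ (by rwa [add_sub_cancel_left]) hδ0
      hδ00 hδ01 (by linarith) hτ0 (hτ.trans (hηδ.trans (by linarith))) hτe
      (by rw [← hCw', he]; exact le_of_eq (by field_simp)) hδ1e hHcJ hm3
      (parts_eq V hp0 L J1 i j).symm hF1 hF2
    rw [add_sub_cancel_left, lpD_rpow hp0, ← mul_div_assoc] at hpb
    rw [← hVX]
    exact hpb
  exact ⟨fun i j => (hmain i j).1, fun i j h => (hmain i j).2 h⟩

end Vale.Agent.P249.Full
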