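import Mathlib
import Vale.Agent.P249.Full.SplitSpec

/-!
Radii with a small set of centres, and weights that are moved onto the centres above the radius.
-/

namespace Vale.Agent.P249.Full

open Finset

namespace Star

variable {n : ℕ}

lemma exists_net (t : Fin n → Fin n → ℝ) (ρ : Fin n → ℝ) (s : Finset (Fin n)) :
    ∃ S ⊆ s, (S : Set (Fin n)).PairwiseDisjoint (fun c => ballF t c (ρ c)) ∧
      ∀ y ∈ s, ∃ c ∈ S, ρ c ≤ ρ y ∧ (c = y ∨ ∃ z, t c z ≤ ρ c ∧ t y z ≤ ρ y) := by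
  classical
  induction s using Finset.strongInduction with
  | _ s ih =>
    rcases s.eq_empty_or_nonempty with rfl | hs
    · exact ⟨∅, Finset.Subset.refl _, by simp, by simp⟩
    obtain ⟨y0, hy0, hmax⟩ := s.exists_max_image ρ hs
    obtain ⟨S, hS, hdis, hcov⟩ := ih _ (Finset.erase_ssubset hy0)
    by_cases h : ∃ c ∈ S, ∃ z, t c z ≤ ρ c ∧ t y0 z ≤ ρ y0
    · obtain ⟨c, hc, z, hz⟩ := h
      refine ⟨S, hS.trans (Finset.erase_subset _ _), hdis, fun y hy => ?_⟩
      rcases eq_or_ne y y0 with rfl | hne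
      · exact ⟨c, hc, hmax c (Finset.erase_subset _ _ (hS hc)), Or.inr ⟨z, hz⟩⟩
      · exact hcov y (Finset.mem_erase.2 ⟨hne, hy⟩)
    · refine ⟨insert y0 S, Finset.insert_subset hy0 (hS.trans (Finset.erase_subset _ _)), ?_,
        fun y hy => ?_⟩
      · rw [Finset.coe_insert]
        refine hdis.insert fun c hc _ => Finset.disjoint_left.2 fun z hz hz' => ?_
        simp only [ballF, Finset.mem_filter, Finset.mem_univ, true_and] at hz hz'
        exact h ⟨c, hc, z, hz', hz⟩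
      · rcases eq_or_ne y y0 with rfl | hne
        · exact ⟨y, Finset.mem_insert_self _ _, le_refl _, Or.inl rfl⟩
        · obtain ⟨c, hc, hcy⟩ := hcov y (Finset.mem_erase.2 ⟨hne, hy⟩)
          exact ⟨c, Finset.mem_insert_of_mem hc, hcy⟩

lemma exists_radius {t : Fin n → Fin n → ℝ} (ht : FMetric t) {m : ℕ} (hm : 2 ≤ m) (hmn : m ≤ n) :
    ∃ ρ : Fin n → ℝ, (∀ y, 0 < ρ y) ∧ (∀ y y', ρ y ≤ ρ y' + t y y') ∧
      (∀ y, m ≤ (ballF t y (ρ y)).card) ∧ ∀ y R, R < ρ y → (ballF t y R).card ≤ m := by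
  classical
  have hne : ∀ y, (univ.filter fun z => m ≤ (ballF t y (t y z)).card).Nonempty := by
    intro y
    obtain ⟨z, -, hz⟩ := (univ : Finset (Fin n)).exists_max_image (t y) ⟨y, mem_univ y⟩
    refine ⟨z, mem_filter.2 ⟨mem_univ z, ?_⟩⟩
    have : ballF t y (t y z) = univ := by
      ext x
      simp [ballF, hz x (mem_univ x)]
    simpa [this] using hmn
  let ρ : Fin n → ℝ := fun y =>
    ((univ.filter fun z => m ≤ (ballF t y (t y z)).card).image (t y)).min' ((hne y).image _)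
  have hcard : ∀ y, m ≤ (ballF t y (ρ y)).card := by
    intro y
    have hmem : ρ y ∈ (univ.filter fun z => m ≤ (ballF t y (t y z)).card).image (t y) :=
      Finset.min'_mem _ _
    obtain ⟨z, hz, hzeq⟩ := Finset.mem_image.1 hmem
    rw [← hzeq]
    exact (Finset.mem_filter.1 hz).2
  have hmin : ∀ y R, m ≤ (ballF t y R).card → ρ y ≤ R := by
    intro y R hR
    have hB : (ballF t y R).Nonempty := Finset.card_pos.1 (by omega)
    obtain ⟨z, hz, hzmax⟩ := (ballF t y R).exists_max_image (t y) hB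
    have hzR : t y z ≤ R := by simpa [ballF] using hz
    have hsub : ballF t y R ⊆ ballF t y (t y z) := fun x hx => by
      simpa [ballF] using hzmax x hx
    exact le_trans (Finset.min'_le _ _ (Finset.mem_image.2
      ⟨z, mem_filter.2 ⟨mem_univ z, hR.trans (Finset.card_le_card hsub)⟩, rfl⟩)) hzR
  refine ⟨ρ, fun y => ?_, fun y y' => ?_, hcard, fun y R hR => ?_⟩
  · by_contra hle
    have hsub : ballF t y (ρ y) ⊆ {y} := by
      intro x hx
      rw [Finset.mem_singleton]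
      by_contra hxy
      have h1 : t y x ≤ ρ y := by simpa [ballF] using hx
      linarith [ht.pos y x (fun h => hxy h.symm), not_lt.1 hle]
    have h2 := (hcard y).trans (Finset.card_le_card hsub)
    simp at h2
    omega
  · refine hmin y _ ((hcard y').trans (Finset.card_le_card fun x hx => ?_))
    have h1 : t y' x ≤ ρ y' := by simpa [ballF] using hx
    have h2 := ht.tri y y' x
    simp only [ballF, Finset.mem_filter, Finset.mem_univ, true_and]
    linarith
  · by_contra h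
    exact absurd (hmin y R (by omega)) (not_le.2 hR)

end Star

theorem centres : CentresStmt := by
  intro n t ht m hm hmn
  obtain ⟨ρ, hpos, hlip, hcard, hlt⟩ := Star.exists_radius ht hm hmn
  obtain ⟨S, -, hdis, hcov⟩ := Star.exists_net t ρ univ
  choose cm hcmS hcmρ hcm using fun y => hcov y (mem_univ y)
  refine ⟨ρ, S, cm, hpos, hlip, hlt, ?_, fun y => ⟨hcmS y, hcmρ y, ?_⟩⟩
  · calc S.card * m = ∑ _c ∈ S, m := by simp
      _ ≤ ∑ c ∈ S, (ballF t c (ρ c)).card := Finset.sum_le_sum fun c _ => hcard c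
      _ = (S.biUnion fun c => ballF t c (ρ c)).card := (Finset.card_biUnion hdis).symm
      _ ≤ (univ : Finset (Fin n)).card := Finset.card_le_univ _
      _ = n := by simp
  · rcases hcm y with heq | ⟨z, hz1, hz2⟩
    · rw [heq, ht.self]
      linarith [hpos y]
    · have := ht.tri y z (cm y)
      rw [ht.symm z (cm y)] at this
      linarith [hcmρ y]

namespace Star

variable {n : ℕ}

/-- Soft indicator of `ρ ≤ 2 ^ i`. -/
noncomputable def xi (ρ : ℝ) (i : ℤ) : ℝ := ramp01 (2 * (2:ℝ) ^ i / ρ - 1)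

/-- Weights of the levels near `ρ`. -/
noncomputable def eta (ρ : ℝ) (j : ℤ) : ℝ := xi ρ (j + 1) - xi ρ j

lemma ramp01_nonneg (x : ℝ) : 0 ≤ ramp01 x := le_max_left _ _

lemma ramp01_le_one (x : ℝ) : ramp01 x ≤ 1 := max_le zero_le_one (min_le_left _ _)

lemma ramp01_mono {x y : ℝ} (h : x ≤ y) : ramp01 x ≤ ramp01 y :=
  max_le_max le_rfl (min_le_min le_rfl h)

lemma ramp01_of_nonpos {x : ℝ} (h : x ≤ 0) : ramp01 x = 0 :=
  max_eq_left ((min_le_right _ _).trans h)

lemma ramp01_of_one_le {x : ℝ} (h : 1 ≤ x) : ramp01 x = 1 := by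
  simp [ramp01, min_eq_left h]

lemma abs_ramp01_sub (x y : ℝ) : |ramp01 x - ramp01 y| ≤ |x - y| := by
  refine (abs_max_sub_max_le_max _ _ _ _).trans ?_
  rw [sub_self, abs_zero]
  refine max_le (abs_nonneg _) ((abs_min_sub_min_le_max _ _ _ _).trans ?_)
  rw [sub_self, abs_zero]
  exact max_le (abs_nonneg _) le_rfl

lemma xi_mono {ρ : ℝ} (h : 0 < ρ) {i j : ℤ} (hij : i ≤ j) : xi ρ i ≤ xi ρ j :=
  ramp01_mono (by
    have : (2:ℝ) ^ i ≤ (2:ℝ) ^ j := zpow_le_zpow_right₀ (by norm_num) hij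
    have : 2 * (2:ℝ) ^ i / ρ ≤ 2 * (2:ℝ) ^ j / ρ :=
      div_le_div_of_nonneg_right (by linarith) h.le
    linarith)

lemma xi_eq_zero {ρ : ℝ} (h : 0 < ρ) {i : ℤ} (hi : 2 * (2:ℝ) ^ i ≤ ρ) : xi ρ i = 0 :=
  ramp01_of_nonpos (by
    have := (div_le_one h).2 hi
    linarith)

lemma xi_eq_one {ρ : ℝ} (h : 0 < ρ) {i : ℤ} (hi : ρ ≤ (2:ℝ) ^ i) : xi ρ i = 1 :=
  ramp01_of_one_le (by
    have : 2 ≤ 2 * (2:ℝ) ^ i / ρ := by
      rw [le_div_iff₀ h]; linarith
    linarith)

lemma abs_xi_sub {ρ ρ' : ℝ} (h : 0 < ρ) (h' : 0 < ρ') (i : ℤ) :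
    |xi ρ i - xi ρ' i| ≤ 2 * (2:ℝ) ^ i * |ρ - ρ'| / (ρ * ρ') := by
  refine (abs_ramp01_sub _ _).trans (le_of_eq ?_)
  rw [show 2 * (2:ℝ) ^ i / ρ - 1 - (2 * (2:ℝ) ^ i / ρ' - 1)
      = 2 * (2:ℝ) ^ i * (ρ' - ρ) / (ρ * ρ') by field_simp; ring]
  rw [abs_div, abs_mul, abs_of_pos (mul_pos h h'), abs_of_pos (by positivity : 0 < 2 * (2:ℝ) ^ i),
    abs_sub_comm]

lemma eta_nonneg {ρ : ℝ} (h : 0 < ρ) (j : ℤ) : 0 ≤ eta ρ j :=
  sub_nonneg.2 (xi_mono h (by omega))

lemma eta_support {ρ : ℝ} (h : 0 < ρ) {j : ℤ} (hj : eta ρ j ≠ 0) :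
    ρ < 4 * (2:ℝ) ^ j ∧ (2:ℝ) ^ j < ρ := by
  have h2 : (2:ℝ) ^ (j + 1) = 2 * (2:ℝ) ^ j := by
    rw [zpow_add_one₀ (two_ne_zero' ℝ)]; ring
  constructor
  · by_contra hc
    refine hj ?_
    have hp : (0:ℝ) < (2:ℝ) ^ j := zpow_pos two_pos _
    rw [eta, xi_eq_zero h (by linarith [not_lt.1 hc]), xi_eq_zero h (by linarith [not_lt.1 hc])]
    simp
  · by_contra hc
    refine hj ?_
    have hp : (0:ℝ) < (2:ℝ) ^ j := zpow_pos two_pos _
    rw [eta, xi_eq_one h (by linarith [not_lt.1 hc]), xi_eq_one h (by linarith [not_lt.1 hc])]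
    simp

lemma sum_eta (ρ : ℝ) {lo hi : ℤ} (hle : lo ≤ hi) :
    ∑ j ∈ Finset.Ico lo hi, eta ρ j = xi ρ hi - xi ρ lo := by
  induction hi, hle using Int.leInduction with
  | base => simp
  | succ k hk ih =>
    have hins : Finset.Ico lo (k + 1) = insert k (Finset.Ico lo k) := by
      ext x
      simp only [Finset.mem_insert, Finset.mem_Ico]
      omega
    rw [hins, Finset.sum_insert (by simp), ih, eta]
    ring

lemma exists_range (ρ : Fin n → ℝ) (hρ : ∀ y, 0 < ρ y) :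
    ∃ lo hi : ℤ, lo ≤ hi ∧ ∀ y, 2 * (2:ℝ) ^ lo ≤ ρ y ∧ ρ y ≤ (2:ℝ) ^ hi := by
  obtain ⟨N, hN⟩ := pow_unbounded_of_one_lt (∑ y, (2 / ρ y + ρ y)) (one_lt_two (α := ℝ))
  refine ⟨-(N:ℤ), N, by omega, fun y => ?_⟩
  have h0 : 2 / ρ y + ρ y ≤ ∑ z, (2 / ρ z + ρ z) :=
    Finset.single_le_sum (f := fun z => 2 / ρ z + ρ z)
      (fun z _ => by have := hρ z; positivity) (mem_univ y)
  have hpos := hρ y
  have hd : 0 < 2 / ρ y := by positivity
  rw [zpow_neg, zpow_natCast]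
  refine ⟨?_, by linarith⟩
  have h1 : 2 / ρ y < (2:ℝ) ^ N := by linarith
  have hN0 : (0:ℝ) < (2:ℝ) ^ N := by positivity
  rw [div_lt_iff₀ hpos] at h1
  rw [← div_eq_mul_inv, div_le_iff₀ hN0]
  linarith

/-- Image of weights under a map. -/
noncomputable def push (g : Fin n → Fin n) (w : Fin n → ℝ) (z : Fin n) : ℝ :=
  ∑ x ∈ univ.filter (fun x => g x = z), w x

lemma isW_push (g : Fin n → Fin n) {w : Fin n → ℝ} (h : IsW w) : IsW (push g w) where
  nonneg _ := Finset.sum_nonneg fun x _ => h.nonneg x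
  sum_one := by
    rw [← h.sum_one]
    exact Finset.sum_fiberwise univ g w

lemma tv_push_le (g : Fin n → Fin n) (w w' : Fin n → ℝ) :
    tv (push g w) (push g w') ≤ tv w w' := by
  calc tv (push g w) (push g w')
      ≤ ∑ z, ∑ x ∈ univ.filter (fun x => g x = z), |w x - w' x| := by
        refine Finset.sum_le_sum fun z _ => ?_
        rw [push, push, ← Finset.sum_sub_distrib]
        exact Finset.abs_sum_le_sum_abs _ _
    _ = tv w w' := Finset.sum_fiberwise univ g fun x => |w x - w' x|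

lemma isW_mix {J : Finset ℤ} {a : ℤ → ℝ} (ha : ∀ j ∈ J, 0 ≤ a j) (ha1 : ∑ j ∈ J, a j = 1)
    {u : ℤ → Fin n → ℝ} (hu : ∀ j, IsW (u j)) : IsW (fun z => ∑ j ∈ J, a j * u j z) where
  nonneg z := Finset.sum_nonneg fun j hj => mul_nonneg (ha j hj) ((hu j).nonneg z)
  sum_one := by
    rw [Finset.sum_comm]
    simpa [← Finset.mul_sum, (hu _).sum_one] using ha1

lemma tv_mix {J : Finset ℤ} {a b : ℤ → ℝ} (ha : ∀ j ∈ J, 0 ≤ a j)
    {u v : ℤ → Fin n → ℝ} (hv : ∀ j, IsW (v j)) :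
    tv (fun z => ∑ j ∈ J, a j * u j z) (fun z => ∑ j ∈ J, b j * v j z)
      ≤ ∑ j ∈ J, (a j * tv (u j) (v j) + |a j - b j|) := by
  calc tv (fun z => ∑ j ∈ J, a j * u j z) (fun z => ∑ j ∈ J, b j * v j z)
      ≤ ∑ z, ∑ j ∈ J, (a j * |u j z - v j z| + |a j - b j| * v j z) := by
        refine Finset.sum_le_sum fun z _ => ?_
        rw [← Finset.sum_sub_distrib]
        refine (Finset.abs_sum_le_sum_abs _ _).trans (Finset.sum_le_sum fun j hj => ?_)
        rw [show a j * u j z - b j * v j z = a j * (u j z - v j z) + (a j - b j) * v j z by ring]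
        refine (abs_add_le _ _).trans (le_of_eq ?_)
        rw [abs_mul, abs_mul, abs_of_nonneg (ha j hj), abs_of_nonneg ((hv j).nonneg z)]
    _ = ∑ j ∈ J, (a j * tv (u j) (v j) + |a j - b j|) := by
        rw [Finset.sum_comm]
        refine Finset.sum_congr rfl fun j _ => ?_
        rw [Finset.sum_add_distrib, ← Finset.mul_sum, ← Finset.mul_sum, (hv j).sum_one, mul_one,
          tv]

lemma tv_comb {a b : ℝ} (h0 : 0 ≤ a) (h1 : a ≤ 1) {u v u' v' : Fin n → ℝ}
    (hu : IsW u') (hv : IsW v') :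
    tv (fun z => a * u z + (1 - a) * v z) (fun z => b * u' z + (1 - b) * v' z)
      ≤ a * tv u u' + (1 - a) * tv v v' + 2 * |a - b| := by
  calc tv (fun z => a * u z + (1 - a) * v z) (fun z => b * u' z + (1 - b) * v' z)
      ≤ ∑ z, (a * |u z - u' z| + (1 - a) * |v z - v' z| + |a - b| * (u' z + v' z)) := by
        refine Finset.sum_le_sum fun z _ => ?_
        rw [show a * u z + (1 - a) * v z - (b * u' z + (1 - b) * v' z)
            = a * (u z - u' z) + (1 - a) * (v z - v' z) + (a - b) * (u' z - v' z) by ring]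
        refine (abs_add_three _ _ _).trans ?_
        rw [abs_mul, abs_mul, abs_mul, abs_of_nonneg h0, abs_of_nonneg (sub_nonneg.2 h1)]
        exact add_le_add le_rfl (mul_le_mul_of_nonneg_left
          (abs_le.2 ⟨by linarith [hu.nonneg z, hv.nonneg z],
            by linarith [hu.nonneg z, hv.nonneg z]⟩) (abs_nonneg _))
    _ = a * tv u u' + (1 - a) * tv v v' + 2 * |a - b| := by
        simp only [Finset.sum_add_distrib, ← Finset.mul_sum, hu.sum_one, hv.sum_one, tv]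
        ring

lemma card_dyadic_le (J : Finset ℤ) (R : ℝ) :
    (J.filter fun j => R ≤ 8 * (2:ℝ) ^ j ∧ (2:ℝ) ^ j < R).card ≤ 3 := by
  rcases (J.filter fun j => R ≤ 8 * (2:ℝ) ^ j ∧ (2:ℝ) ^ j < R).eq_empty_or_nonempty with h | h
  · simp [h]
  obtain ⟨j0, hj0, hmin⟩ := Finset.exists_min_image _ id h
  have hsub : (J.filter fun j => R ≤ 8 * (2:ℝ) ^ j ∧ (2:ℝ) ^ j < R) ⊆ Finset.Ico j0 (j0 + 3) := by
    intro j hj
    rw [Finset.mem_Ico]
    refine ⟨hmin j hj, ?_⟩
    have h1 := (Finset.mem_filter.1 hj0).2.1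
    have h2 := (Finset.mem_filter.1 hj).2.2
    have h8 : (2:ℝ) ^ (j0 + 3) = 8 * (2:ℝ) ^ j0 := by
      rw [zpow_add₀ (two_ne_zero' ℝ)]; norm_num; ring
    exact (zpow_lt_zpow_iff_right₀ (one_lt_two (α := ℝ))).1 (by linarith)
  exact (Finset.card_le_card hsub).trans (by simp)

lemma sum_abs_eta_sub (J : Finset ℤ) {a b t R : ℝ} (ha : 0 < a) (hb : 0 < b)
    (h1 : 7 * R ≤ 8 * a) (h2 : 7 * R ≤ 8 * b) (h3 : a ≤ R) (h4 : b ≤ R) (hab : |a - b| ≤ t) :
    ∑ j ∈ J, |eta a j - eta b j| ≤ 36 * (t / R) := by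
  have hR : 0 < R := lt_of_lt_of_le ha h3
  have ht0 : 0 ≤ t := (abs_nonneg _).trans hab
  have hz : ∀ j ∈ J, j ∉ J.filter (fun j => R ≤ 8 * (2:ℝ) ^ j ∧ (2:ℝ) ^ j < R) →
      |eta a j - eta b j| = 0 := by
    intro j hj hnot
    have he : ∀ c : ℝ, 0 < c → 7 * R ≤ 8 * c → c ≤ R → eta c j = 0 := by
      intro c hc hc1 hc2
      by_contra hne
      obtain ⟨e1, e2⟩ := eta_support hc hne
      refine hnot (Finset.mem_filter.2 ⟨hj, ?_, lt_of_lt_of_le e2 hc2⟩)
      have hp : (0:ℝ) < (2:ℝ) ^ j := zpow_pos two_pos _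
      linarith
    rw [he a ha h1 h3, he b hb h2 h4]
    simp
  rw [← Finset.sum_subset (Finset.filter_subset _ _) hz]
  have hxi : ∀ j : ℤ, (2:ℝ) ^ j ≤ 2 * R → |xi a j - xi b j| ≤ 6 * (t / R) := by
    intro j hj
    refine (abs_xi_sub ha hb j).trans ?_
    have hab' : 49 * R ^ 2 ≤ 64 * (a * b) := by nlinarith
    have hnum : 2 * (2:ℝ) ^ j * |a - b| ≤ 4 * R * t :=
      mul_le_mul (by linarith) hab (abs_nonneg _) (by linarith)
    rw [div_le_iff₀ (mul_pos ha hb)]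
    refine hnum.trans ?_
    rw [show 6 * (t / R) * (a * b) = (t * (6 * (a * b))) / R by ring, le_div_iff₀ hR]
    have : 4 * R ^ 2 ≤ 6 * (a * b) := by nlinarith
    nlinarith [mul_le_mul_of_nonneg_left this ht0]
  calc ∑ j ∈ J.filter (fun j => R ≤ 8 * (2:ℝ) ^ j ∧ (2:ℝ) ^ j < R), |eta a j - eta b j|
      ≤ ∑ _j ∈ J.filter (fun j => R ≤ 8 * (2:ℝ) ^ j ∧ (2:ℝ) ^ j < R), 12 * (t / R) := by
        refine Finset.sum_le_sum fun j hj => ?_
        have hj2 := (Finset.mem_filter.1 hj).2.2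
        have hp : (0:ℝ) < (2:ℝ) ^ j := zpow_pos two_pos _
        have e1 := hxi (j + 1) (by rw [zpow_add_one₀ (two_ne_zero' ℝ)]; linarith)
        have e2 := hxi j (by linarith)
        rw [eta, eta, show xi a (j + 1) - xi a j - (xi b (j + 1) - xi b j)
          = (xi a (j + 1) - xi b (j + 1)) - (xi a j - xi b j) by ring]
        exact (abs_sub _ _).trans (by linarith)
    _ ≤ 36 * (t / R) := by
        rw [Finset.sum_const, nsmul_eq_mul]
        have hc : ((J.filter fun j => R ≤ 8 * (2:ℝ) ^ j ∧ (2:ℝ) ^ j < R).card : ℝ) ≤ 3 := by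
          exact_mod_cast card_dyadic_le J R
        have : (0:ℝ) ≤ t / R := div_nonneg ht0 hR.le
        nlinarith

lemma level_close {i j : ℤ} {a : ℝ} (h1 : a < 4 * (2:ℝ) ^ j) (h2 : (2:ℝ) ^ j < a)
    (h3 : (2:ℝ) ^ i ≤ 256 * a) (h4 : a < 2 * (2:ℝ) ^ i) :
    (j ≤ i ∧ i ≤ j + 10) ∧ (2:ℝ) ^ i ≤ 1024 * (2:ℝ) ^ j := by
  refine ⟨⟨?_, ?_⟩, by linarith⟩
  · have e : (2:ℝ) ^ j < (2:ℝ) ^ (i + 1) := by
      rw [zpow_add_one₀ (two_ne_zero' ℝ)]; linarith
    have := (zpow_lt_zpow_iff_right₀ (one_lt_two (α := ℝ))).1 e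
    omega
  · have e : (2:ℝ) ^ i < (2:ℝ) ^ (j + 10) := by
      rw [zpow_add₀ (two_ne_zero' ℝ)]
      norm_num
      linarith
    have := (zpow_lt_zpow_iff_right₀ (one_lt_two (α := ℝ))).1 e
    omega

lemma mix_support {t : Fin n → Fin n → ℝ} (ht : FMetric t) {ρ : Fin n → ℝ}
    (hρ : ∀ y, 0 < ρ y) (hlip : ∀ y y', ρ y ≤ ρ y' + t y y') {Cs : Finset (Fin n)}
    {cm : Fin n → Fin n} (hcm : ∀ y, cm y ∈ Cs ∧ t y (cm y) ≤ 2 * ρ y) (J : Finset ℤ)
    {w : ℤ → Fin n → Fin n → ℝ} (hw : ∀ i y z, w i y z ≠ 0 → t y z ≤ 4 * (2:ℝ) ^ i)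
    {y z : Fin n} (hz : ∑ j ∈ J, eta (ρ y) j * push cm (w j y) z ≠ 0) :
    z ∈ Cs ∧ t y z ≤ 14 * ρ y := by
  obtain ⟨j, -, hj⟩ := Finset.exists_ne_zero_of_sum_ne_zero hz
  obtain ⟨he, hp⟩ := ne_zero_and_ne_zero_of_mul hj
  obtain ⟨x, hx, hwx⟩ := Finset.exists_ne_zero_of_sum_ne_zero hp
  have hxz : cm x = z := (Finset.mem_filter.1 hx).2
  obtain ⟨-, e2⟩ := eta_support (hρ y) he
  have h1 : t y x ≤ 4 * (2:ℝ) ^ j := hw j y x hwx
  have h2 : ρ x ≤ ρ y + t y x := by
    have := hlip x y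
    rw [ht.symm x y] at this
    exact this
  have h3 := ht.tri y x z
  subst hxz
  refine ⟨(hcm x).1, ?_⟩
  linarith [(hcm x).2]

end Star

theorem star : StarStmt := by
  refine ⟨100000, by norm_num, ?_⟩
  intro n t ht ρ Cs cm hρ hlip hcm β Cw w hβ hCw hwW hws hwtv
  obtain ⟨lo, hi, hle, hrange⟩ := Star.exists_range ρ hρ
  let J : Finset ℤ := Finset.Ico lo hi
  let T : Fin n → Fin n → ℝ := fun y z =>
    ∑ j ∈ J, Star.eta (ρ y) j * Star.push cm (w j y) z
  have heta1 : ∀ y, ∑ j ∈ J, Star.eta (ρ y) j = 1 := by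
    intro y
    rw [Star.sum_eta _ hle, Star.xi_eq_one (hρ y) (hrange y).2,
      Star.xi_eq_zero (hρ y) (hrange y).1, sub_zero]
  have hTW : ∀ y, IsW (T y) := fun y =>
    Star.isW_mix (fun j _ => Star.eta_nonneg (hρ y) j) (heta1 y)
      fun j => Star.isW_push cm (hwW j y)
  refine ⟨fun i y z => Star.xi (ρ y) i * T y z + (1 - Star.xi (ρ y) i) * w i y z,
    fun i y => (hTW y).comb (hwW i y) (Star.ramp01_nonneg _) (Star.ramp01_le_one _), ?_, ?_, ?_⟩
  · intro i y z hz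
    have hp : (0:ℝ) < (2:ℝ) ^ i := zpow_pos two_pos _
    rcases ne_or_eq (Star.xi (ρ y) i * T y z) 0 with h | h
    · obtain ⟨hx, hT⟩ := ne_zero_and_ne_zero_of_mul h
      obtain ⟨hzC, hzt⟩ := Star.mix_support ht hρ hlip hcm J hws hT
      have hlow : ρ y < 2 * (2:ℝ) ^ i := by
        by_contra hc
        exact hx (Star.xi_eq_zero (hρ y) (not_lt.1 hc))
      refine ⟨by linarith [hρ y], fun _ => ⟨hzC, by linarith [hρ y]⟩⟩
    · simp only [h, zero_add] at hz
      obtain ⟨hx, hwz⟩ := ne_zero_and_ne_zero_of_mul hz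
      have h4 := hws i y z hwz
      refine ⟨by linarith, fun hle' => ?_⟩
      exact absurd (by rw [Star.xi_eq_one (hρ y) hle']; ring) hx
  · intro i j y hi' hj'
    funext z
    simp only [Star.xi_eq_one (hρ y) hi', Star.xi_eq_one (hρ y) hj', sub_self, zero_mul]
  · intro i y y' hi'
    set R : ℝ := max (ρ y) (ρ y') with hR
    set u : ℝ := t y y' / (2:ℝ) ^ i with hu
    have hp : (0:ℝ) < (2:ℝ) ^ i := zpow_pos two_pos _
    have ht0 : 0 ≤ t y y' := ht.nonneg y y'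
    have hu0 : 0 ≤ u := div_nonneg ht0 hp.le
    have hν : 1 ≤ nuG t β 25 i y := one_le_nuG t hβ 25 i y
    have hCν : 1 ≤ Cw * nuG t β 25 i y := one_le_mul_of_one_le_of_one_le hCw hν
    have hWi : ∀ x, IsW (fun z => Star.xi (ρ x) i * T x z + (1 - Star.xi (ρ x) i) * w i x z) :=
      fun x => (hTW x).comb (hwW i x) (Star.ramp01_nonneg _) (Star.ramp01_le_one _)
    by_cases hbig : (2:ℝ) ^ i ≤ 1024 * t y y'
    · have h1 : 1 ≤ 1024 * u := by
        rw [hu, ← mul_div_assoc, le_div_iff₀ hp, one_mul]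
        exact hbig
      refine (tv_le_two (hWi y) (hWi y')).trans ?_
      nlinarith [mul_le_mul_of_nonneg_left hCν hu0]
    have hsm : 8 * t y y' ≤ R := by linarith [not_le.1 hbig]
    have hab : |ρ y - ρ y'| ≤ t y y' := by
      rw [abs_le]
      have := hlip y' y
      rw [ht.symm y' y] at this
      constructor <;> linarith [hlip y y']
    have hy1 : 7 * R ≤ 8 * ρ y := by
      rcases max_choice (ρ y) (ρ y') with h | h <;> rw [← hR] at h <;>
        linarith [(abs_le.1 hab).1, hρ y]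
    have hy2 : 7 * R ≤ 8 * ρ y' := by
      rcases max_choice (ρ y) (ρ y') with h | h <;> rw [← hR] at h <;>
        linarith [(abs_le.1 hab).2, hρ y']
    have hR0 : 0 < R := lt_of_lt_of_le (hρ y) (le_max_left _ _)
    have htR : t y y' / R ≤ 128 * u := by
      rw [hu, ← mul_div_assoc, div_le_div_iff₀ hR0 hp]
      nlinarith
    have hw1 : tv (w i y) (w i y') ≤ Cw * nuG t β 25 i y * u :=
      (hwtv i y y').trans (mul_le_mul_of_nonneg_right (mul_le_mul_of_nonneg_left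
        (nuG_mono t β y (by omega) (by omega)) (by linarith)) hu0)
    have hxi : |Star.xi (ρ y) i - Star.xi (ρ y') i| ≤ 43520 * u := by
      refine (Star.abs_xi_sub (hρ y) (hρ y') i).trans ?_
      have h49 : 49 * R ^ 2 ≤ 64 * (ρ y * ρ y') := by nlinarith
      have hnum : 2 * (2:ℝ) ^ i * |ρ y - ρ y'| ≤ 256 * R * t y y' :=
        mul_le_mul (by linarith) hab (abs_nonneg _) (by linarith)
      rw [div_le_iff₀ (mul_pos (hρ y) (hρ y'))]
      refine hnum.trans ?_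
      have h' : 256 * R * t y y' ≤ 340 * (t y y' / R) * (ρ y * ρ y') := by
        rw [show 340 * (t y y' / R) * (ρ y * ρ y') = t y y' * (340 * (ρ y * ρ y')) / R by ring,
          le_div_iff₀ hR0]
        have : 256 * R ^ 2 ≤ 340 * (ρ y * ρ y') := by nlinarith
        nlinarith [mul_le_mul_of_nonneg_left this ht0]
      refine h'.trans (mul_le_mul_of_nonneg_right ?_ (mul_pos (hρ y) (hρ y')).le)
      linarith
    have hT : Star.xi (ρ y) i * tv (T y) (T y')
        ≤ Star.xi (ρ y) i * (5632 * (Cw * nuG t β 25 i y * u)) := by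
      by_cases hx : Star.xi (ρ y) i = 0
      · simp [hx]
      refine mul_le_mul_of_nonneg_left ?_ (Star.ramp01_nonneg _)
      have hlow : ρ y < 2 * (2:ℝ) ^ i := by
        by_contra hc
        exact hx (Star.xi_eq_zero (hρ y) (not_lt.1 hc))
      refine (Star.tv_mix (fun j _ => Star.eta_nonneg (hρ y) j)
        (fun j => Star.isW_push cm (hwW j y'))).trans ?_
      rw [Finset.sum_add_distrib]
      have hA : ∑ j ∈ J, Star.eta (ρ y) j * tv (Star.push cm (w j y)) (Star.push cm (w j y'))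
          ≤ ∑ j ∈ J, Star.eta (ρ y) j * (1024 * (Cw * nuG t β 25 i y * u)) := by
        refine Finset.sum_le_sum fun j _ => ?_
        by_cases he : Star.eta (ρ y) j = 0
        · simp [he]
        refine mul_le_mul_of_nonneg_left ?_ (Star.eta_nonneg (hρ y) j)
        obtain ⟨e1, e2⟩ := Star.eta_support (hρ y) he
        obtain ⟨⟨hji, hij⟩, hpow⟩ := Star.level_close e1 e2 (by linarith) hlow
        refine (Star.tv_push_le _ _ _).trans ((hwtv j y y').trans ?_)
        have hdiv : t y y' / (2:ℝ) ^ j ≤ 1024 * u := by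
          rw [hu, ← mul_div_assoc, div_le_div_iff₀ (zpow_pos two_pos _) hp]
          nlinarith
        have hmono : nuG t β 5 j y ≤ nuG t β 25 i y := nuG_mono t β y (by omega) (by omega)
        calc Cw * nuG t β 5 j y * (t y y' / (2:ℝ) ^ j)
            ≤ Cw * nuG t β 25 i y * (1024 * u) :=
              mul_le_mul (mul_le_mul_of_nonneg_left hmono (by linarith)) hdiv
                (div_nonneg ht0 (zpow_pos two_pos _).le) (by linarith)
          _ = 1024 * (Cw * nuG t β 25 i y * u) := by ring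
      rw [← Finset.sum_mul, heta1 y, one_mul] at hA
      have hB := Star.sum_abs_eta_sub J (hρ y) (hρ y') hy1 hy2 (le_max_left _ _) (le_max_right _ _)
        hab
      have : u ≤ Cw * nuG t β 25 i y * u := le_mul_of_one_le_left hu0 hCν
      linarith
    refine (Star.tv_comb (Star.ramp01_nonneg _) (Star.ramp01_le_one _) (hTW y')
      (hwW i y')).trans ?_
    have hx0 : 0 ≤ Star.xi (ρ y) i := Star.ramp01_nonneg _
    have hx1 : Star.xi (ρ y) i ≤ 1 := Star.ramp01_le_one _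
    have hU : u ≤ Cw * nuG t β 25 i y * u := le_mul_of_one_le_left hu0 hCν
    have hw2 : (1 - Star.xi (ρ y) i) * tv (w i y) (w i y')
        ≤ 1 * (Cw * nuG t β 25 i y * u) :=
      mul_le_mul (by linarith) hw1 (tv_nonneg _ _) zero_le_one
    have hT2 : Star.xi (ρ y) i * (5632 * (Cw * nuG t β 25 i y * u))
        ≤ 5632 * (Cw * nuG t β 25 i y * u) :=
      mul_le_of_le_one_left (by linarith) hx1
    calc Star.xi (ρ y) i * tv (T y) (T y') + (1 - Star.xi (ρ y) i) * tv (w i y) (w i y')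
          + 2 * |Star.xi (ρ y) i - Star.xi (ρ y') i|
        ≤ 100000 * (Cw * nuG t β 25 i y * u) := by linarith
      _ = 100000 * Cw * nuG t β 25 i y * u := by ring

end Vale.Agent.P249.Full
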