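import Mathlib
import Vale.Agent.P249.Full.SplitSpec

/-! Averaging stopped chains over windows of levels. -/

namespace Vale.Agent.P249.Full

open Finset

/-- A sum with geometric magnitudes is carried by logarithmically many top terms. -/
lemma window_top_terms {p : ℝ} (hp : 1 ≤ p) {c Amax : ℝ} (hc : 0 ≤ c) (hAmax : 1 ≤ Amax)
    (S : Finset ℕ) (A : ℕ → ℝ) (hA : ∀ l ∈ S, A l = 0 ∨ (1 ≤ A l ∧ A l ≤ Amax)) :
    (∑ l ∈ S, c * 2 ^ l * A l) ^ p ≤
      2 ^ p * (3 * (1 + Real.log (2 + Amax))) ^ (p - 1) * ∑ l ∈ S, (c * 2 ^ l * A l) ^ p := by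
  classical
  have hA0 : ∀ l ∈ S, 0 ≤ A l := fun l hl => by
    rcases hA l hl with h | h <;> linarith [h]
  have hg : ∀ l ∈ S, 0 ≤ c * 2 ^ l * A l := fun l hl =>
    mul_nonneg (mul_nonneg hc (by positivity)) (hA0 l hl)
  have hlog : 0 ≤ 1 + Real.log (2 + Amax) := by
    have := Real.log_nonneg (show (1:ℝ) ≤ 2 + Amax by linarith); linarith
  have hnn : 0 ≤ ∑ l ∈ S, (c * 2 ^ l * A l) ^ p :=
    Finset.sum_nonneg fun l hl => Real.rpow_nonneg (hg l hl) _
  set S' := S.filter (fun l => A l ≠ 0) with hS'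
  have hsum : ∑ l ∈ S, c * 2 ^ l * A l = ∑ l ∈ S', c * 2 ^ l * A l := by
    symm
    refine Finset.sum_filter_of_ne fun l _ h => ?_
    intro h0
    exact h (by simp [h0])
  by_cases hne : S'.Nonempty
  swap
  · rw [hsum, Finset.not_nonempty_iff_eq_empty.1 hne, Finset.sum_empty,
      Real.zero_rpow (by linarith)]
    exact mul_nonneg (mul_nonneg (by positivity) (Real.rpow_nonneg (by linarith) _)) hnn
  set ls := S'.max' hne with hls
  set r : ℕ := ⌈Real.logb 2 Amax⌉₊ with hr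
  have hr2 : Amax ≤ (2:ℝ) ^ r := by
    have h1 : Real.logb 2 Amax ≤ r := Nat.le_ceil _
    have h2 := Real.rpow_le_rpow_of_exponent_le (by norm_num : (1:ℝ) ≤ 2) h1
    rwa [Real.rpow_logb (by norm_num) (by norm_num) (by linarith), Real.rpow_natCast] at h2
  have hrb : (r:ℝ) + 1 ≤ 3 * (1 + Real.log (2 + Amax)) := by
    have h0 : 0 ≤ Real.logb 2 Amax := Real.logb_nonneg (by norm_num) hAmax
    have h1 : (r:ℝ) < Real.logb 2 Amax + 1 := Nat.ceil_lt_add_one h0
    have hl2 := Real.log_two_gt_d9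
    have h2 : Real.logb 2 Amax ≤ 3 * Real.log (2 + Amax) := by
      rw [Real.logb, div_le_iff₀ (by linarith)]
      have h3 : Real.log Amax ≤ Real.log (2 + Amax) := Real.log_le_log (by linarith) (by linarith)
      have h4 : 0 ≤ Real.log (2 + Amax) := Real.log_nonneg (by linarith)
      nlinarith
    linarith
  set T := S'.filter (fun l => ls < l + (r + 1)) with hT
  have hT_mem : ls ∈ T := by
    simp only [hT, Finset.mem_filter]
    exact ⟨Finset.max'_mem _ _, by omega⟩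
  have hsub : S' ⊆ S := Finset.filter_subset _ _
  have hTS : T ⊆ S := (Finset.filter_subset _ _).trans hsub
  have hTcard : (T.card : ℝ) ≤ r + 1 := by
    have : T ⊆ Finset.Icc (ls - r) ls := by
      intro l hl
      simp only [hT, Finset.mem_filter] at hl
      have := Finset.le_max' S' l hl.1
      simp only [Finset.mem_Icc]
      omega
    have := Finset.card_le_card this
    rw [Nat.card_Icc] at this
    exact_mod_cast (by omega : T.card ≤ r + 1)
  have hAls : 1 ≤ A ls := by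
    have := Finset.mem_filter.1 (Finset.max'_mem S' hne)
    exact ((hA ls this.1).resolve_left this.2).1
  have hrest : ∑ l ∈ S' \ T, c * 2 ^ l * A l ≤ c * 2 ^ ls * A ls := by
    by_cases he : (S' \ T).Nonempty
    swap
    · rw [Finset.not_nonempty_iff_eq_empty.1 he, Finset.sum_empty]
      exact hg ls (hTS hT_mem)
    have hin : ∀ l ∈ S' \ T, l + r < ls := by
      intro l hl
      simp only [hT, Finset.mem_sdiff, Finset.mem_filter, not_and, not_lt] at hl
      have := hl.2 hl.1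
      omega
    obtain ⟨l0, hl0⟩ := he
    have hrls : r ≤ ls := by have := hin l0 hl0; omega
    have hgeo : ∑ l ∈ S' \ T, (2:ℝ) ^ l ≤ 2 ^ (ls - r) := by
      calc ∑ l ∈ S' \ T, (2:ℝ) ^ l ≤ ∑ l ∈ range (ls - r), (2:ℝ) ^ l :=
            Finset.sum_le_sum_of_subset_of_nonneg
              (fun l hl => Finset.mem_range.2 (by have := hin l hl; omega))
              (fun _ _ _ => by positivity)
        _ ≤ 2 ^ (ls - r) := by
            rw [geom_sum_eq (by norm_num) (ls - r)]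
            norm_num
    calc ∑ l ∈ S' \ T, c * 2 ^ l * A l ≤ ∑ l ∈ S' \ T, c * 2 ^ l * Amax := by
          refine Finset.sum_le_sum fun l hl => mul_le_mul_of_nonneg_left ?_ (by positivity)
          rcases hA l (hsub (Finset.mem_sdiff.1 hl).1) with h | h <;> linarith [h]
      _ = c * Amax * ∑ l ∈ S' \ T, (2:ℝ) ^ l := by
          rw [Finset.mul_sum]; exact Finset.sum_congr rfl fun l _ => by ring
      _ ≤ c * (2:ℝ) ^ r * (2:ℝ) ^ (ls - r) := by
          refine mul_le_mul (mul_le_mul_of_nonneg_left hr2 hc) hgeo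
            (Finset.sum_nonneg fun _ _ => by positivity) (by positivity)
      _ = c * 2 ^ ls := by rw [mul_assoc, ← pow_add, Nat.add_sub_cancel' hrls]
      _ ≤ c * 2 ^ ls * A ls := le_mul_of_one_le_right (by positivity) hAls
  have hT0 : 0 ≤ ∑ l ∈ T, c * 2 ^ l * A l := Finset.sum_nonneg fun l hl => hg l (hTS hl)
  have htot : ∑ l ∈ S, c * 2 ^ l * A l ≤ 2 * ∑ l ∈ T, c * 2 ^ l * A l := by
    rw [hsum, ← Finset.sum_sdiff (Finset.filter_subset (fun l => ls < l + (r + 1)) S'), ← hT]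
    have := Finset.single_le_sum (fun l hl => hg l (hTS hl)) hT_mem
    linarith
  have hpm : (∑ l ∈ T, c * 2 ^ l * A l) ^ p
      ≤ (T.card : ℝ) ^ (p - 1) * ∑ l ∈ T, (c * 2 ^ l * A l) ^ p :=
    Real.rpow_sum_le_const_mul_sum_rpow_of_nonneg T hp fun l hl => hg l (hTS hl)
  calc (∑ l ∈ S, c * 2 ^ l * A l) ^ p
      ≤ (2 * ∑ l ∈ T, c * 2 ^ l * A l) ^ p :=
        Real.rpow_le_rpow (Finset.sum_nonneg hg) htot (by linarith)
    _ = 2 ^ p * (∑ l ∈ T, c * 2 ^ l * A l) ^ p := Real.mul_rpow (by norm_num) hT0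
    _ ≤ 2 ^ p * ((T.card : ℝ) ^ (p - 1) * ∑ l ∈ T, (c * 2 ^ l * A l) ^ p) := by gcongr
    _ ≤ 2 ^ p * ((3 * (1 + Real.log (2 + Amax))) ^ (p - 1) * ∑ l ∈ S, (c * 2 ^ l * A l) ^ p) := by
        refine mul_le_mul_of_nonneg_left (mul_le_mul ?_ ?_ ?_ ?_) (by positivity)
        · exact Real.rpow_le_rpow (by positivity) (hTcard.trans hrb) (by linarith)
        · exact Finset.sum_le_sum_of_subset_of_nonneg hTS
            fun l hl _ => Real.rpow_nonneg (hg l hl) _
        · exact Finset.sum_nonneg fun l hl => Real.rpow_nonneg (hg l (hTS hl)) _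
        · exact Real.rpow_nonneg (by linarith) _
    _ = _ := by ring

lemma window_avg_rpow_le {p : ℝ} (hp : 1 ≤ p) {L : ℕ} (hL : 1 ≤ L) (a : ℕ → ℝ) (lo : ℕ) :
    |winAvg L a lo| ^ p ≤ (∑ l ∈ Ico lo (lo + L), |a l| ^ p) / L := by
  have hL0 : (0:ℝ) < L := by exact_mod_cast hL
  have h1 : |winAvg L a lo| ≤ (∑ l ∈ Ico lo (lo + L), |a l|) / L := by
    rw [winAvg, abs_div, abs_of_pos hL0]
    exact div_le_div_of_nonneg_right (Finset.abs_sum_le_sum_abs _ _) hL0.le
  have h2 := Real.rpow_sum_le_const_mul_sum_rpow_of_nonneg (Ico lo (lo + L)) hp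
    (f := fun l => |a l|) fun _ _ => abs_nonneg _
  rw [Nat.card_Ico, Nat.add_sub_cancel_left] at h2
  calc |winAvg L a lo| ^ p ≤ ((∑ l ∈ Ico lo (lo + L), |a l|) / L) ^ p :=
        Real.rpow_le_rpow (abs_nonneg _) h1 (by linarith)
    _ = (∑ l ∈ Ico lo (lo + L), |a l|) ^ p / (L:ℝ) ^ p :=
        Real.div_rpow (Finset.sum_nonneg fun _ _ => abs_nonneg _) hL0.le p
    _ ≤ (L:ℝ) ^ (p - 1) * (∑ l ∈ Ico lo (lo + L), |a l| ^ p) / (L:ℝ) ^ p := by gcongr
    _ = (∑ l ∈ Ico lo (lo + L), |a l| ^ p) / L := by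
        rw [Real.rpow_sub_one hL0.ne']
        field_simp

lemma window_count (f : ℕ → ℝ) {J L : ℕ} (hf : ∀ l < J, 0 ≤ f l) (hLJ : L ≤ J) :
    ∑ lo ∈ range (J - L + 1), ∑ l ∈ Ico lo (lo + L), f l ≤ L * ∑ l ∈ range J, f l := by
  simp only [Finset.sum_Ico_eq_sum_range, Nat.add_sub_cancel_left]
  rw [Finset.sum_comm]
  calc ∑ i ∈ range L, ∑ lo ∈ range (J - L + 1), f (lo + i)
      ≤ ∑ i ∈ range L, ∑ l ∈ range J, f l := by
        refine Finset.sum_le_sum fun i hi => ?_
        rw [← Finset.sum_image (f := f) (g := fun lo => lo + i)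
          (fun a _ b _ h => Nat.add_right_cancel h)]
        refine Finset.sum_le_sum_of_subset_of_nonneg ?_ fun l hl _ => hf l (Finset.mem_range.1 hl)
        intro l hl
        simp only [Finset.mem_image, Finset.mem_range] at hl hi ⊢
        obtain ⟨lo, hlo, rfl⟩ := hl
        omega
    _ = _ := by rw [Finset.sum_const, Finset.card_range, nsmul_eq_mul]

/-- The tail of geometric magnitudes below the flagged levels. -/
lemma window_flag_sum {p : ℝ} (hp : 1 ≤ p) {c : ℝ} (hc : 0 ≤ c) {J L : ℕ} (hLJ : L ≤ J)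
    (flag : ℕ → Prop) [DecidablePred flag] :
    ∑ lo ∈ range (J - L + 1),
        (if ∃ l ∈ Ico lo (lo + L), flag l then (c * 2 ^ lo) ^ p else 0)
      ≤ 2 * ∑ l ∈ range J, (if flag l then (c * 2 ^ l) ^ p else 0) := by
  have h0 : ∀ l, (0:ℝ) ≤ (if flag l then (c * 2 ^ l) ^ p else 0) := fun l => by
    split_ifs
    · exact Real.rpow_nonneg (by positivity) _
    · exact le_rfl
  have key : ∀ lo ∈ range (J - L + 1),
      (if ∃ l ∈ Ico lo (lo + L), flag l then (c * 2 ^ lo) ^ p else 0)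
        ≤ ∑ i ∈ range L, (1/2:ℝ) ^ i *
            (if flag (lo + i) then (c * 2 ^ (lo + i)) ^ p else 0) := by
    intro lo _
    split_ifs with h
    · obtain ⟨l, hl, hfl⟩ := h
      rw [Finset.mem_Ico] at hl
      refine le_trans ?_ (Finset.single_le_sum (a := l - lo)
        (fun i _ => mul_nonneg (by positivity) (h0 _)) (Finset.mem_range.2 (by omega)))
      rw [Nat.add_sub_cancel' hl.1, if_pos hfl]
      set i := l - lo
      have hli : l = lo + i := by omega
      have h2 : (2:ℝ) ^ i ≤ ((2:ℝ) ^ i) ^ p := Real.self_le_rpow_of_one_le (one_le_pow₀ (by norm_num)) hp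
      rw [hli, pow_add, ← mul_assoc, Real.mul_rpow (by positivity : 0 ≤ c * 2 ^ lo) (by positivity),
        div_pow, one_pow, div_mul_eq_mul_div, one_mul, le_div_iff₀ (by positivity)]
      exact mul_le_mul_of_nonneg_left h2 (Real.rpow_nonneg (by positivity) _)
    · exact Finset.sum_nonneg fun i _ => mul_nonneg (by positivity) (h0 _)
  refine (Finset.sum_le_sum key).trans ?_
  rw [Finset.sum_comm]
  calc ∑ i ∈ range L, ∑ lo ∈ range (J - L + 1),
        (1/2:ℝ) ^ i * (if flag (lo + i) then (c * 2 ^ (lo + i)) ^ p else 0)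
      ≤ ∑ i ∈ range L, (1/2:ℝ) ^ i * ∑ l ∈ range J, (if flag l then (c * 2 ^ l) ^ p else 0) := by
        refine Finset.sum_le_sum fun i hi => ?_
        rw [← Finset.mul_sum]
        refine mul_le_mul_of_nonneg_left ?_ (by positivity)
        rw [← Finset.sum_image (f := fun l => if flag l then (c * 2 ^ l) ^ p else 0)
          (g := fun lo => lo + i) (fun a _ b _ h => Nat.add_right_cancel h)]
        refine Finset.sum_le_sum_of_subset_of_nonneg ?_ fun l _ _ => h0 l
        intro l hl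
        simp only [Finset.mem_image, Finset.mem_range] at hl hi ⊢
        obtain ⟨lo, hlo, rfl⟩ := hl
        omega
    _ ≤ _ := by
        rw [← Finset.sum_mul]
        exact mul_le_mul_of_nonneg_right (sum_geometric_two_le L)
          (Finset.sum_nonneg fun l _ => h0 l)

lemma window_one_sub_rpow_le {p x : ℝ} (hp : 1 ≤ p) (h0 : 0 ≤ x) : 1 - x ^ p ≤ p * (1 - x) := by
  have := one_add_mul_self_le_rpow_one_add (show -1 ≤ x - 1 by linarith) hp
  rw [add_sub_cancel] at this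
  linarith

lemma window_rpow_sub_le {p x y : ℝ} (hp : 1 ≤ p) (hy : 0 ≤ y) (hyx : y ≤ x) :
    x ^ p - y ^ p ≤ p * x ^ (p - 1) * (x - y) := by
  rcases eq_or_lt_of_le (hy.trans hyx) with h | h
  · obtain rfl : y = x := le_antisymm hyx (h ▸ hy)
    simp
  have h1 := window_one_sub_rpow_le hp (div_nonneg hy h.le)
  rw [Real.div_rpow hy h.le] at h1
  have hxp : 0 < x ^ p := Real.rpow_pos_of_pos h _
  rw [Real.rpow_sub_one h.ne']
  calc x ^ p - y ^ p = x ^ p * (1 - y ^ p / x ^ p) := by field_simp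
    _ ≤ x ^ p * (p * (1 - y / x)) := mul_le_mul_of_nonneg_left h1 hxp.le
    _ = _ := by field_simp

lemma window_young {p a x lam : ℝ} (hp : 1 ≤ p) (ha : 0 ≤ a) (hx : 0 ≤ x) (hlam : 0 < lam) :
    a ^ (p - 1) * x ≤ lam * a ^ p + x ^ p / lam ^ (p - 1) := by
  have hxp : x ^ p = x ^ (p - 1) * x := by
    rw [← Real.rpow_add_one' hx (by linarith), sub_add_cancel]
  have hap : a ^ p = a ^ (p - 1) * a := by
    rw [← Real.rpow_add_one' ha (by linarith), sub_add_cancel]
  have hl : 0 < lam ^ (p - 1) := Real.rpow_pos_of_pos hlam _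
  rcases le_or_gt x (lam * a) with h | h
  · refine le_add_of_le_of_nonneg ?_ (by positivity)
    rw [hap]
    nlinarith [Real.rpow_nonneg ha (p - 1)]
  · refine le_add_of_nonneg_of_le (by positivity) ?_
    rw [le_div_iff₀ hl, hxp]
    have : (lam * a) ^ (p - 1) ≤ x ^ (p - 1) := Real.rpow_le_rpow (by positivity) h.le (by linarith)
    rw [Real.mul_rpow hlam.le ha] at this
    nlinarith

lemma window_loss {p P : ℝ} (hp : 1 ≤ p) (h0 : 0 ≤ P) (h1 : P ≤ 1) :
    0 ≤ 1 - P ^ p - (1 - P) ^ p ∧ 1 - P ^ p - (1 - P) ^ p ≤ 1 ∧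
      1 - P ^ p - (1 - P) ^ p ≤ p * P := by
  have a := Real.rpow_le_self_of_le_one h0 h1 hp
  have b := Real.rpow_le_self_of_le_one (by linarith : 0 ≤ 1 - P) (by linarith) hp
  have c := window_one_sub_rpow_le hp (by linarith : 0 ≤ 1 - P)
  have d := Real.rpow_nonneg h0 p
  have e := Real.rpow_nonneg (by linarith : 0 ≤ 1 - P) p
  refine ⟨by linarith, by linarith, ?_⟩
  have : 1 - (1 - P) = P := by ring
  rw [this] at c
  linarith

lemma window_logb_count {S : Finset ℕ} {R : ℝ} (hR : 1 ≤ R)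
    (h : ∀ i ∈ S, ∀ j ∈ S, i ≤ j → (2:ℝ) ^ (j - i) ≤ R) :
    (S.card : ℝ) ≤ Real.logb 2 R + 1 := by
  by_cases hS : S.Nonempty
  swap
  · rw [Finset.not_nonempty_iff_eq_empty.1 hS]
    simp only [Finset.card_empty, Nat.cast_zero]
    linarith [Real.logb_nonneg (by norm_num : (1:ℝ) < 2) hR]
  have hsub : S ⊆ Finset.Icc (S.min' hS) (S.max' hS) := fun x hx =>
    Finset.mem_Icc.2 ⟨Finset.min'_le _ _ hx, Finset.le_max' _ _ hx⟩
  have hmm := Finset.min'_le_max' S hS
  have hcard := Finset.card_le_card hsub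
  rw [Nat.card_Icc] at hcard
  have hk := h _ (Finset.min'_mem S hS) _ (Finset.max'_mem S hS) hmm
  set k := S.max' hS - S.min' hS with hkdef
  have h2 : (k:ℝ) ≤ Real.logb 2 R := by
    rw [Real.le_logb_iff_rpow_le (by norm_num) (by linarith), Real.rpow_natCast]
    exact hk
  have h3 : (S.card : ℝ) ≤ k + 1 := by exact_mod_cast (by omega : S.card ≤ k + 1)
  linarith

lemma window_rpow_add_le {p x y : ℝ} (hp : 1 ≤ p) (hx : 0 ≤ x) (hy : 0 ≤ y) :
    (x + y) ^ p ≤ 2 ^ p * (x ^ p + y ^ p) := by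
  have a := Real.rpow_nonneg hx p
  have b := Real.rpow_nonneg hy p
  have c : (x + y) ^ p ≤ (2 * max x y) ^ p :=
    Real.rpow_le_rpow (by linarith) (by linarith [le_max_left x y, le_max_right x y]) (by linarith)
  rw [Real.mul_rpow (by norm_num) (le_max_of_le_left hx)] at c
  refine c.trans (mul_le_mul_of_nonneg_left ?_ (by positivity))
  rcases max_cases x y with ⟨h, -⟩ | ⟨h, -⟩ <;> rw [h] <;> linarith

lemma window_winAvg_lin (L : ℕ) (P e D : ℕ → ℝ) (d : ℝ) (lo : ℕ) :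
    winAvg L (fun l => P l * d + e l + D l) lo
      = winAvg L P lo * d + winAvg L e lo + winAvg L D lo := by
  simp only [winAvg, Finset.sum_add_distrib, ← Finset.sum_mul]
  ring

/-- The loss of one coordinate in one window. -/
lemma window_pointwise {p δ1 lam c K : ℝ} (hp : 1 ≤ p) {L lo : ℕ} (hL : 1 ≤ L) (hδ1 : 0 < δ1)
    (hlam : 0 < lam) (hc : 0 ≤ c) (hK : 0 ≤ K) (d : ℝ) {a P e D : ℕ → ℝ}
    (hP : ∀ l ∈ Ico lo (lo + L), 0 ≤ P l ∧ P l ≤ 1)
    (hbd : ∀ l ∈ Ico lo (lo + L), |a l| ≤ K * c * 2 ^ l)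
    (hab : winAvg L a lo = winAvg L P lo * d + winAvg L e lo + winAvg L D lo) :
    (1 - winAvg L P lo ^ p - (1 - winAvg L P lo) ^ p) * |d| ^ p
      ≤ δ1 ^ p * (if ∃ l ∈ Ico lo (lo + L), P l < 1 then (c * 2 ^ lo) ^ p else 0)
        + (if δ1 * (c * 2 ^ lo) < |d| ∧ δ1 * |d| < K * (c * 2 ^ lo) * 2 ^ (L - 1)
            then |d| ^ p else 0)
        + p * ((δ1 + lam) * |d| ^ p
          + 2 ^ p * (|winAvg L e lo| ^ p + |winAvg L D lo| ^ p) / lam ^ (p - 1)) := by
  have hLR : (0:ℝ) < L := by exact_mod_cast hL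
  have hp0 : 0 < p := by linarith
  have h0 : 0 ≤ winAvg L P lo :=
    div_nonneg (Finset.sum_nonneg fun l hl => (hP l hl).1) hLR.le
  have h1 : winAvg L P lo ≤ 1 := by
    rw [winAvg, div_le_one hLR]
    calc ∑ l ∈ Ico lo (lo + L), P l ≤ ∑ l ∈ Ico lo (lo + L), (1:ℝ) :=
          Finset.sum_le_sum fun l hl => (hP l hl).2
      _ = L := by simp
  obtain ⟨f0, f1, fP⟩ := window_loss hp h0 h1
  have dp : 0 ≤ |d| ^ p := Real.rpow_nonneg (abs_nonneg _) _
  have hΘ0 : 0 ≤ c * 2 ^ lo := by positivity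
  have t1 : 0 ≤ δ1 ^ p * (if ∃ l ∈ Ico lo (lo + L), P l < 1 then (c * 2 ^ lo) ^ p else 0) := by
    split_ifs <;> positivity
  have t2 : 0 ≤ (if δ1 * (c * 2 ^ lo) < |d| ∧ δ1 * |d| < K * (c * 2 ^ lo) * 2 ^ (L - 1)
      then |d| ^ p else 0) := by split_ifs <;> positivity
  have t3 : 0 ≤ p * ((δ1 + lam) * |d| ^ p
      + 2 ^ p * (|winAvg L e lo| ^ p + |winAvg L D lo| ^ p) / lam ^ (p - 1)) := by
    positivity
  have hfd := mul_le_of_le_one_left dp f1
  rcases le_or_gt |d| (δ1 * (c * 2 ^ lo)) with hhigh | hnh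
  · -- high levels
    by_cases hex : ∃ l ∈ Ico lo (lo + L), P l < 1
    · rw [if_pos hex]
      have h2 := Real.rpow_le_rpow (abs_nonneg _) hhigh hp0.le
      rw [Real.mul_rpow hδ1.le hΘ0] at h2
      linarith
    · push Not at hex
      have hone : winAvg L P lo = 1 := by
        rw [winAvg, Finset.sum_congr rfl fun l hl => le_antisymm (hP l hl).2 (hex l hl)]
        simp [hLR.ne']
      have hz : (1 - winAvg L P lo ^ p - (1 - winAvg L P lo) ^ p) = 0 := by
        rw [hone, Real.one_rpow, sub_self, Real.zero_rpow hp0.ne', sub_zero]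
      rw [hz, zero_mul]
      linarith
  · by_cases hmid : δ1 * |d| < K * (c * 2 ^ lo) * 2 ^ (L - 1)
    · rw [if_pos (show δ1 * (c * 2 ^ lo) < |d| ∧ _ from ⟨hnh, hmid⟩)]
      linarith
    · -- low levels
      push Not at hmid
      have hab1 : |winAvg L a lo| ≤ δ1 * |d| := by
        rw [winAvg, abs_div, abs_of_pos hLR, div_le_iff₀ hLR]
        calc |∑ l ∈ Ico lo (lo + L), a l| ≤ ∑ l ∈ Ico lo (lo + L), |a l| :=
              Finset.abs_sum_le_sum_abs _ _
          _ ≤ ∑ l ∈ Ico lo (lo + L), δ1 * |d| := by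
              refine Finset.sum_le_sum fun l hl => le_trans (hbd l hl) (le_trans ?_ hmid)
              rw [Finset.mem_Ico] at hl
              have h2 : (2:ℝ) ^ l ≤ 2 ^ lo * 2 ^ (L - 1) := by
                rw [← pow_add]; exact pow_le_pow_right₀ (by norm_num) (by omega)
              calc K * c * 2 ^ l ≤ K * c * (2 ^ lo * 2 ^ (L - 1)) :=
                    mul_le_mul_of_nonneg_left h2 (mul_nonneg hK hc)
                _ = K * (c * 2 ^ lo) * 2 ^ (L - 1) := by ring
          _ = δ1 * |d| * L := by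
              rw [Finset.sum_const, Nat.card_Ico, Nat.add_sub_cancel_left, nsmul_eq_mul]; ring
      set z : ℝ := |winAvg L e lo| + |winAvg L D lo| with hz
      have hz0 : 0 ≤ z := by positivity
      have hPd : winAvg L P lo * |d| ≤ δ1 * |d| + z := by
        calc winAvg L P lo * |d| = |winAvg L P lo * d| := by rw [abs_mul, abs_of_nonneg h0]
          _ = |winAvg L a lo - winAvg L e lo - winAvg L D lo| := by rw [hab]; ring_nf
          _ ≤ |winAvg L a lo| + |winAvg L e lo| + |winAvg L D lo| :=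
              (abs_sub _ _).trans (add_le_add (abs_sub _ _) le_rfl)
          _ ≤ _ := by linarith
      have hsplit : |d| ^ (p - 1) * |d| = |d| ^ p := by
        rw [← Real.rpow_add_one' (abs_nonneg _) (by linarith), sub_add_cancel]
      have hy := window_young (p := p) hp (abs_nonneg d) hz0 hlam
      have hzp := div_le_div_of_nonneg_right
        (window_rpow_add_le hp (abs_nonneg (winAvg L e lo)) (abs_nonneg (winAvg L D lo)))
        (Real.rpow_nonneg hlam.le (p - 1))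
      rw [← hz] at hzp
      have hm := mul_le_mul_of_nonneg_left hPd (Real.rpow_nonneg (abs_nonneg d) (p - 1))
      rw [mul_add, mul_left_comm, hsplit, mul_left_comm (|d| ^ (p - 1)) δ1, hsplit] at hm
      have hlow := (mul_le_mul_of_nonneg_right fP dp).trans (le_of_eq (mul_assoc _ _ _))
      have hin : winAvg L P lo * |d| ^ p ≤ (δ1 + lam) * |d| ^ p
          + 2 ^ p * (|winAvg L e lo| ^ p + |winAvg L D lo| ^ p) / lam ^ (p - 1) := by
        rw [add_mul]
        linarith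
      have := mul_le_mul_of_nonneg_left hin hp0.le
      linarith

/-- Minkowski's inequality for averages. -/
lemma window_minkowski {ι : Type*} {p J r : ℝ} (hp : 1 ≤ p) (hJ : 0 < J) (hr : 0 ≤ r)
    (S : Finset ι) (f g : ι → ℝ) (h : ∑ x ∈ S, |g x - f x| ^ p ≤ J * r ^ p) :
    ((∑ x ∈ S, |g x| ^ p) / J) ^ (1 / p) ≤ ((∑ x ∈ S, |f x| ^ p) / J) ^ (1 / p) + r := by
  have hp0 : 0 < p := by linarith
  have h1 := Real.Lp_add_le S f (fun x => g x - f x) hp
  simp only [add_sub_cancel] at h1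
  have h3 : (∑ x ∈ S, |g x - f x| ^ p) ^ (1 / p) ≤ J ^ (1 / p) * r := by
    refine (Real.rpow_le_rpow (Finset.sum_nonneg fun _ _ => Real.rpow_nonneg (abs_nonneg _) _)
      h (by positivity)).trans (le_of_eq ?_)
    rw [Real.mul_rpow hJ.le (Real.rpow_nonneg hr _), ← Real.rpow_mul hr,
      mul_one_div_cancel hp0.ne', Real.rpow_one]
  rw [Real.div_rpow (Finset.sum_nonneg fun _ _ => Real.rpow_nonneg (abs_nonneg _) _) hJ.le,
    Real.div_rpow (Finset.sum_nonneg fun _ _ => Real.rpow_nonneg (abs_nonneg _) _) hJ.le,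
    div_add' _ _ _ (Real.rpow_pos_of_pos hJ _).ne']
  exact div_le_div_of_nonneg_right (by linarith) (Real.rpow_nonneg hJ.le _)

/-- The total loss over all windows. -/
lemma window_loss_total {p δ1 lam K : ℝ} (hp : 1 ≤ p) {N J L : ℕ} (hL : 1 ≤ L) (hLJ : L ≤ J)
    (hδ1 : 0 < δ1) (hδ11 : δ1 ≤ 1) (hlam : 0 < lam) (hK : 1 ≤ K) (c d : Fin N → ℝ)
    (hc : ∀ k, 0 ≤ c k) {T W Hs : ℝ} (hT : ∑ k, |d k| ^ p = T) (a P e D : Fin N → ℕ → ℝ)
    (hP : ∀ k, ∀ l < J, 0 ≤ P k l ∧ P k l ≤ 1)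
    (hbd : ∀ k, ∀ l < J, |a k l| ≤ K * c k * 2 ^ l)
    (hab : ∀ k, ∀ lo ∈ range (J - L + 1), winAvg L (a k) lo
      = winAvg L (P k) lo * d k + winAvg L (e k) lo + winAvg L (D k) lo)
    (hHs : ∑ k, ∑ l ∈ range J, (if P k l < 1 then (c k * 2 ^ l) ^ p else 0) ≤ Hs)
    (hW : ∑ lo ∈ range (J - L + 1), ∑ k, |winAvg L (e k) lo| ^ p
      + ∑ lo ∈ range (J - L + 1), ∑ k, |winAvg L (D k) lo| ^ p ≤ W) :
    ∑ lo ∈ range (J - L + 1), ∑ k,
        (1 - winAvg L (P k) lo ^ p - (1 - winAvg L (P k) lo) ^ p) * |d k| ^ p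
      ≤ δ1 ^ p * (2 * Hs) + (L + Real.logb 2 (K / δ1 ^ 2) + 3) * T
        + p * (((J - L + 1 : ℕ) : ℝ) * ((δ1 + lam) * T) + 2 ^ p * W / lam ^ (p - 1)) := by
  have hp0 : 0 < p := by linarith
  have hwin : ∀ lo ∈ range (J - L + 1), ∀ l ∈ Ico lo (lo + L), l < J := by
    intro lo hlo l hl
    rw [Finset.mem_range] at hlo
    rw [Finset.mem_Ico] at hl
    omega
  have hKd : 1 ≤ K / δ1 ^ 2 := by
    rw [le_div_iff₀ (by positivity), one_mul]
    exact le_trans (pow_le_one₀ hδ1.le hδ11) hK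
  refine (Finset.sum_le_sum fun lo hlo => Finset.sum_le_sum fun k _ =>
    window_pointwise hp hL hδ1 hlam (hc k) (by linarith : 0 ≤ K) (d k)
      (fun l hl => hP k l (hwin lo hlo l hl)) (fun l hl => hbd k l (hwin lo hlo l hl))
      (hab k lo hlo)).trans ?_
  simp only [Finset.sum_add_distrib, ← Finset.mul_sum, ← Finset.sum_div, hT, Finset.sum_const,
    Finset.card_range, nsmul_eq_mul]
  refine add_le_add (add_le_add (mul_le_mul_of_nonneg_left ?_ (Real.rpow_nonneg hδ1.le p)) ?_)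
    (mul_le_mul_of_nonneg_left (add_le_add (le_of_eq (by ring)) (div_le_div_of_nonneg_right
      (mul_le_mul_of_nonneg_left hW (by positivity)) (Real.rpow_nonneg hlam.le _))) hp0.le)
  · rw [Finset.sum_comm]
    calc ∑ k, ∑ lo ∈ range (J - L + 1),
          (if ∃ l ∈ Ico lo (lo + L), P k l < 1 then (c k * 2 ^ lo) ^ p else 0)
        ≤ ∑ k, 2 * ∑ l ∈ range J, (if P k l < 1 then (c k * 2 ^ l) ^ p else 0) :=
          Finset.sum_le_sum fun k _ => window_flag_sum hp (hc k) hLJ (fun l => P k l < 1)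
      _ ≤ 2 * Hs := by
          rw [← Finset.mul_sum]
          exact mul_le_mul_of_nonneg_left hHs (by norm_num)
  · rw [Finset.sum_comm, ← hT, Finset.mul_sum]
    refine Finset.sum_le_sum fun k _ => ?_
    rw [← Finset.sum_filter, Finset.sum_const, nsmul_eq_mul]
    refine mul_le_mul_of_nonneg_right ?_ (Real.rpow_nonneg (abs_nonneg _) _)
    refine (window_logb_count (R := K / δ1 ^ 2 * 2 ^ (L - 1))
      (one_le_mul_of_one_le_of_one_le hKd (one_le_pow₀ (by norm_num))) ?_).trans ?_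
    · intro i hi j hj hij
      simp only [Finset.mem_filter] at hi hj
      obtain ⟨-, -, hi⟩ := hi
      obtain ⟨-, hj, -⟩ := hj
      rcases eq_or_lt_of_le (hc k) with h | h
      · rw [← h] at hi
        simp only [zero_mul, mul_zero] at hi
        exact absurd hi (not_lt.2 (mul_nonneg hδ1.le (abs_nonneg _)))
      have h2 : δ1 ^ 2 * (c k * 2 ^ j) < K * (c k * 2 ^ i) * 2 ^ (L - 1) := by
        refine lt_trans ?_ hi
        rw [pow_two, mul_assoc]
        exact mul_lt_mul_of_pos_left hj hδ1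
      rw [← Nat.add_sub_cancel' hij, pow_add] at h2
      rw [div_mul_eq_mul_div, le_div_iff₀ (by positivity)]
      have hpos : 0 < c k * 2 ^ i := mul_pos h (by positivity)
      refine le_of_lt (lt_of_mul_lt_mul_left ?_ hpos.le)
      calc c k * 2 ^ i * (2 ^ (j - i) * δ1 ^ 2) = δ1 ^ 2 * (c k * (2 ^ i * 2 ^ (j - i))) := by ring
        _ < K * (c k * 2 ^ i) * 2 ^ (L - 1) := h2
        _ = _ := by ring
    · rw [Real.logb_mul (by positivity) (by positivity), Real.logb_pow,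
        Real.logb_self_eq_one (by norm_num)]
      have : ((L - 1 : ℕ) : ℝ) ≤ L := by exact_mod_cast Nat.sub_le L 1
      linarith

/-- Windowed averages of the two error parts. -/
lemma window_parts {p : ℝ} (hp : 1 ≤ p) {N J L : ℕ} (hL : 1 ≤ L) (hLJ : L ≤ J) {T η Amax H : ℝ}
    {δt τ : ℝ} (hAmax : 1 ≤ Amax) (hδt : δt ≤ T * η) (e D g : Fin N → ℕ → ℝ) (c : Fin N → ℝ)
    (A : Fin N → ℕ → ℝ) (hc : ∀ k, 0 ≤ c k)
    (hg : ∀ k l, g k l = c k * 2 ^ l * A k l)
    (hA : ∀ k, ∀ l < J, A k l = 0 ∨ (1 ≤ A k l ∧ A k l ≤ Amax))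
    (he : ∀ l < J, ∑ k, |e k l| ^ p ≤ δt)
    (hD : ∀ k, ∀ l < J, |D k l| ≤ g k l)
    (hH : ∑ k, ∑ l ∈ range J, g k l ^ p ≤ H * T)
    (hτ : τ = (1 + Real.log (2 + Amax)) ^ (p - 1) * H / ((L:ℝ) ^ (p - 1) * (J - L + 1 : ℕ)))
    (hT : 0 ≤ T) (hτη : τ ≤ η) :
    ∑ lo ∈ range (J - L + 1), ∑ k, |winAvg L (e k) lo| ^ p
      + ∑ lo ∈ range (J - L + 1), ∑ k, |winAvg L (D k) lo| ^ p
      ≤ (1 + 2 ^ p * 3 ^ (p - 1)) * ((J - L + 1 : ℕ) * (T * η)) := by
  have hLR : (0:ℝ) < L := by exact_mod_cast hL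
  have hwin : ∀ lo ∈ range (J - L + 1), ∀ l ∈ Ico lo (lo + L), l < J := by
    intro lo hlo l hl
    rw [Finset.mem_range] at hlo
    rw [Finset.mem_Ico] at hl
    omega
  have hg0 : ∀ k, ∀ l < J, 0 ≤ g k l := fun k l hl => (abs_nonneg _).trans (hD k l hl)
  have hlog : 0 ≤ 1 + Real.log (2 + Amax) := by
    linarith [Real.log_nonneg (show (1:ℝ) ≤ 2 + Amax by linarith)]
  rw [add_mul, one_mul]
  refine add_le_add ?_ ?_
  · calc ∑ lo ∈ range (J - L + 1), ∑ k, |winAvg L (e k) lo| ^ p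
        ≤ ∑ lo ∈ range (J - L + 1), ∑ k, (∑ l ∈ Ico lo (lo + L), |e k l| ^ p) / L :=
          Finset.sum_le_sum fun lo _ => Finset.sum_le_sum fun k _ => window_avg_rpow_le hp hL _ _
      _ ≤ ∑ lo ∈ range (J - L + 1), T * η := by
          refine Finset.sum_le_sum fun lo hlo => ?_
          rw [← Finset.sum_div, Finset.sum_comm, div_le_iff₀ hLR]
          calc ∑ l ∈ Ico lo (lo + L), ∑ k, |e k l| ^ p ≤ ∑ l ∈ Ico lo (lo + L), T * η :=
                Finset.sum_le_sum fun l hl => (he l (hwin lo hlo l hl)).trans hδt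
            _ = T * η * L := by simp; ring
      _ = _ := by simp
  · calc ∑ lo ∈ range (J - L + 1), ∑ k, |winAvg L (D k) lo| ^ p
        ≤ ∑ lo ∈ range (J - L + 1), ∑ k, 2 ^ p * (3 * (1 + Real.log (2 + Amax))) ^ (p - 1)
            / (L:ℝ) ^ p * ∑ l ∈ Ico lo (lo + L), g k l ^ p := by
          refine Finset.sum_le_sum fun lo hlo => Finset.sum_le_sum fun k _ => ?_
          have h1 : |winAvg L (D k) lo| ≤ (∑ l ∈ Ico lo (lo + L), g k l) / L := by
            rw [winAvg, abs_div, abs_of_pos hLR]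
            exact div_le_div_of_nonneg_right ((Finset.abs_sum_le_sum_abs _ _).trans
              (Finset.sum_le_sum fun l hl => hD k l (hwin lo hlo l hl))) hLR.le
          refine (Real.rpow_le_rpow (abs_nonneg _) h1 (by linarith)).trans ?_
          rw [Real.div_rpow (Finset.sum_nonneg fun l hl => hg0 k l (hwin lo hlo l hl)) hLR.le,
            div_mul_eq_mul_div]
          refine div_le_div_of_nonneg_right ?_ (Real.rpow_nonneg hLR.le _)
          simp only [hg]
          exact window_top_terms hp (hc k) hAmax _ (A k) (fun l hl => hA k l (hwin lo hlo l hl))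
      _ = 2 ^ p * (3 * (1 + Real.log (2 + Amax))) ^ (p - 1) / (L:ℝ) ^ p
            * ∑ k, ∑ lo ∈ range (J - L + 1), ∑ l ∈ Ico lo (lo + L), g k l ^ p := by
          rw [Finset.sum_comm, Finset.mul_sum]
          exact Finset.sum_congr rfl fun k _ => (Finset.mul_sum _ _ _).symm
      _ ≤ 2 ^ p * (3 * (1 + Real.log (2 + Amax))) ^ (p - 1) / (L:ℝ) ^ p * ((L:ℝ) * (H * T)) := by
          refine mul_le_mul_of_nonneg_left ?_ (by positivity)
          refine (Finset.sum_le_sum fun k _ => ?_).trans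
            ((le_of_eq (Finset.mul_sum _ _ _).symm).trans (mul_le_mul_of_nonneg_left hH hLR.le))
          exact window_count _ (fun l hl => Real.rpow_nonneg (hg0 k l hl) _) hLJ
      _ = 2 ^ p * 3 ^ (p - 1) * ((J - L + 1 : ℕ) * (T * τ)) := by
          have hJ : ((J - L + 1 : ℕ) : ℝ) ≠ 0 := by exact_mod_cast Nat.succ_ne_zero (J - L)
          rw [hτ, Real.mul_rpow (by norm_num : (0:ℝ) ≤ 3) hlog, Real.rpow_sub_one hLR.ne']
          field_simp
      _ ≤ _ := by gcongr

/-- Two-sided mean value bound. -/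
lemma window_meanvalue {p x y t r M : ℝ} (hp : 1 ≤ p) (hx : 0 ≤ x) (hy : 0 ≤ y) (hr : 0 ≤ r)
    (hxy : x ≤ y + r) (hyx : y ≤ x + r) (hyt : y ≤ t) (hM : t + r ≤ M) :
    |x ^ p - y ^ p| ≤ p * M ^ (p - 1) * r := by
  have hM0 : 0 ≤ M := by linarith
  have key : ∀ a b : ℝ, 0 ≤ b → b ≤ a → a ≤ M → a - b ≤ r →
      a ^ p - b ^ p ≤ p * M ^ (p - 1) * r := fun a b hb hba haM hab =>
    (window_rpow_sub_le hp hb hba).trans (mul_le_mul (mul_le_mul_of_nonneg_left
      (Real.rpow_le_rpow (hb.trans hba) haM (by linarith)) (by linarith)) hab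
      (by linarith) (mul_nonneg (by linarith) (Real.rpow_nonneg hM0 _)))
  rw [abs_le]
  rcases le_total y x with h | h
  · have := key x y hy h (by linarith) (by linarith)
    have := Real.rpow_le_rpow hy h (by linarith : 0 ≤ p)
    constructor <;> linarith
  · have := key y x hx h (by linarith) (by linarith)
    have := Real.rpow_le_rpow hx h (by linarith : 0 ≤ p)
    constructor <;> linarith

/-- Averaging stopped chains over windows of levels. -/
theorem window {p : ℝ} (hp : 1 < p) : WindowStmt p := by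
  have hp1 : 1 ≤ p := hp.le
  have hp0 : 0 < p := by linarith
  set Cτ : ℝ := 2 ^ p * 3 ^ (p - 1) with hCτ
  have hCτ0 : 0 < Cτ := by positivity
  set K0 : ℝ := 2 * 2 ^ p * (1 + Cτ) with hK0
  have hK00 : 0 < K0 := by positivity
  set K1 : ℝ := K0 ^ (1 / p) with hK1
  have hK10 : 0 ≤ K1 := by positivity
  set M1 : ℝ := p * (1 + 2 * K1) ^ (p - 1) * K1 with hM1
  have hM10 : 0 ≤ M1 := by positivity
  refine ⟨(1 + K1) ^ p + M1 + p * (2 + K0) + 3, by positivity, ?_⟩
  intro N J L hL hLJ G0 t δ δ1 K Amax H Hc s d a P e D A hG0 ht hδ hδ1 hδ11 hK hAmax hH hHc hs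
    hd ha hP he hD hA hH' hHc' hbd J1 τ F
  have hJ1eq : J1 = J - L + 1 := rfl
  have hJ1 : (0:ℝ) < J1 := by exact_mod_cast (Nat.succ_pos _ : 0 < J1)
  have hLR : (0:ℝ) < L := by exact_mod_cast hL
  have hτ0 : 0 ≤ τ := by
    have : 0 ≤ 1 + Real.log (2 + Amax) := by
      linarith [Real.log_nonneg (show (1:ℝ) ≤ 2 + Amax by linarith)]
    exact div_nonneg (mul_nonneg (Real.rpow_nonneg this _) hH) (by positivity)
  set η : ℝ := δ + τ ^ (1 / p) with hη
  have hη0 : 0 ≤ η := add_nonneg hδ (Real.rpow_nonneg hτ0 _)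
  have hηδ : δ ^ p ≤ η ^ p :=
    Real.rpow_le_rpow hδ (le_add_of_nonneg_right (Real.rpow_nonneg hτ0 _)) hp0.le
  have hητ : τ ≤ η ^ p := by
    calc τ = (τ ^ (1 / p)) ^ p := by
          rw [← Real.rpow_mul hτ0, one_div_mul_cancel hp0.ne', Real.rpow_one]
      _ ≤ η ^ p := Real.rpow_le_rpow (Real.rpow_nonneg hτ0 _) (le_add_of_nonneg_left hδ) hp0.le
  have htp : 0 < t ^ p := Real.rpow_pos_of_pos ht _
  -- membership
  have hwin : ∀ lo ∈ range J1, ∀ l ∈ Ico lo (lo + L), l < J := by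
    intro lo hlo l hl
    rw [Finset.mem_range, hJ1eq] at hlo
    rw [Finset.mem_Ico] at hl
    omega
  have hab : ∀ k, ∀ lo ∈ range J1, winAvg L (a k) lo
      = winAvg L (P k) lo * d k + winAvg L (e k) lo + winAvg L (D k) lo := by
    intro k lo hlo
    rw [← window_winAvg_lin]
    simp only [winAvg]
    rw [Finset.sum_congr rfl fun l hl => ha k l (hwin lo hlo l hl)]
  have hPb : ∀ k, ∀ lo ∈ range J1, 0 ≤ winAvg L (P k) lo ∧ winAvg L (P k) lo ≤ 1 := by
    intro k lo hlo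
    constructor
    · exact div_nonneg (Finset.sum_nonneg fun l hl => (hP k l (hwin lo hlo l hl)).1) hLR.le
    · rw [winAvg, div_le_one hLR]
      calc ∑ l ∈ Ico lo (lo + L), P k l ≤ ∑ l ∈ Ico lo (lo + L), (1:ℝ) :=
            Finset.sum_le_sum fun l hl => (hP k l (hwin lo hlo l hl)).2
        _ = L := by simp
  -- the error parts
  have hparts : ∑ lo ∈ range J1, ∑ k, |winAvg L (e k) lo| ^ p
      + ∑ lo ∈ range J1, ∑ k, |winAvg L (D k) lo| ^ p ≤ (1 + Cτ) * (J1 * (t ^ p * η ^ p)) :=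
    window_parts hp1 hL hLJ hAmax
      ((Real.mul_rpow hδ ht.le).trans_le ((mul_comm _ _).trans_le
        (mul_le_mul_of_nonneg_left hηδ htp.le)))
      e D (fun k l => G0 * 2 ^ l * s k * t * A k l) (fun k => G0 * s k * t) A
      (fun k => mul_nonneg (mul_nonneg hG0.le (hs k)) ht.le) (fun k l => by ring) hA he hD hH'
      rfl htp.le hητ
  -- Minkowski
  let w : ℕ × Fin N × Bool → ℝ := fun x =>
    if x.2.2 then winAvg L (a x.2.1) x.1 else d x.2.1 - winAvg L (a x.2.1) x.1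
  let u : ℕ × Fin N × Bool → ℝ := fun x =>
    if x.2.2 then winAvg L (P x.2.1) x.1 * d x.2.1 else (1 - winAvg L (P x.2.1) x.1) * d x.2.1
  set S : Finset (ℕ × Fin N × Bool) := range J1 ×ˢ (univ ×ˢ univ) with hS
  have hexp : ∀ f : ℕ × Fin N × Bool → ℝ,
      ∑ x ∈ S, f x = ∑ lo ∈ range J1, ∑ k, (f (lo, k, true) + f (lo, k, false)) := by
    intro f
    simp only [hS, Finset.sum_product, Fintype.sum_bool]
  set Y : ℝ := (∑ x ∈ S, |u x| ^ p) / J1 with hY
  have hY0 : 0 ≤ Y := div_nonneg (Finset.sum_nonneg fun _ _ => Real.rpow_nonneg (abs_nonneg _) _) hJ1.le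
  have hF : F = (∑ x ∈ S, |w x| ^ p) / J1 := by
    simp only [hexp, F, w, if_true, Bool.false_eq_true, if_false]
  have hF0 : 0 ≤ F := by
    rw [hF]
    exact div_nonneg (Finset.sum_nonneg fun _ _ => Real.rpow_nonneg (abs_nonneg _) _) hJ1.le
  have hR : (∑ x ∈ S, |w x - u x| ^ p) ≤ J1 * (K1 * (t * η)) ^ p := by
    rw [hexp]
    calc ∑ lo ∈ range J1, ∑ k, (|w (lo, k, true) - u (lo, k, true)| ^ p
          + |w (lo, k, false) - u (lo, k, false)| ^ p)
        ≤ ∑ lo ∈ range J1, ∑ k,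
            2 * (2 ^ p * (|winAvg L (e k) lo| ^ p + |winAvg L (D k) lo| ^ p)) := by
          refine Finset.sum_le_sum fun lo hlo => Finset.sum_le_sum fun k _ => ?_
          simp only [w, u, if_true, Bool.false_eq_true, if_false, hab k lo hlo]
          have e1 : winAvg L (P k) lo * d k + winAvg L (e k) lo + winAvg L (D k) lo
              - winAvg L (P k) lo * d k = winAvg L (e k) lo + winAvg L (D k) lo := by ring
          have e2 : d k - (winAvg L (P k) lo * d k + winAvg L (e k) lo + winAvg L (D k) lo)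
              - (1 - winAvg L (P k) lo) * d k = -(winAvg L (e k) lo + winAvg L (D k) lo) := by ring
          rw [e1, e2, abs_neg, ← two_mul]
          refine mul_le_mul_of_nonneg_left ?_ (by norm_num)
          exact (Real.rpow_le_rpow (abs_nonneg _) (abs_add_le _ _) hp0.le).trans
            (window_rpow_add_le hp1 (abs_nonneg _) (abs_nonneg _))
      _ = 2 * 2 ^ p * (∑ lo ∈ range J1, ∑ k, |winAvg L (e k) lo| ^ p
            + ∑ lo ∈ range J1, ∑ k, |winAvg L (D k) lo| ^ p) := by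
          simp only [← Finset.mul_sum, Finset.sum_add_distrib]
          ring
      _ ≤ 2 * 2 ^ p * ((1 + Cτ) * (J1 * (t ^ p * η ^ p))) := by gcongr
      _ = J1 * (K1 * (t * η)) ^ p := by
          rw [Real.mul_rpow hK10 (by positivity), Real.mul_rpow ht.le hη0, hK1,
            ← Real.rpow_mul hK00.le, one_div_mul_cancel hp0.ne', Real.rpow_one, hK0]
          ring
  set r : ℝ := K1 * (t * η) with hr
  have hr0 : 0 ≤ r := by positivity
  have hq : 0 ≤ 1 / p := by positivity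
  have hJq : 0 < (J1:ℝ) ^ (1 / p) := Real.rpow_pos_of_pos hJ1 _
  set x : ℝ := F ^ (1 / p) with hx
  set y : ℝ := Y ^ (1 / p) with hy
  have hxy : x ≤ y + r := by
    rw [hx, hy, hF, hY]; exact window_minkowski hp1 hJ1 hr0 S u w hR
  have hyx : y ≤ x + r := by
    rw [hx, hy, hF, hY]
    exact window_minkowski hp1 hJ1 hr0 S w u (by simpa only [abs_sub_comm] using hR)
  have hx0 : 0 ≤ x := Real.rpow_nonneg hF0 _
  have hy0 : 0 ≤ y := Real.rpow_nonneg hY0 _
  have hxp : x ^ p = F := by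
    rw [hx, ← Real.rpow_mul hF0, one_div_mul_cancel hp0.ne', Real.rpow_one]
  have hyp : y ^ p = Y := by
    rw [hy, ← Real.rpow_mul hY0, one_div_mul_cancel hp0.ne', Real.rpow_one]
  -- the ideal value
  have hYform : Y = (∑ lo ∈ range J1, ∑ k, (winAvg L (P k) lo ^ p
      + (1 - winAvg L (P k) lo) ^ p) * |d k| ^ p) / J1 := by
    rw [hY, hexp]
    congr 1
    refine Finset.sum_congr rfl fun lo hlo => Finset.sum_congr rfl fun k _ => ?_
    simp only [u, if_true, Bool.false_eq_true, if_false]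
    obtain ⟨h0, h1⟩ := hPb k lo hlo
    rw [abs_mul, abs_mul, Real.mul_rpow (abs_nonneg _) (abs_nonneg _),
      Real.mul_rpow (abs_nonneg _) (abs_nonneg _), abs_of_nonneg h0,
      abs_of_nonneg (sub_nonneg.2 h1)]
    ring
  have hgap : t ^ p - Y = (∑ lo ∈ range J1, ∑ k, (1 - winAvg L (P k) lo ^ p
      - (1 - winAvg L (P k) lo) ^ p) * |d k| ^ p) / J1 := by
    have : ∑ lo ∈ range J1, ∑ k, (1 - winAvg L (P k) lo ^ p - (1 - winAvg L (P k) lo) ^ p)
          * |d k| ^ p
        = J1 * t ^ p - ∑ lo ∈ range J1, ∑ k, (winAvg L (P k) lo ^ p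
          + (1 - winAvg L (P k) lo) ^ p) * |d k| ^ p := by
      rw [← hd]
      simp only [sub_sub, sub_mul, one_mul, Finset.sum_sub_distrib, Finset.sum_const,
        Finset.card_range, nsmul_eq_mul]
    rw [this, sub_div, hYform, mul_div_assoc, mul_div_cancel₀ _ hJ1.ne']
  have hYt : Y ≤ t ^ p := by
    have : 0 ≤ t ^ p - Y := by
      rw [hgap]
      exact div_nonneg (Finset.sum_nonneg fun lo hlo => Finset.sum_nonneg fun k _ =>
        mul_nonneg (window_loss hp1 (hPb k lo hlo).1 (hPb k lo hlo).2).1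
          (Real.rpow_nonneg (abs_nonneg _) _)) hJ1.le
    linarith
  have hyt : y ≤ t := by
    rw [← Real.rpow_le_rpow_iff hy0 ht.le hp0, hyp]; exact hYt
  clear_value F τ w u x y Y r η M1 K1 K0 Cτ
  refine ⟨?_, fun hδle hτle => ?_⟩
  · have h1 : x ≤ (1 + K1) * (t * (1 + δ + τ ^ (1 / p))) := by
      have e1 : (1 + K1) * (t * (1 + δ + τ ^ (1 / p))) = t + r + (t * η + K1 * t) := by
        rw [hr, hη]; ring
      have e2 : 0 ≤ t * η + K1 * t := by positivity
      linarith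
    rw [← hxp]
    refine (Real.rpow_le_rpow hx0 h1 hp0.le).trans ?_
    rw [Real.mul_rpow (by positivity) (by positivity)]
    have : 0 ≤ M1 + p * (2 + K0) + 3 := by positivity
    exact mul_le_mul_of_nonneg_right (by linarith) (Real.rpow_nonneg (by positivity) _)
  -- two-sided bound
  have hη2 : η ≤ 2 := by
    have : τ ^ (1 / p) ≤ 1 := Real.rpow_le_one hτ0 hτle hq
    rw [hη]; linarith
  have hFY : |F - Y| ≤ M1 * η * t ^ p := by
    have hrt : t + r ≤ t * (1 + 2 * K1) := by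
      rw [hr]
      have : K1 * (t * η) ≤ K1 * (t * 2) := by gcongr
      linarith
    rw [← hxp, ← hyp]
    refine (window_meanvalue hp1 hx0 hy0 hr0 hxy hyx hyt hrt).trans (le_of_eq ?_)
    rw [Real.mul_rpow ht.le (by positivity), Real.rpow_sub_one ht.ne', hM1, hr]
    field_simp
  -- the loss
  set lam : ℝ := η + δ1 with hlam
  have hlam0 : 0 < lam := by linarith
  have hlq : 0 < lam ^ (p - 1) := Real.rpow_pos_of_pos hlam0 _
  have hKd : 1 ≤ K / δ1 ^ 2 := by
    rw [le_div_iff₀ (by positivity), one_mul]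
    exact le_trans (pow_le_one₀ hδ1.le hδ11) hK
  have hHs : ∑ k, ∑ l ∈ range J, (if P k l < 1 then (G0 * s k * t * 2 ^ l) ^ p else 0)
      ≤ Hc * t ^ p := by
    refine le_trans (le_of_eq (Finset.sum_congr rfl fun k _ => Finset.sum_congr rfl fun l _ => ?_)) hHc'
    rw [show G0 * s k * t * 2 ^ l = G0 * 2 ^ l * s k * t by ring]
  have hK0le : 2 ^ p * (1 + Cτ) ≤ K0 := by
    rw [hK0]
    have : 0 ≤ 2 ^ p * (1 + Cτ) := by positivity
    linarith
  have hηl : η ^ p / lam ^ (p - 1) ≤ lam := by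
    rw [div_le_iff₀ hlq]
    calc η ^ p ≤ lam ^ p := Real.rpow_le_rpow hη0 (by linarith) hp0.le
      _ = lam * lam ^ (p - 1) := by rw [Real.rpow_sub_one hlam0.ne']; field_simp
  have htot := window_loss_total hp1 hL hLJ hδ1 hδ11 hlam0 hK (fun k => G0 * s k * t) d
    (fun k => mul_nonneg (mul_nonneg hG0.le (hs k)) ht.le) hd a P e D hP
    (fun k l hl => (hbd k l hl).trans (le_of_eq (by ring))) hab hHs
    (W := (1 + Cτ) * (J1 * (t ^ p * η ^ p))) hparts
  have hloss : t ^ p - Y ≤ (δ1 ^ p * (2 * Hc) / J1 + (L + Real.logb 2 (K / δ1 ^ 2) + 3) / J1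
      + p * (δ1 + lam + K0 * lam)) * t ^ p := by
    rw [hgap, div_le_iff₀ hJ1]
    refine htot.trans ?_
    have h3 : 2 ^ p * ((1 + Cτ) * (J1 * (t ^ p * η ^ p))) / lam ^ (p - 1)
        ≤ K0 * lam * t ^ p * J1 := by
      calc 2 ^ p * ((1 + Cτ) * (J1 * (t ^ p * η ^ p))) / lam ^ (p - 1)
          = 2 ^ p * (1 + Cτ) * (η ^ p / lam ^ (p - 1)) * t ^ p * J1 := by ring
        _ ≤ K0 * lam * t ^ p * J1 := by gcongr
    have hfin : (δ1 ^ p * (2 * Hc) / J1 + (L + Real.logb 2 (K / δ1 ^ 2) + 3) / J1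
        + p * (δ1 + lam + K0 * lam)) * t ^ p * J1
        = δ1 ^ p * (2 * (Hc * t ^ p)) + (L + Real.logb 2 (K / δ1 ^ 2) + 3) * t ^ p
          + p * (J1 * ((δ1 + lam) * t ^ p) + K0 * lam * t ^ p * J1) := by
      field_simp
    rw [hfin]
    exact add_le_add le_rfl (mul_le_mul_of_nonneg_left (add_le_add le_rfl h3) hp0.le)
  set U : ℝ := (L + Real.logb 2 (K / δ1 ^ 2) + 3) / J1 with hU
  have hU0 : 0 ≤ U := by
    have := Real.logb_nonneg (by norm_num : (1:ℝ) < 2) hKd
    positivity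
  set V : ℝ := δ1 ^ p * Hc / J1 with hV
  have hV0 : 0 ≤ V := by positivity
  set S0 : ℝ := δ + δ1 + τ ^ (1 / p) + V + U with hS0
  have hlS : lam ≤ S0 := by rw [hlam, hη, hS0]; linarith
  have hηS : η ≤ S0 := by linarith
  have hdS : δ1 ≤ S0 := by linarith
  have hVS : V ≤ S0 := by
    have := Real.rpow_nonneg hτ0 (1 / p); rw [hS0]; linarith
  have hUS : U ≤ S0 := by
    have := Real.rpow_nonneg hτ0 (1 / p); rw [hS0]; linarith
  have hS00 : 0 ≤ S0 := by linarith
  have hmain : M1 * η + (δ1 ^ p * (2 * Hc) / J1 + U + p * (δ1 + lam + K0 * lam))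
      ≤ ((1 + K1) ^ p + M1 + p * (2 + K0) + 3) * S0 := by
    have e1 : δ1 ^ p * (2 * Hc) / J1 = 2 * V := by rw [hV]; ring
    have a1 := mul_le_mul_of_nonneg_left hηS hM10
    have a2 := mul_le_mul_of_nonneg_left hlS hK00.le
    have a3 := mul_le_mul_of_nonneg_left (add_le_add (add_le_add hdS hlS) a2) hp0.le
    have a4 : 0 ≤ (1 + K1) ^ p * S0 := by positivity
    linarith
  have habs : |F - t ^ p| ≤ |F - Y| + (t ^ p - Y) :=
    (abs_sub_le F Y (t ^ p)).trans
      (add_le_add le_rfl (le_of_eq (by rw [abs_sub_comm, abs_of_nonneg (by linarith)])))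
  calc |F - t ^ p| ≤ |F - Y| + (t ^ p - Y) := habs
    _ ≤ (M1 * η + (δ1 ^ p * (2 * Hc) / J1 + U + p * (δ1 + lam + K0 * lam))) * t ^ p := by
        rw [add_mul]
        exact add_le_add hFY hloss
    _ ≤ _ := mul_le_mul_of_nonneg_right hmain htp.le

end Vale.Agent.P249.Full
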