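import Mathlib
import Vale.Agent.P249.Full.Final
import Vale.Agent.P249.Full.Split
import Vale.Agent.P249.Full.KernelMain
import Vale.Agent.P249.Full.SepSmall
import Vale.Agent.P249.Full.Tilted
import Vale.Agent.P249.Full.Hybrid
import Vale.Agent.P249.Full.Star
import Vale.Agent.P249.Full.Rows
import Vale.Agent.P249.Full.SparseHash
import Vale.Agent.P249.Full.Sketch
import Vale.Agent.P249.Full.Family
import Vale.Agent.P249.Full.ScaleOne
import Vale.Agent.P249.Full.Window
import Vale.Agent.P249.Full.Asymp
import Vale.Agent.P249.Full.Majority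
import Vale.Agent.P249.Full.Sens
import Vale.Agent.P249.Full.Chain
import Vale.Agent.P249.Full.Pair
import Vale.Agent.P249.Full.GlueFull

/-! The modules put together. -/

namespace Vale.Agent.P249.Full

/-- The kernel for every exponent above one. -/
theorem kernel {p : ℝ} (hp : 1 < p) : KernelStmt p := by
  rcases lt_or_ge p 2 with h | h
  · exact kernel_of_sep hp.le (sep_small hp h)
  · exact kernel_of_sep hp.le (sep_large h tilted)

/-- The sketch. -/
theorem sketch_all {p : ℝ} (hp : 1 < p) : SketchStmt p := sketch hp (sparse_hash hp)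

/-- Sublinear dimension at every distortion above one. -/
theorem sublinear {p : ℝ} (hp : 1 < p) (D : ℝ) (hD : 1 < D) :
    ∃ κ C : ℝ, 0 < κ ∧ 0 < C ∧ ∀ n : ℕ, 2 ≤ n → ∀ (N : ℕ) (X : Fin n → Fin N → ℝ),
      Function.Injective X →
        ∃ d : ℕ, (d : ℝ) ≤ C * (n:ℝ) ^ (1 - κ) ∧
          ∃ (f : Fin n → Fin d → ℝ) (s : ℝ), 0 < s ∧ ∀ i j : Fin n,
            s * (∑ k, |X i k - X j k| ^ p) ^ (1 / p) ≤ (∑ k, |f i k - f j k| ^ p) ^ (1 / p) ∧
            (∑ k, |f i k - f j k| ^ p) ^ (1 / p)
              ≤ D * (s * (∑ k, |X i k - X j k| ^ p) ^ (1 / p)) :=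
  sublinear_of hp (rows hp.le) (family hp (sketch_all hp))
    (split_of hp (kernel hp) hybrid centres star (sens hp (scale majority))
      (norm_level (scale majority)) (pair hp (scale majority) (energy hp.le majority) chain) (window hp)
      (asymp hp))
    (glue_full hp (sketch_all hp)) D hD

end Vale.Agent.P249.Full
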